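import Vale.Agent.P161.Limit

/-!
From rankings and innovations to one uniform variable per vertex.
-/

namespace Vale.Agent.P161

open MeasureTheory SimpleGraph Finset Function
open scoped unitInterval

variable {V : Type*} [DecidableEq V] {G : SimpleGraph V}

/-- Put a ranking and innovations into one array. -/
def comb (p : (V → I) × (ℕ × V → I)) (q : V × ℕ) : I :=
  if q.2 = 0 then p.1 q.1 else p.2 (q.2 - 1, q.1)

/-- Read off a ranking and innovations from one array. -/
def split (h : V × ℕ → I) : (V → I) × (ℕ × V → I) :=
  (fun v => h (v, 0), fun q => h (q.2, q.1 + 1))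

omit [DecidableEq V] in
lemma measurable_comb : Measurable (comb : (V → I) × (ℕ × V → I) → V × ℕ → I) := by
  refine measurable_pi_lambda _ fun q => ?_
  unfold comb
  split_ifs
  · exact (measurable_pi_apply _).comp measurable_fst
  · exact (measurable_pi_apply _).comp measurable_snd

omit [DecidableEq V] in
lemma measurable_split : Measurable (split : (V × ℕ → I) → (V → I) × (ℕ × V → I)) :=
  (measurable_pi_lambda _ fun v => measurable_pi_apply (v, 0)).prodMk
    (measurable_pi_lambda _ fun q => measurable_pi_apply (q.2, q.1 + 1))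

lemma map_comb :
    (PQ V).map comb = Measure.infinitePi (fun _ : V × ℕ => (volume : Measure I)) := by
  refine Measure.eq_infinitePi _ fun s t ht => ?_
  rw [Measure.map_apply measurable_comb (.pi s.countable_toSet fun _ _ => ht _)]
  set A := (s.filter fun q => q.2 = 0).image Prod.fst with hA
  set B := (s.filter fun q => ¬ q.2 = 0).image (fun q : V × ℕ => (q.2 - 1, q.1)) with hB
  have hpre : comb ⁻¹' Set.pi (s : Set (V × ℕ)) t =
      Set.pi (A : Set V) (fun v => t (v, 0)) ×ˢ
        Set.pi (B : Set (ℕ × V)) (fun q => t (q.2, q.1 + 1)) := by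
    ext ⟨U, g⟩
    simp only [Set.mem_preimage, Set.mem_pi, Finset.mem_coe, Set.mem_prod, hA, hB,
      Finset.mem_image, Finset.mem_filter, comb]
    constructor
    · intro h
      constructor
      · rintro v ⟨⟨w, k⟩, ⟨hq, hk⟩, rfl⟩
        simp only at hk
        subst hk
        simpa using h _ hq
      · rintro ⟨k, v⟩ ⟨⟨w, l⟩, ⟨hq, hl⟩, he⟩
        simp only at hl
        simp only [Prod.mk.injEq] at he
        obtain ⟨rfl, rfl⟩ := he
        have := h _ hq
        simp only [if_neg hl] at this
        rw [Nat.sub_add_cancel (Nat.pos_of_ne_zero hl)]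
        exact this
    · rintro ⟨h1, h2⟩ ⟨v, k⟩ hq
      by_cases hk : k = 0
      · subst hk
        simpa using h1 v ⟨(v, 0), ⟨hq, rfl⟩, rfl⟩
      · have := h2 (k - 1, v) ⟨(v, k), ⟨hq, hk⟩, rfl⟩
        simp only at this
        rw [Nat.sub_add_cancel (Nat.pos_of_ne_zero hk)] at this
        simpa [hk] using this
  rw [hpre, PQ, Measure.prod_prod, PU, Pg, Measure.infinitePi_pi _ (fun v _ => ht _),
    Measure.infinitePi_pi _ (fun q _ => ht _), hA, hB, Finset.prod_image, Finset.prod_image,
    ← Finset.prod_filter_mul_prod_filter_not s (fun q => q.2 = 0)]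
  · congr 1
    · refine Finset.prod_congr rfl fun q hq => ?_
      congr 2
      exact Prod.ext rfl (Finset.mem_filter.1 hq).2.symm
    · refine Finset.prod_congr rfl fun q hq => ?_
      congr 2
      exact Prod.ext rfl (Nat.sub_add_cancel (Nat.pos_of_ne_zero (Finset.mem_filter.1 hq).2))
  · intro a ha b hb h
    simp only [Finset.mem_coe, Finset.mem_filter] at ha hb
    simp only [Prod.mk.injEq] at h
    exact Prod.ext h.2 (by omega)
  · intro a ha b hb h
    simp only [Finset.mem_coe, Finset.mem_filter] at ha hb
    exact Prod.ext h (ha.2.trans hb.2.symm)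

lemma map_split :
    (Measure.infinitePi fun _ : V × ℕ => (volume : Measure I)).map split = PQ V := by
  rw [← map_comb, Measure.map_map measurable_split measurable_comb]
  have : split ∘ comb = (id : (V → I) × (ℕ × V → I) → _) := by
    funext p
    simp [split, comb]
  rw [this, Measure.map_id]

variable [Countable V]

/-- Factor of one uniform variable per vertex. -/
theorem exists_factor [G.LocallyFinite] (hG : G.IsTree) {d : ℕ} (hd : 3 ≤ d)
    (hreg : ∀ v, G.degree v = d) {θ : ℝ} (h0 : 0 ≤ θ) (hsub : ((d : ℝ) - 1) * θ ^ 2 < 1) :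
    ∃ Φ : (V → I) → V → Bool, Measurable Φ ∧
      (∀ (φ : G ≃g G) (ω : V → I),
        Φ (fun v => ω (φ.symm v)) = fun v => Φ ω (φ.symm v)) ∧
      ∀ D : Finset V, Conn G D → ∀ b : V → Bool,
        (Measure.infinitePi fun _ : V => (volume : Measure I)).real
            {ω | ∀ u ∈ D, Φ ω u = b u} = wt G θ D (D.filter fun u => b u = true) := by
  obtain ⟨Ψ, hΨm, hΨe, hΨlaw⟩ := exists_spinMap hG hd hreg h0 hsub
  obtain ⟨f, hfm, hf⟩ := Measure.exists_measurable_map_eq
    (Measure.infinitePi fun _ : ℕ => (volume : Measure I))
  set dec := fun ω : V → I => split (fun q : V × ℕ => f (ω q.1) q.2) with hdec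
  have hjm : Measurable fun ω : V → I => fun q : V × ℕ => f (ω q.1) q.2 :=
    measurable_pi_lambda _ fun q =>
      (measurable_pi_apply q.2).comp (hfm.comp (measurable_pi_apply q.1))
  have hdm : Measurable dec := measurable_split.comp hjm
  have hmap : (Measure.infinitePi fun _ : V => (volume : Measure I)).map dec = PQ V := by
    rw [← map_split, hdec]
    have e1 : (Measure.infinitePi fun _ : V => (volume : Measure I)).map (fun ω v => f (ω v)) =
        Measure.infinitePi fun _ : V => Measure.infinitePi fun _ : ℕ => (volume : Measure I) := by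
      rw [Measure.infinitePi_map_pi _ (fun _ => hfm), hf]
    have e2 : (Measure.infinitePi fun _ : V => (volume : Measure I)).map
        (fun ω : V → I => fun q : V × ℕ => f (ω q.1) q.2) =
        Measure.infinitePi fun _ : V × ℕ => (volume : Measure I) := by
      rw [← Measure.infinitePi_map_curry_symm (fun (_ : V) (_ : ℕ) => (volume : Measure I)), ← e1,
        Measure.map_map (MeasurableEquiv.measurable _)
          (measurable_pi_lambda (fun ω : V → I => fun v => f (ω v))
            fun v => hfm.comp (measurable_pi_apply v))]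
      rfl
    rw [← e2, Measure.map_map measurable_split hjm]
    rfl
  refine ⟨fun ω => Ψ (dec ω), hΨm.comp hdm, fun φ ω => ?_, fun D hD b => ?_⟩
  · funext w
    obtain ⟨v, rfl⟩ := φ.surjective w
    simp only [RelIso.symm_apply_apply]
    exact hΨe φ (dec ω).1 (dec ω).2 v
  · rw [← hΨlaw D hD b, ← hmap, map_measureReal_apply hdm]
    · rfl
    · rw [Set.setOf_forall]
      refine MeasurableSet.iInter fun u => ?_
      rw [Set.setOf_forall]
      refine MeasurableSet.iInter fun _ => ?_
      exact ((measurable_pi_apply u).comp hΨm) (measurableSet_singleton (b u))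

omit [DecidableEq V] [Countable V] in
/-- A connected locally finite graph has countably many vertices. -/
lemma countable_vertices [G.LocallyFinite] (hG : G.IsTree) : Countable V := by
  classical
  obtain ⟨o⟩ := hG.connected.nonempty
  have : (Set.univ : Set V) = ⋃ n, (ballF G o n : Set V) := by
    ext v
    simp only [Set.mem_univ, Set.mem_iUnion, Finset.mem_coe, true_iff]
    exact ⟨G.dist o v, (mem_ballF hG o _ v).2 le_rfl⟩
  exact Set.countable_univ_iff.1 (this ▸ Set.countable_iUnion fun n => (ballF G o n).countable_toSet)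

end Vale.Agent.P161
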