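import Vale.Agent.P161.Sol

/-!
The law of the finite-volume observations, marginalisation, and a bounded-difference
variance inequality.
-/

namespace Vale.Agent.P161

open MeasureTheory SimpleGraph Finset Function
open scoped unitInterval ENNReal

section Generic

variable {ι α : Type*} [DecidableEq ι] [MeasurableSpace α] (μ : Measure α) [IsProbabilityMeasure μ]

lemma measurable_update2 (i : ι) :
    Measurable (fun p : (ι → α) × α => update p.1 i p.2) := by
  refine measurable_pi_lambda _ fun j => ?_
  by_cases h : j = i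
  · subst h; simpa [update_self] using measurable_snd
  · simpa [update_of_ne h] using (measurable_pi_apply j).fun_comp measurable_fst

lemma map_update_prod (i : ι) :
    ((Measure.infinitePi fun _ : ι => μ).prod μ).map (fun p => update p.1 i p.2) =
      Measure.infinitePi fun _ : ι => μ := by
  refine Measure.eq_infinitePi _ fun s t ht => ?_
  rw [Measure.map_apply (measurable_update2 i) (.pi s.countable_toSet fun _ _ => ht _)]
  by_cases hi : i ∈ s
  · have : (fun p : (ι → α) × α => update p.1 i p.2) ⁻¹' Set.pi (s : Set ι) t =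
        Set.pi ((s.erase i : Finset ι) : Set ι) t ×ˢ t i := by
      ext ⟨y, x⟩
      simp only [Set.mem_preimage, Set.mem_pi, Finset.mem_coe, Set.mem_prod, Finset.mem_erase]
      constructor
      · intro h
        exact ⟨fun j hj => by simpa [update_of_ne hj.1] using h j hj.2, by simpa using h i hi⟩
      · rintro ⟨h1, h2⟩ j hj
        by_cases hji : j = i
        · subst hji; simpa using h2
        · simpa [update_of_ne hji] using h1 j ⟨hji, hj⟩
    rw [this, Measure.prod_prod, Measure.infinitePi_pi _ (fun j _ => ht j),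
      Finset.prod_erase_mul _ (fun j => μ (t j)) hi]
  · have : (fun p : (ι → α) × α => update p.1 i p.2) ⁻¹' Set.pi (s : Set ι) t =
        Set.pi (s : Set ι) t ×ˢ Set.univ := by
      ext ⟨y, x⟩
      simp only [Set.mem_preimage, Set.mem_pi, Finset.mem_coe, Set.mem_prod, Set.mem_univ, and_true]
      exact forall₂_congr fun j hj => by rw [update_of_ne (fun h : j = i => hi (h ▸ hj))]
    rw [this, Measure.prod_prod, Measure.infinitePi_pi _ (fun j _ => ht j), measure_univ, mul_one]

lemma lintegral_update (i : ι) {F : (ι → α) → ℝ≥0∞} (hF : Measurable F) :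
    ∫⁻ y, F y ∂(Measure.infinitePi fun _ : ι => μ) =
      ∫⁻ y, ∫⁻ x, F (update y i x) ∂μ ∂(Measure.infinitePi fun _ : ι => μ) := by
  conv_lhs => rw [← map_update_prod μ i]
  rw [lintegral_map hF (measurable_update2 i),
    lintegral_prod (μ := Measure.infinitePi fun _ : ι => μ) (ν := μ)
      (fun p => F (update p.1 i p.2)) (hF.comp (measurable_update2 i)).aemeasurable]

lemma integrable_of_bounded {β : Type*} [MeasurableSpace β] {P : Measure β} [IsFiniteMeasure P]
    {F : β → ℝ} (hF : Measurable F) {C : ℝ} (hC : ∀ x, |F x| ≤ C) : Integrable F P :=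
  Integrable.mono' (integrable_const C) hF.aestronglyMeasurable (ae_of_all _ hC)

lemma integral_update (i : ι) {F : (ι → α) → ℝ} (hF : Measurable F) {C : ℝ}
    (hC : ∀ y, |F y| ≤ C) :
    ∫ y, F y ∂(Measure.infinitePi fun _ : ι => μ) =
      ∫ y, ∫ x, F (update y i x) ∂μ ∂(Measure.infinitePi fun _ : ι => μ) := by
  conv_lhs => rw [← map_update_prod μ i]
  rw [integral_map (measurable_update2 i).aemeasurable hF.aestronglyMeasurable,
    integral_prod _ (integrable_of_bounded (hF.fun_comp (measurable_update2 i)) fun p => hC _)]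

/-- Average over an independent copy on the coordinates `T`. -/
noncomputable def avg (T : Finset ι) (f : (ι → α) → ℝ) (y : ι → α) : ℝ :=
  ∫ x, f (T.piecewise x y) ∂(Measure.infinitePi fun _ : ι => μ)

lemma measurable_piecewise2 (T : Finset ι) :
    Measurable (fun p : (ι → α) × (ι → α) => T.piecewise p.2 p.1) := by
  refine measurable_pi_lambda _ fun j => ?_
  by_cases h : j ∈ T
  · simpa [Finset.piecewise_eq_of_mem _ _ _ h] using (measurable_pi_apply j).fun_comp measurable_snd
  · simpa [Finset.piecewise_eq_of_notMem _ _ _ h] using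
      (measurable_pi_apply j).fun_comp measurable_fst

lemma measurable_avg (T : Finset ι) {f : (ι → α) → ℝ} (hf : Measurable f) :
    Measurable (avg μ T f) :=
  ((hf.fun_comp (measurable_piecewise2 T)).stronglyMeasurable.integral_prod_right').measurable

lemma abs_integral_le_of_bound {β : Type*} [MeasurableSpace β] {P : Measure β}
    [IsProbabilityMeasure P] {F : β → ℝ} {C : ℝ} (hC : ∀ x, |F x| ≤ C) : |∫ x, F x ∂P| ≤ C := by
  simpa using norm_integral_le_of_norm_le_const (f := F) (μ := P) (C := C) (ae_of_all _ hC)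

lemma abs_avg_le (T : Finset ι) {f : (ι → α) → ℝ} {C : ℝ} (hC : ∀ y, |f y| ≤ C) (y : ι → α) :
    |avg μ T f y| ≤ C :=
  abs_integral_le_of_bound fun _ => hC _

lemma abs_avg_sub_le (T : Finset ι) {f : (ι → α) → ℝ} (hf : Measurable f) {C : ℝ}
    (hC : ∀ y, |f y| ≤ C) (a b : ι → α) {K : ℝ}
    (h : ∀ x, |f (T.piecewise x a) - f (T.piecewise x b)| ≤ K) :
    |avg μ T f a - avg μ T f b| ≤ K := by
  have hm : ∀ y, Measurable fun x => f (T.piecewise x y) := fun y =>
    (hf.fun_comp (measurable_piecewise2 T)).fun_comp measurable_prodMk_left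
  rw [avg, avg, ← integral_sub (integrable_of_bounded (hm a) fun x => hC _)
    (integrable_of_bounded (hm b) fun x => hC _)]
  exact abs_integral_le_of_bound h

/-- Efron–Stein type inequality with bounded differences. -/
lemma integral_sub_avg_sq_le (c : ι → ℝ) :
    ∀ T : Finset ι, ∀ (f : (ι → α) → ℝ) (C : ℝ), Measurable f → (∀ y, |f y| ≤ C) →
      (∀ j ∈ T, ∀ y x, |f (update y j x) - f y| ≤ c j) →
      ∫ y, (f y - avg μ T f y) ^ 2 ∂(Measure.infinitePi fun _ : ι => μ) ≤ ∑ j ∈ T, c j ^ 2 := by
  intro T
  induction T using Finset.induction_on with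
  | empty =>
    intro f C hf hC _
    simp [avg]
  | @insert j T hj ih =>
    intro f C hf hC hdiff
    set h := fun y => ∫ x, f (update y j x) ∂μ with hh
    have hhm : Measurable h :=
      ((hf.fun_comp (measurable_update2 j)).stronglyMeasurable.integral_prod_right').measurable
    have hhC : ∀ y, |h y| ≤ C := fun y => abs_integral_le_of_bound fun _ => hC _
    have hsub : ∀ y, |f y - h y| ≤ c j := by
      intro y
      have hint : Integrable (fun x => f (update y j x)) μ :=
        integrable_of_bounded ((hf.fun_comp (measurable_update2 j)).fun_comp measurable_prodMk_left)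
          fun x => hC _
      have : f y - h y = ∫ x, (f y - f (update y j x)) ∂μ := by
        rw [integral_sub (integrable_const _) hint]; simp [hh]
      rw [this]
      exact abs_integral_le_of_bound fun x => by
        rw [abs_sub_comm]; exact hdiff j (Finset.mem_insert_self _ _) y x
    have hhdiff : ∀ i ∈ T, ∀ y x, |h (update y i x) - h y| ≤ c i := by
      intro i hi y x
      have hij : i ≠ j := fun he => hj (he ▸ hi)
      have hint : ∀ z, Integrable (fun w => f (update z j w)) μ := fun z =>
        integrable_of_bounded ((hf.fun_comp (measurable_update2 j)).fun_comp measurable_prodMk_left)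
          fun w => hC _
      rw [hh]
      simp only
      rw [← integral_sub (hint _) (hint _)]
      refine abs_integral_le_of_bound fun w => ?_
      rw [update_comm hij]
      exact hdiff i (Finset.mem_insert_of_mem hi) _ x
    have havg : avg μ (insert j T) f = avg μ T h := by
      funext y
      rw [avg, integral_update μ j
        ((hf.fun_comp (measurable_piecewise2 (insert j T))).fun_comp measurable_prodMk_left)
        (fun _ => hC _), avg]
      refine integral_congr_ae (ae_of_all _ fun x => integral_congr_ae (ae_of_all _ fun w => ?_))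
      simp only
      congr 1
      rw [Finset.piecewise_insert, update_self]
      congr 1
      funext i
      by_cases hi : i ∈ T
      · rw [Finset.piecewise_eq_of_mem _ _ _ hi, Finset.piecewise_eq_of_mem _ _ _ hi,
          update_of_ne (fun he : i = j => hj (he ▸ hi))]
      · rw [Finset.piecewise_eq_of_notMem _ _ _ hi, Finset.piecewise_eq_of_notMem _ _ _ hi]
    rw [havg, Finset.sum_insert hj]
    set K := avg μ T h with hK
    have hKm : Measurable K := measurable_avg μ T hhm
    have hKC : ∀ y, |K y| ≤ C := abs_avg_le μ T hhC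
    have hh_indep : ∀ y x, h (update y j x) = h y := fun y x => by simp [hh, update_idem]
    have hK_indep : ∀ y x, K (update y j x) = K y := by
      intro y x
      rw [hK]
      refine integral_congr_ae (ae_of_all _ fun w => ?_)
      simp only
      rw [← hh_indep (T.piecewise w y) x]
      congr 1
      funext i
      by_cases hi : i = j
      · subst hi; simp [Finset.piecewise_eq_of_notMem _ _ _ hj]
      · rw [update_of_ne hi]
        by_cases hiT : i ∈ T
        · simp [Finset.piecewise_eq_of_mem _ _ _ hiT]
        · simp [Finset.piecewise_eq_of_notMem _ _ _ hiT, update_of_ne hi]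
    have h2C : ∀ (u w : ℝ), |u| ≤ C → |w| ≤ C → |u - w| ≤ 2 * C := fun u w hu hw =>
      (abs_sub _ _).trans (by linarith)
    have hsqb : ∀ (u w : ℝ), |u| ≤ C → |w| ≤ C → |(u - w) ^ 2| ≤ (2 * C) ^ 2 := fun u w hu hw => by
      rw [abs_pow]; exact pow_le_pow_left₀ (abs_nonneg _) (h2C u w hu hw) 2
    have hC0 : ∀ y : ι → α, 0 ≤ C := fun y => (abs_nonneg (f y)).trans (hC y)
    have hcross : ∫ y, (f y - h y) * (h y - K y) ∂(Measure.infinitePi fun _ : ι => μ) = 0 := by
      rw [integral_update μ j (F := fun y => (f y - h y) * (h y - K y))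
        ((hf.sub hhm).mul (hhm.sub hKm)) (C := (2 * C) * (2 * C)) fun y => by
        rw [abs_mul]
        exact mul_le_mul (h2C _ _ (hC y) (hhC y)) (h2C _ _ (hhC y) (hKC y)) (abs_nonneg _)
          (by linarith [hC0 y])]
      refine integral_eq_zero_of_ae (ae_of_all _ fun y => ?_)
      simp only [Pi.zero_apply, hh_indep, hK_indep]
      rw [integral_mul_const, integral_sub
        (integrable_of_bounded ((hf.fun_comp (measurable_update2 j)).fun_comp measurable_prodMk_left)
          fun w => hC _) (integrable_const _)]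
      simp [hh]
    have hi1 : Integrable (fun y => (f y - h y) ^ 2) (Measure.infinitePi fun _ : ι => μ) :=
      integrable_of_bounded ((hf.sub hhm).pow_const 2) fun y => hsqb _ _ (hC y) (hhC y)
    have hi2 : Integrable (fun y => (h y - K y) ^ 2) (Measure.infinitePi fun _ : ι => μ) :=
      integrable_of_bounded ((hhm.sub hKm).pow_const 2) fun y => hsqb _ _ (hhC y) (hKC y)
    have hi3 : Integrable (fun y => (f y - h y) * (h y - K y))
        (Measure.infinitePi fun _ : ι => μ) :=
      integrable_of_bounded ((hf.sub hhm).mul (hhm.sub hKm)) (C := (2 * C) * (2 * C)) fun y => by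
        rw [abs_mul]
        exact mul_le_mul (h2C _ _ (hC y) (hhC y)) (h2C _ _ (hhC y) (hKC y)) (abs_nonneg _)
          (by linarith [hC0 y])
    have hexp : (fun y => (f y - K y) ^ 2) =
        fun y => (f y - h y) ^ 2 + (h y - K y) ^ 2 + 2 * ((f y - h y) * (h y - K y)) := by
      funext y; ring
    rw [hexp, integral_add (hi1.fun_add hi2) (hi3.const_mul 2), integral_add hi1 hi2,
      integral_const_mul, hcross]
    have h1 : ∫ y, (f y - h y) ^ 2 ∂(Measure.infinitePi fun _ : ι => μ) ≤ c j ^ 2 := by
      refine le_trans (integral_mono hi1 (integrable_const (c j ^ 2)) fun y => ?_) (by simp)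
      simpa only [sq_abs] using pow_le_pow_left₀ (abs_nonneg _) (hsub y) 2
    have h2 := ih h C hhm hhC hhdiff
    linarith

end Generic

variable {V : Type*} [DecidableEq V] {G : SimpleGraph V} {θ ε : ℝ}

/-- Reference law of observations. -/
noncomputable def P0 (V : Type*) : Measure (ℕ × V → Obs) := Measure.infinitePi fun _ => nu

/-- Law of innovations. -/
noncomputable def Pg (V : Type*) : Measure (ℕ × V → I) :=
  Measure.infinitePi fun _ => (volume : Measure I)

instance : IsProbabilityMeasure (P0 V) := by unfold P0; infer_instance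
instance : IsProbabilityMeasure (Pg V) := by unfold Pg; infer_instance

lemma integral_nu_id : ∫ x, (x : ℝ) ∂nu = 0 := by
  have h1 : ∫⁻ z, ENNReal.ofReal (1 + 1 / 2 * (z : ℝ)) ∂nu = 1 := by
    simpa using (lintegral_qObs (a := 1 / 2) (by norm_num) (fun _ => 1) measurable_const).symm
  have hnn : ∀ z : Obs, 0 ≤ 1 + 1 / 2 * (z : ℝ) := fun z => by linarith [(Obs.bounds z).1]
  have h2 : ∫ z, (1 + 1 / 2 * (z : ℝ)) ∂nu = 1 := by
    rw [integral_eq_lintegral_of_nonneg_ae (ae_of_all _ hnn) (by fun_prop), h1]; simp
  have hi : Integrable (fun z : Obs => (z : ℝ)) nu :=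
    integrable_of_bounded measurable_subtype_coe Obs.abs_le
  rw [integral_add (integrable_const _) (hi.const_mul _), integral_const_mul] at h2
  simp at h2
  linarith

lemma measurable_qObs_comp {β : Type*} [MeasurableSpace β] {a : β → ℝ} {g : β → I}
    (ha : Measurable a) (hg : Measurable g) : Measurable fun b => qObs (a b) (g b) :=
  measurable_qObs.comp (g := fun p : ℝ × I => qObs p.1 p.2) (f := fun b => (a b, g b))
    (ha.prodMk hg)

lemma measurable_sol (U : V → I) (S : Finset V) :
    Measurable (fun g : ℕ × V → I => sol G θ ε U S g) := by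
  refine measurable_pi_lambda _ fun s => ?_
  have : ∀ i, ∀ s, Measurable fun g : ℕ × V → I => (step G θ ε U S g)^[i] zInit s := by
    intro i
    induction i with
    | zero => exact fun s => measurable_const
    | succ i ih =>
      intro s
      simp only [Function.iterate_succ_apply', step]
      exact measurable_qObs_comp (((measurable_mean S _ _).fun_comp (measurable_pi_lambda _ ih)).const_mul _)
        (measurable_pi_apply s)
  exact this _ s

/-- The finite-volume law: the observations have density `den` w.r.t. independent uniforms. -/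
lemma law_sol (hG : G.IsTree) (h0 : 0 ≤ θ) (h1 : θ < 1) (hε : 0 ≤ ε) (hε1 : ε < 1) {U : V → I}
    {S : Finset V} (hS : Conn G S) {o : V} (ho : o ∈ S) (hU : Set.InjOn U S) :
    ∀ P : Finset (ℕ × V), (∀ s ∈ P, s.2 ∈ S) → (∀ s ∈ P, before U S s ⊆ P) →
    ∀ F : (ℕ × V → Obs) → ℝ≥0∞, Measurable F →
      (∀ z z', (∀ q ∈ P, z q = z' q) → F z = F z') →
      ∫⁻ g, F (sol G θ ε U S g) ∂(Pg V) =
        ∫⁻ z, ENNReal.ofReal (den G θ ε S P z) * F z ∂(P0 V) := by
  intro P
  induction hn : P.card using Nat.strong_induction_on generalizing P with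
  | _ n ih =>
    subst hn
    intro hPS hclosed F hF hdep
    rcases P.eq_empty_or_nonempty with rfl | hne
    · have hc : ∀ z, F z = F zInit := fun z => hdep z _ (by simp)
      simp [den_empty hG hS ho, hc]
    obtain ⟨s, hs, hmax⟩ := Finset.exists_max_image P (fun q => (before U S q).card) hne
    have hnotbefore : ∀ q ∈ P, s ∉ before U S q := fun q hq hsq =>
      absurd (card_before_lt hsq) (not_lt.2 (hmax q hq))
    set P' := P.erase s with hP'
    have hP'eq : before U S s = P' := by
      refine Finset.Subset.antisymm (fun q hq => Finset.mem_erase.2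
        ⟨fun h => past_irrefl U s (h ▸ (mem_before.1 hq).2), hclosed s hs hq⟩) fun q hq => ?_
      obtain ⟨hne', hq⟩ := Finset.mem_erase.1 hq
      refine mem_before.2 ⟨hPS q hq, ?_⟩
      have hnp : ¬ past U s q := fun h => hnotbefore q hq (mem_before.2 ⟨hPS s hs, h⟩)
      simp only [past, not_or, not_and, not_lt] at hnp ⊢
      rcases lt_trichotomy q.1 s.1 with h | h | h
      · exact Or.inl h
      · refine Or.inr ⟨h, lt_of_le_of_ne (hnp.2 h.symm) fun he => hne' ?_⟩
        exact Prod.ext h (hU (hPS q hq) (hPS s hs) he)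
      · omega
    have hP'S : ∀ q ∈ P', q.2 ∈ S := fun q hq => hPS q (Finset.mem_of_mem_erase hq)
    have hP'closed : ∀ q ∈ P', before U S q ⊆ P' := fun q hq r hr =>
      Finset.mem_erase.2 ⟨fun h => hnotbefore q (Finset.mem_of_mem_erase hq) (h ▸ hr),
        hclosed q (Finset.mem_of_mem_erase hq) hr⟩
    have ha : ∀ z, |ε * mean G θ ε S P' z s.2| < 1 := fun z => by
      rw [abs_mul, abs_of_nonneg hε]
      exact lt_of_le_of_lt (mul_le_of_le_one_right hε (abs_mean_le h0 h1 hε hε1 _ _ _ _)) hε1
    set F' := fun z : ℕ × V → Obs =>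
      ∫⁻ x, ENNReal.ofReal (1 + ε * mean G θ ε S P' z s.2 * (x : ℝ)) * F (update z s x) ∂nu with hF'
    have hF'm : Measurable F' := by
      refine Measurable.lintegral_prod_right' (f := fun p : (ℕ × V → Obs) × Obs =>
        ENNReal.ofReal (1 + ε * mean G θ ε S P' p.1 s.2 * (p.2 : ℝ)) * F (update p.1 s p.2)) ?_
      refine Measurable.mul ?_ (hF.fun_comp (measurable_update2 s))
      exact ((((measurable_mean S P' s.2).fun_comp measurable_fst).const_mul ε).mul
        (measurable_subtype_coe.fun_comp measurable_snd)).const_add 1 |>.ennreal_ofReal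
    have hF'dep : ∀ z z', (∀ q ∈ P', z q = z' q) → F' z = F' z' := by
      intro z z' h
      refine lintegral_congr fun x => ?_
      rw [mean_congr h, hdep (update z s x) (update z' s x) fun q hq => ?_]
      by_cases hqs : q = s
      · subst hqs; simp
      · rw [update_of_ne hqs, update_of_ne hqs]; exact h q (Finset.mem_erase.2 ⟨hqs, hq⟩)
    have hL : ∫⁻ g, F (sol G θ ε U S g) ∂(Pg V) = ∫⁻ g, F' (sol G θ ε U S g) ∂(Pg V) := by
      rw [Pg, lintegral_update _ s (hF.fun_comp (measurable_sol U S))]
      refine lintegral_congr fun g => ?_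
      rw [hF']
      simp only
      rw [← lintegral_qObs (ha _) (fun x => F (update (sol G θ ε U S g) s x))
        (hF.fun_comp ((measurable_update2 s).fun_comp measurable_prodMk_left))]
      refine lintegral_congr fun x => hdep _ _ fun q hq => ?_
      have hcongr : ∀ r ∈ P', sol G θ ε U S (update g s x) r = sol G θ ε U S g r := fun r hr => by
        refine sol_congr fun t ht => update_of_ne (fun h => ?_) _ _
        rw [Finset.mem_insert] at ht
        rcases ht with rfl | ht
        · exact (Finset.mem_erase.1 hr).1 h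
        · exact hnotbefore r (Finset.mem_of_mem_erase hr) (h ▸ ht)
      by_cases hqs : q = s
      · subst hqs
        rw [sol_eq, step, update_self, update_self, hP'eq, mean_congr hcongr]
      · rw [update_of_ne hqs]
        exact hcongr q (Finset.mem_erase.2 ⟨hqs, hq⟩)
    rw [hL, ih _ (Finset.card_erase_lt_of_mem hs) P' rfl hP'S hP'closed F' hF'm hF'dep]
    have hden : Measurable fun z : ℕ × V → Obs => ENNReal.ofReal (den G θ ε S P z) :=
      (measurable_pexp S P _).ennreal_ofReal
    rw [P0, lintegral_update nu s (F := fun y => ENNReal.ofReal (den G θ ε S P y) * F y)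
      (hden.mul hF)]
    refine lintegral_congr fun z => ?_
    rw [hF']
    simp only
    rw [← lintegral_const_mul _ ?_]
    · refine lintegral_congr fun x => ?_
      have e : den G θ ε S P (update z s x) =
          den G θ ε S P' z * (1 + ε * mean G θ ε S P' z s.2 * (x : ℝ)) := by
        have hdp := den_pos (G := G) h0 h1 hε hε1 S P' z
        rw [mean]
        field_simp
        simp only [den, pexp, Finset.mul_sum, ← Finset.sum_add_distrib, mul_one]
        rw [Finset.sum_mul, ← Finset.sum_add_distrib]
        refine Finset.sum_congr rfl fun A _ => ?_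
        rw [lik, ← Finset.mul_prod_erase _ _ hs, update_self]
        have : ∏ r ∈ P.erase s, (1 + ε * spin A r.2 * (update z s x r : ℝ)) = lik ε P' z A :=
          Finset.prod_congr rfl fun r hr => by rw [update_of_ne (Finset.mem_erase.1 hr).1]
        rw [this]
        ring
      rw [e, ENNReal.ofReal_mul (den_pos h0 h1 hε hε1 S P' z).le]
      ring
    · exact ((measurable_const.mul measurable_subtype_coe).const_add 1).ennreal_ofReal.mul
        (hF.fun_comp ((measurable_update2 s).fun_comp measurable_prodMk_left))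

lemma abs_pexp_le_const (h0 : 0 ≤ θ) (h1 : θ < 1) (hε : 0 ≤ ε) (hε1 : ε < 1) (S : Finset V)
    (P : Finset (ℕ × V)) (φ : Finset V → ℝ) :
    ∃ C, ∀ z : ℕ × V → Obs, |pexp G θ ε S P z φ| ≤ C := by
  refine ⟨∑ A ∈ S.powerset, wt G θ S A * 2 ^ P.card * |φ A|, fun z => ?_⟩
  refine (Finset.abs_sum_le_sum_abs _ _).trans (Finset.sum_le_sum fun A _ => ?_)
  rw [abs_mul, abs_mul, abs_of_pos (wt_pos h0 h1 S A)]
  refine mul_le_mul_of_nonneg_right (mul_le_mul_of_nonneg_left ?_ (wt_pos h0 h1 S A).le)
    (abs_nonneg _)
  rw [abs_of_pos (lik_pos hε hε1 P z A)]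
  refine (Finset.prod_le_prod (fun q _ => ?_) (fun q _ => ?_)).trans_eq (Finset.prod_const 2)
  · linarith [(abs_le.1 (abs_eps_spin_le hε A q.2 (z q))).1]
  · linarith [(abs_le.1 (abs_eps_spin_le hε A q.2 (z q))).2]

/-- Marginalisation of the likelihood. -/
lemma integral_marg (h0 : 0 ≤ θ) (h1 : θ < 1) (hε : 0 ≤ ε) (hε1 : ε < 1) (S : Finset V)
    {P : Finset (ℕ × V)} {F : (ℕ × V → Obs) → ℝ} (hF : Measurable F) {C : ℝ}
    (hC : ∀ z, |F z| ≤ C) (hdep : ∀ z z', (∀ q ∈ P, z q = z' q) → F z = F z')
    (φ : Finset V → ℝ) {P' : Finset (ℕ × V)} (hPP' : P ⊆ P') :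
    ∫ z, F z * pexp G θ ε S P' z φ ∂(P0 V) = ∫ z, F z * pexp G θ ε S P z φ ∂(P0 V) := by
  induction hn : (P' \ P).card using Nat.strong_induction_on generalizing P' with
  | _ n ih =>
    subst hn
    rcases (P' \ P).eq_empty_or_nonempty with he | ⟨q, hq⟩
    · rw [Finset.sdiff_eq_empty_iff_subset] at he
      rw [Finset.Subset.antisymm he hPP']
    obtain ⟨hqP', hqP⟩ := Finset.mem_sdiff.1 hq
    obtain ⟨D, hD⟩ := abs_pexp_le_const (G := G) h0 h1 hε hε1 S P' φ
    obtain ⟨D1, hD1⟩ := abs_pexp_le_const (G := G) h0 h1 hε hε1 S (P'.erase q)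
      (fun A => φ A * spin A q.2)
    rw [← ih _ ?_ (fun x hx => Finset.mem_erase.2 ⟨fun h : x = q => hqP (h ▸ hx), hPP' hx⟩) rfl]
    · rw [P0, integral_update nu q (F := fun z => F z * pexp G θ ε S P' z φ)
        (hF.mul (measurable_pexp S P' φ)) (C := C * D) fun z => by
        rw [abs_mul]
        exact mul_le_mul (hC z) (hD z) (abs_nonneg _) ((abs_nonneg _).trans (hC z))]
      refine integral_congr_ae (ae_of_all _ fun z => ?_)
      simp only
      have e : ∀ x : Obs, F (update z q x) * pexp G θ ε S P' (update z q x) φ =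
          F z * pexp G θ ε S (P'.erase q) z φ +
            (F z * (ε * pexp G θ ε S (P'.erase q) z (fun A => φ A * spin A q.2))) * (x : ℝ) := by
        intro x
        rw [hdep (update z q x) z fun r hr => update_of_ne (fun h : r = q => hqP (h ▸ hr)) _ _]
        simp only [pexp, Finset.mul_sum, Finset.sum_mul, ← Finset.sum_add_distrib]
        refine Finset.sum_congr rfl fun A _ => ?_
        rw [lik, ← Finset.mul_prod_erase _ _ hqP', update_self]
        have : ∏ r ∈ P'.erase q, (1 + ε * spin A r.2 * (update z q x r : ℝ)) =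
            lik ε (P'.erase q) z A :=
          Finset.prod_congr rfl fun r hr => by rw [update_of_ne (Finset.mem_erase.1 hr).1]
        rw [this]
        ring
      rw [integral_congr_ae (ae_of_all _ e), integral_add (integrable_const _)
        ((integrable_of_bounded measurable_subtype_coe Obs.abs_le).const_mul _),
        integral_const, integral_const_mul, integral_nu_id]
      simp
    · exact Finset.card_lt_card (by
        rw [Finset.ssubset_iff_of_subset (Finset.sdiff_subset_sdiff (Finset.erase_subset q P') le_rfl)]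
        exact ⟨q, hq, by simp⟩)

lemma closed_sitesUpTo (U : V → I) (S : Finset V) (N : ℕ) :
    ∀ s ∈ sitesUpTo S N, before U S s ⊆ sitesUpTo S N := by
  intro s hs q hq
  simp only [sitesUpTo, Finset.mem_product, Finset.mem_range] at hs ⊢
  refine ⟨?_, (mem_before.1 hq).1⟩
  rcases (mem_before.1 hq).2 with h | ⟨h, -⟩ <;> omega

/-- Expectations of bounded functions of finitely many observations. -/
lemma expect_sol (hG : G.IsTree) (h0 : 0 ≤ θ) (h1 : θ < 1) (hε : 0 ≤ ε) (hε1 : ε < 1) {U : V → I}
    {S : Finset V} (hS : Conn G S) {o : V} (ho : o ∈ S) (hU : Set.InjOn U S) (N : ℕ)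
    {F : (ℕ × V → Obs) → ℝ} (hF : Measurable F) {C : ℝ} (hC : ∀ z, |F z| ≤ C)
    (hdep : ∀ z z', (∀ q ∈ sitesUpTo S N, z q = z' q) → F z = F z') :
    ∫ g, F (sol G θ ε U S g) ∂(Pg V) =
      ∫ z, F z * den G θ ε S (sitesUpTo S N) z ∂(P0 V) := by
  have hlaw : ∀ H : (ℕ × V → Obs) → ℝ, Measurable H → (∀ z, 0 ≤ H z) →
      (∀ z z', (∀ q ∈ sitesUpTo S N, z q = z' q) → H z = H z') →
      ∫ g, H (sol G θ ε U S g) ∂(Pg V) =
        ∫ z, H z * den G θ ε S (sitesUpTo S N) z ∂(P0 V) := by
    intro H hH hH0 hHdep
    rw [integral_eq_lintegral_of_nonneg_ae (f := fun g => H (sol G θ ε U S g))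
      (ae_of_all _ fun g => hH0 _) (hH.fun_comp (measurable_sol U S)).aestronglyMeasurable,
      integral_eq_lintegral_of_nonneg_ae (ae_of_all _ fun z =>
        mul_nonneg (hH0 z) (den_pos h0 h1 hε hε1 S _ z).le)
        (hH.mul (measurable_pexp S _ _)).aestronglyMeasurable]
    congr 1
    rw [law_sol hG h0 h1 hε hε1 hS ho hU _ (fun s hs => (Finset.mem_product.1 hs).2)
      (closed_sitesUpTo U S N) _ hH.ennreal_ofReal (fun z z' h => by rw [hHdep z z' h])]
    refine lintegral_congr fun z => ?_
    rw [← ENNReal.ofReal_mul (den_pos h0 h1 hε hε1 S _ z).le, mul_comm]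
    rfl
  obtain ⟨D, hD⟩ := abs_pexp_le_const (G := G) h0 h1 hε hε1 S (sitesUpTo S N) (fun _ => 1)
  have hC0 : 0 ≤ C := (abs_nonneg (F zInit)).trans (hC zInit)
  have hA := hlaw (fun z => F z + C) (hF.add_const C) (fun z => by linarith [(abs_le.1 (hC z)).1])
    (fun z z' h => by rw [hdep z z' h])
  have hB := hlaw (fun _ => C) measurable_const (fun _ => hC0) (fun _ _ _ => rfl)
  have hiF : Integrable (fun g => F (sol G θ ε U S g)) (Pg V) :=
    integrable_of_bounded (hF.fun_comp (measurable_sol U S)) fun g => hC _
  have hid : Integrable (fun z => den G θ ε S (sitesUpTo S N) z) (P0 V) :=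
    integrable_of_bounded (measurable_pexp S _ _) hD
  have hiFd : Integrable (fun z => F z * den G θ ε S (sitesUpTo S N) z) (P0 V) :=
    integrable_of_bounded (hF.mul (measurable_pexp S _ _)) (C := C * D) fun z => by
      rw [abs_mul]; exact mul_le_mul (hC z) (hD z) (abs_nonneg _) hC0
  simp only [add_mul] at hA
  rw [integral_add hiF (integrable_const _), integral_add hiFd (hid.const_mul C)] at hA
  linarith

end Vale.Agent.P161
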