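import Vale.Agent.P161.Volume

/-!
Joint measurability in the ranking and the innovations, and the uniform approximation of
large volumes by balls.
-/

namespace Vale.Agent.P161

open MeasureTheory SimpleGraph Finset Function Filter
open scoped unitInterval Topology

variable {V : Type*} [DecidableEq V] {G : SimpleGraph V} {θ ε : ℝ}

/-- Law of the rankings. -/
noncomputable def PU (V : Type*) : Measure (V → I) :=
  Measure.infinitePi fun _ => (volume : Measure I)

instance : IsProbabilityMeasure (PU V) := by unfold PU; infer_instance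

/-- Joint law of rankings and innovations. -/
noncomputable def PQ (V : Type*) : Measure ((V → I) × (ℕ × V → I)) := (PU V).prod (Pg V)

instance : IsProbabilityMeasure (PQ V) := by unfold PQ; infer_instance

lemma measurableSet_past (q s : ℕ × V) : MeasurableSet {U : V → I | past U q s} := by
  exact (MeasurableSet.const (q.1 < s.1)).union ((MeasurableSet.const (q.1 = s.1)).inter
    (measurableSet_lt (f := fun U : V → I => U q.2) (g := fun U : V → I => U s.2)
      (measurable_pi_apply _) (measurable_pi_apply _)))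

lemma measurable_pexp2 (S : Finset V) (s : ℕ × V) (φ : Finset V → ℝ) :
    Measurable fun p : (V → I) × (ℕ × V → Obs) => pexp G θ ε S (before p.1 S s) p.2 φ := by
  simp only [pexp, lik, before, Finset.prod_filter]
  refine Finset.measurable_sum _ fun A _ => Measurable.mul_const (Measurable.const_mul ?_ _) _
  refine Finset.measurable_prod _ fun q _ => ?_
  refine Measurable.ite (measurable_fst (measurableSet_past q s)) ?_ measurable_const
  exact ((measurable_subtype_coe.fun_comp
    ((measurable_pi_apply q).fun_comp measurable_snd)).const_mul _).const_add _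

lemma measurable_mean2 (S : Finset V) (s : ℕ × V) (v : V) :
    Measurable fun p : (V → I) × (ℕ × V → Obs) => mean G θ ε S (before p.1 S s) p.2 v :=
  (measurable_pexp2 S s _).div (measurable_pexp2 S s _)

lemma measurable_sol2 (S : Finset V) :
    Measurable fun p : (V → I) × (ℕ × V → I) => sol G θ ε p.1 S p.2 := by
  refine measurable_pi_lambda _ fun s => ?_
  have key : ∀ i, ∀ q, Measurable fun p : (V → I) × (ℕ × V → I) =>
      (step G θ ε p.1 S p.2)^[i] zInit q := by
    intro i
    induction i with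
    | zero => exact fun q => measurable_const
    | succ i ih =>
      intro q
      simp only [Function.iterate_succ_apply']
      set w := fun p : (V → I) × (ℕ × V → I) => (step G θ ε p.1 S p.2)^[i] zInit with hw
      have hwm : Measurable w := measurable_pi_lambda _ ih
      have h1 : Measurable fun p : (V → I) × (ℕ × V → I) =>
          ε * mean G θ ε S (before p.1 S q) (w p) q.2 :=
        ((measurable_mean2 (G := G) (θ := θ) (ε := ε) S q q.2).comp
          (measurable_fst.prodMk hwm)).const_mul ε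
      have h2 : Measurable fun p : (V → I) × (ℕ × V → I) => p.2 q :=
        (measurable_pi_apply q).comp measurable_snd
      exact measurable_qObs_comp h1 h2
  have e : (fun p : (V → I) × (ℕ × V → I) => sol G θ ε p.1 S p.2 s) =
      fun p => (step G θ ε p.1 S p.2)^[(sitesUpTo S s.1).card + 1] zInit s := by
    funext p
    refine (iterate_stable p.1 S p.2 _ s rfl _ ?_).symm
    exact Nat.lt_succ_of_le (Finset.card_le_card before_subset_sites)
  rw [e]
  exact key _ s

/-- A real observation in volume `S`, jointly in rankings and innovations. -/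
noncomputable def zval (G : SimpleGraph V) (θ ε : ℝ) (S : Finset V) (s : ℕ × V)
    (p : (V → I) × (ℕ × V → I)) : ℝ := (sol G θ ε p.1 S p.2 s : ℝ)

lemma measurable_zval (S : Finset V) (s : ℕ × V) : Measurable (zval G θ ε S s) :=
  measurable_subtype_coe.fun_comp ((measurable_pi_apply s).fun_comp (measurable_sol2 S))

lemma abs_zval_le (S : Finset V) (s : ℕ × V) (p : (V → I) × (ℕ × V → I)) :
    |zval G θ ε S s p| ≤ 1 := Obs.abs_le _

lemma ae_injective [Countable V] : ∀ᵐ U ∂(PU V), Function.Injective U := by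
  have h : ∀ a b : V, a ≠ b → ∀ᵐ U ∂(PU V), U a ≠ U b := by
    intro a b hab
    rw [ae_iff]
    simp only [not_not]
    have hm : MeasurableSet {U : V → I | U a = U b} :=
      measurableSet_eq_fun (measurable_pi_apply a) (measurable_pi_apply b)
    rw [PU, ← map_update_prod (volume : Measure I) a, Measure.map_apply (measurable_update2 a) hm,
      Measure.prod_apply (measurable_update2 a hm)]
    have : ∀ y : V → I, (volume : Measure I)
        (Prod.mk y ⁻¹' ((fun p : (V → I) × I => update p.1 a p.2) ⁻¹' {U | U a = U b})) = 0 := by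
      intro y
      have e : Prod.mk y ⁻¹' ((fun p : (V → I) × I => update p.1 a p.2) ⁻¹' {U | U a = U b}) =
          {y b} := by
        ext x; simp [update_of_ne (Ne.symm hab)]
      rw [e, measure_singleton]
    simp only [this, lintegral_zero]
  have h2 : ∀ᵐ U ∂(PU V), ∀ a b : V, a ≠ b → U a ≠ U b := by
    simp only [ae_all_iff]
    exact h
  filter_upwards [h2] with U hU a b hab
  by_contra hne
  exact hU a b hne hab

lemma measurable_msq (S : Finset V) (j : ℕ × V) :
    Measurable fun U : V → I => msq G θ ε U S j := by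
  have h : Measurable fun p : (V → I) × (ℕ × V → I) =>
      (mean G θ ε S (before p.1 S j) (sol G θ ε p.1 S p.2) j.2) ^ 2 :=
    ((measurable_mean2 S j j.2).fun_comp
      (f := fun p : (V → I) × (ℕ × V → I) => (p.1, sol G θ ε p.1 S p.2))
      (measurable_fst.prodMk (measurable_sol2 S))).pow_const 2
  exact (h.stronglyMeasurable.integral_prod_right').measurable

lemma msq_bounds (h0 : 0 ≤ θ) (h1 : θ < 1) (hε : 0 ≤ ε) (hε1 : ε < 1) (U : V → I) (S : Finset V)
    (j : ℕ × V) : |msq G θ ε U S j| ≤ 1 :=
  abs_integral_le_of_bound fun g => by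
    rw [abs_pow]
    exact pow_le_one₀ (abs_nonneg _) (abs_mean_le h0 h1 hε hε1 _ _ _ _)

variable [Countable V] [G.LocallyFinite]

/-- The expected second moment is almost maximal on large balls. -/
lemma msq_gap (hG : G.IsTree) (h0 : 0 ≤ θ) (h1 : θ < 1) (hε : 0 ≤ ε) (hε1 : ε < 1)
    (j : ℕ × V) (v : V) {η : ℝ} (hη : 0 < η) :
    ∃ N, ∀ n, N ≤ n → ∀ S', Conn G S' → ballF G v n ⊆ S' →
      ∫ U, (msq G θ ε U S' j - msq G θ ε U (ballF G v n) j) ∂(PU V) ≤ η := by
  set A := fun S : Finset V => ∫ U, msq G θ ε U S j ∂(PU V) with hA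
  set 𝒮 := {S : Finset V | Conn G S ∧ j.2 ∈ S}
  have hne : (A '' 𝒮).Nonempty :=
    ⟨_, ballF G j.2 0, ⟨conn_ballF hG _ _, self_mem_ballF _ _⟩, rfl⟩
  have hb : BddAbove (A '' 𝒮) := ⟨1, by
    rintro x ⟨S, -, rfl⟩
    exact (abs_le.1 (abs_integral_le_of_bound (msq_bounds h0 h1 hε hε1 · S j))).2⟩
  obtain ⟨a, ⟨S0, hS0, rfl⟩, ha⟩ := exists_lt_of_lt_csSup hne (sub_lt_self (sSup (A '' 𝒮)) hη)
  refine ⟨S0.sup (fun u => G.dist v u), fun n hn S' hS' hsub => ?_⟩
  have hS0n : S0 ⊆ ballF G v n := fun u hu =>
    (mem_ballF hG v n u).2 ((Finset.le_sup (f := fun u => G.dist v u) hu).trans hn)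
  have hint : ∀ S, Integrable (fun U => msq G θ ε U S j) (PU V) := fun S =>
    integrable_of_bounded (measurable_msq S j) (msq_bounds h0 h1 hε hε1 · S j)
  have hjn : j.2 ∈ ballF G v n := hS0n hS0.2
  have h1' : A S0 ≤ A (ballF G v n) := by
    refine integral_mono_ae (hint _) (hint _) ?_
    filter_upwards [ae_injective] with U hU
    exact msq_mono hG h0 h1 hε hε1 hS0.1 (conn_ballF hG v n) hS0n hU.injOn hS0.2
  have h2' : A S' ≤ sSup (A '' 𝒮) := le_csSup hb ⟨S', ⟨hS', hsub hjn⟩, rfl⟩
  rw [integral_sub (hint _) (hint _)]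
  simp only [hA] at h1' h2' ha
  linarith

/-- Large volumes are approximated by balls. -/
lemma approx (hG : G.IsTree) {d : ℕ} (hd : 3 ≤ d) (hreg : ∀ v, G.degree v = d)
    (h0 : 0 ≤ θ) (h1 : θ < 1) (hε : 0 ≤ ε) (hε4 : ε ≤ 1 / 4)
    {ρ M : ℝ} (hρ : 0 ≤ ρ) (hρd : ((d : ℝ) - 1) * ρ ^ 2 < 1) (hM : 0 ≤ M)
    (hconv : ∀ (i j : V) (T : Finset V),
      ∑ t ∈ T, θ ^ G.dist i t * ρ ^ G.dist t j ≤ M * ρ ^ G.dist i j)
    (hεM : 2 * ε ^ 2 * M ≤ 1 / 3) (s : ℕ × V) {η : ℝ} (hη : 0 < η) :
    ∃ N, ∀ n, N ≤ n → ∀ S', Conn G S' → ballF G s.2 n ⊆ S' →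
      ∫ p, |zval G θ ε S' s p - zval G θ ε (ballF G s.2 n) s p| ∂(PQ V) ≤ η := by
  have hε1 : ε < 1 := by linarith
  set k := s.1
  set v := s.2
  set y := ((d : ℝ) - 1) * ρ ^ 2 with hy
  have hd' : (3 : ℝ) ≤ d := by exact_mod_cast hd
  have hy0 : 0 ≤ y := mul_nonneg (by linarith) (sq_nonneg ρ)
  set δ := η / 4 with hδ
  have hδ0 : 0 < δ := by positivity
  -- the far part
  have htail : Tendsto (fun r : ℕ => ((k : ℝ) + 1) * infl k ^ 2 * (2 * y ^ r / (1 - y))) atTop
      (𝓝 0) := by
    simpa using (((tendsto_pow_atTop_nhds_zero_of_lt_one hy0 hρd).const_mul 2).div_const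
      (1 - y)).const_mul (((k : ℝ) + 1) * infl k ^ 2)
  obtain ⟨r, hr⟩ := (htail.eventually (ge_mem_nhds (mul_pos hδ0 hδ0))).exists
  -- the near part
  set J := sitesUpTo (ballF G v r) k with hJ
  set c := fun j : ℕ × V => infl k * ρ ^ G.dist v j.2 with hc
  have hc0 : ∀ j, 0 ≤ c j := fun j => mul_nonneg (infl_nonneg _) (pow_nonneg hρ _)
  set C := ∑ j ∈ J, c j with hC
  have hC0 : 0 ≤ C := Finset.sum_nonneg fun j _ => hc0 j
  set δ' := η / (4 * (C + 1)) with hδ'
  have hδ'0 : 0 < δ' := div_pos hη (by linarith)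
  choose N hN using fun j : ℕ × V => msq_gap (G := G) hG h0 h1 hε hε1 j v (mul_pos hδ'0 hδ'0)
  refine ⟨r + J.sup N, fun n hn S' hS' hsub => ?_⟩
  set S := ballF G v n with hSdef
  have hS : Conn G S := conn_ballF hG v n
  have hvS : v ∈ S := self_mem_ballF v n
  set R := fun U : V → I => δ + (∑ j ∈ farSites G S s r, c j ^ 2) / δ +
    ∑ j ∈ nearSites G S s r, c j * (δ' + (msq G θ ε U S' j - msq G θ ε U S j) / δ') with hR
  have hintd : ∀ j, Integrable (fun U => msq G θ ε U S' j - msq G θ ε U S j) (PU V) := fun j =>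
    Integrable.sub (integrable_of_bounded (measurable_msq S' j) (msq_bounds h0 h1 hε hε1 · S' j))
      (integrable_of_bounded (measurable_msq S j) (msq_bounds h0 h1 hε hε1 · S j))
  have hintR : Integrable R (PU V) := by
    refine (integrable_const _).fun_add (integrable_finsetSum _ fun j _ => ?_)
    exact ((integrable_const δ').fun_add ((hintd j).div_const δ')).const_mul _
  have hfint : Integrable (fun p => |zval G θ ε S' s p - zval G θ ε S s p|) (PQ V) :=
    integrable_of_bounded (((measurable_zval S' s).sub (measurable_zval S s)).abs) (C := 2)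
      fun p => by
        rw [abs_abs]
        have ha := abs_zval_le (G := G) (θ := θ) (ε := ε) S' s p
        have hb := abs_zval_le (G := G) (θ := θ) (ε := ε) S s p
        exact (abs_sub _ _).trans (by linarith)
  rw [PQ, integral_prod _ hfint]
  refine (integral_mono_ae (Integrable.integral_prod_left hfint) hintR ?_).trans ?_
  · filter_upwards [ae_injective] with U hU
    exact compare hG h0 h1 hε hε4 hρ hM hconv hεM hS hS' hsub hU.injOn hvS r hδ0 hδ'0
  have hfar : ∑ j ∈ farSites G S s r, c j ^ 2 ≤ δ * δ := by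
    refine le_trans ?_ hr
    have hsub' : farSites G S s r ⊆
        Finset.range (k + 1) ×ˢ S.filter (fun u => r ≤ G.dist v u) := by
      intro j hj
      simp only [farSites, sitesUpTo, Finset.mem_filter, Finset.mem_product] at hj ⊢
      exact ⟨hj.1.1, hj.1.2, hj.2⟩
    refine (Finset.sum_le_sum_of_subset_of_nonneg hsub' fun j _ _ => sq_nonneg _).trans ?_
    have e : ∀ m : ℕ, (infl k * ρ ^ m) ^ 2 = infl k ^ 2 * (ρ ^ 2) ^ m := fun m => by
      rw [mul_pow, ← pow_mul, ← pow_mul, mul_comm m 2]
    simp only [Finset.sum_product, hc, e]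
    rw [Finset.sum_const, Finset.card_range, nsmul_eq_mul, Nat.cast_succ, ← Finset.mul_sum,
      mul_assoc]
    refine mul_le_mul_of_nonneg_left (mul_le_mul_of_nonneg_left ?_ (sq_nonneg _)) (by positivity)
    exact sum_pow_dist_tail hG hd hreg v r (sq_nonneg ρ) hρd _ fun u hu =>
      (Finset.mem_filter.1 hu).2
  have hnear : nearSites G S s r ⊆ J := by
    intro j hj
    simp only [nearSites, Finset.mem_filter, sitesUpTo, Finset.mem_product, hJ] at hj ⊢
    exact ⟨hj.1.1, (mem_ballF hG v r j.2).2 hj.2.le⟩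
  have hgap : ∀ j ∈ nearSites G S s r,
      ∫ U, c j * (δ' + (msq G θ ε U S' j - msq G θ ε U S j) / δ') ∂(PU V) ≤ c j * (2 * δ') := by
    intro j hj
    rw [integral_const_mul, integral_add (integrable_const δ') ((hintd j).div_const δ'),
      integral_div]
    refine mul_le_mul_of_nonneg_left ?_ (hc0 j)
    have h := hN j n ((Finset.le_sup (f := N) (hnear hj)).trans (by omega)) S' hS' hsub
    have h' := (div_le_iff₀ hδ'0).2 h
    simp only [integral_div, integral_const, probReal_univ, smul_eq_mul, one_mul]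
    rw [← hSdef] at h'
    linarith
  rw [integral_add (integrable_const _) (integrable_finsetSum _ fun j _ =>
      ((integrable_const δ').fun_add ((hintd j).div_const δ')).const_mul _),
    integral_finsetSum _ fun j _ =>
      ((integrable_const δ').fun_add ((hintd j).div_const δ')).const_mul _]
  simp only [integral_const, probReal_univ, smul_eq_mul, one_mul]
  have e1 : (∑ j ∈ farSites G S s r, c j ^ 2) / δ ≤ δ := (div_le_iff₀ hδ0).2 hfar
  have e2 : ∑ j ∈ nearSites G S s r,
      ∫ U, c j * (δ' + (msq G θ ε U S' j - msq G θ ε U S j) / δ') ∂(PU V) ≤ η / 2 := by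
    refine (Finset.sum_le_sum hgap).trans ((Finset.sum_le_sum_of_subset_of_nonneg hnear
      fun j _ _ => mul_nonneg (hc0 j) (by linarith)).trans ?_)
    rw [← Finset.sum_mul, ← hC, hδ']
    have : C * (2 * (η / (4 * (C + 1)))) = η / 2 * (C / (C + 1)) := by field_simp; ring
    rw [this]
    exact mul_le_of_le_one_right (by linarith) ((div_le_one (by linarith)).2 (by linarith))
  linarith

end Vale.Agent.P161
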