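import Vale.Agent.P161.Tree

/-!
Exponentially weighted sums over vertices of a regular tree and the convolution bound.
-/

namespace Vale.Agent.P161

open SimpleGraph Finset

variable {V : Type*} [DecidableEq V] {G : SimpleGraph V} [G.LocallyFinite]

/-- The sphere of radius `n` around `o`. -/
noncomputable def sphereF (G : SimpleGraph V) [G.LocallyFinite] (o : V) (n : ℕ) : Finset V :=
  (ballF G o n).filter (fun v => G.dist o v = n)

lemma mem_sphereF (hG : G.IsTree) {o v : V} {n : ℕ} :
    v ∈ sphereF G o n ↔ G.dist o v = n := by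
  simp only [sphereF, Finset.mem_filter, mem_ballF hG]
  omega

lemma card_sphereF_le (hG : G.IsTree) {d : ℕ} (hd : 3 ≤ d) (hreg : ∀ v, G.degree v = d)
    (o : V) : ∀ n, (sphereF G o n).card ≤ 2 * (d - 1) ^ n := by
  have h1 : ∀ n, (sphereF G o (n + 2)).card ≤ (d - 1) * (sphereF G o (n + 1)).card := by
    intro n
    have hsub : sphereF G o (n + 2) ⊆ (sphereF G o (n + 1)).biUnion
        (fun p => (G.neighborFinset p).filter (fun v => G.dist o v = n + 2)) := by
      intro v hv
      rw [mem_sphereF hG] at hv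
      have hov : o ≠ v := by intro h; rw [← h] at hv; simp at hv
      obtain ⟨p, hp, hpd⟩ := exists_closer hG hov
      rw [Finset.mem_biUnion]
      refine ⟨p, (mem_sphereF hG).2 (by omega), Finset.mem_filter.2 ⟨?_, hv⟩⟩
      rw [mem_neighborFinset]
      exact hp.symm
    refine (Finset.card_le_card hsub).trans ?_
    refine (Finset.card_biUnion_le).trans ?_
    rw [mul_comm]
    refine Finset.sum_le_card_nsmul _ _ (d - 1) (fun p hp => ?_)
    rw [mem_sphereF hG] at hp
    have hop : o ≠ p := by intro h; rw [← h] at hp; simp at hp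
    obtain ⟨q, hq, hqd⟩ := exists_closer hG hop
    have : (G.neighborFinset p).filter (fun v => G.dist o v = n + 2) ⊆
        (G.neighborFinset p).erase q := by
      intro v hv
      rw [Finset.mem_filter] at hv
      refine Finset.mem_erase.2 ⟨?_, hv.1⟩
      intro h; rw [h] at hv; omega
    refine (Finset.card_le_card this).trans ?_
    rw [Finset.card_erase_of_mem (by rw [mem_neighborFinset]; exact hq),
      card_neighborFinset_eq_degree, hreg]
  intro n
  induction n with
  | zero =>
    have : sphereF G o 0 ⊆ {o} := by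
      intro v hv
      rw [mem_sphereF hG, hG.connected.dist_eq_zero_iff] at hv
      simp [hv]
    have := Finset.card_le_card this
    simp only [Finset.card_singleton] at this
    simp only [pow_zero]
    omega
  | succ n ih =>
    match n with
    | 0 =>
      have : sphereF G o 1 ⊆ G.neighborFinset o := by
        intro v hv
        rw [mem_sphereF hG] at hv
        rw [mem_neighborFinset]
        exact dist_eq_one_iff_adj.1 hv
      have h := Finset.card_le_card this
      rw [card_neighborFinset_eq_degree, hreg] at h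
      simp only [zero_add, pow_one]
      omega
    | m + 1 =>
      refine (h1 m).trans ?_
      calc (d - 1) * (sphereF G o (m + 1)).card ≤ (d - 1) * (2 * (d - 1) ^ (m + 1)) :=
            Nat.mul_le_mul_left _ ih
        _ = 2 * (d - 1) ^ (m + 1 + 1) := by ring

/-- Geometric tail bound for exponentially weighted vertex sums. -/
lemma sum_pow_dist_tail (hG : G.IsTree) {d : ℕ} (hd : 3 ≤ d) (hreg : ∀ v, G.degree v = d)
    (o : V) (r : ℕ) {x : ℝ} (hx : 0 ≤ x) (hxd : ((d : ℝ) - 1) * x < 1) (T : Finset V)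
    (hT : ∀ t ∈ T, r ≤ G.dist o t) :
    ∑ t ∈ T, x ^ G.dist o t ≤
      2 * (((d : ℝ) - 1) * x) ^ r / (1 - ((d : ℝ) - 1) * x) := by
  classical
  have hd1 : ((d - 1 : ℕ) : ℝ) = (d : ℝ) - 1 := by
    rw [Nat.cast_sub (by omega)]; simp
  set y := ((d : ℝ) - 1) * x with hy
  have hy0 : 0 ≤ y := by
    have : (3 : ℝ) ≤ d := by exact_mod_cast hd
    rw [hy]; exact mul_nonneg (by linarith) hx
  rw [← Finset.sum_fiberwise_of_maps_to (g := fun t => G.dist o t)
    (t := T.image (fun t => G.dist o t)) (fun t ht => Finset.mem_image_of_mem _ ht)]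
  have hstep : ∀ h ∈ T.image (fun t => G.dist o t),
      ∑ t ∈ T.filter (fun t => G.dist o t = h), x ^ G.dist o t ≤ 2 * y ^ h := by
    intro h _
    rw [Finset.sum_congr rfl (fun t ht => by rw [(Finset.mem_filter.1 ht).2]),
      Finset.sum_const, nsmul_eq_mul]
    have hcard : (T.filter (fun t => G.dist o t = h)).card ≤ 2 * (d - 1) ^ h := by
      refine (Finset.card_le_card ?_).trans (card_sphereF_le hG hd hreg o h)
      intro t ht
      rw [mem_sphereF hG]
      exact (Finset.mem_filter.1 ht).2
    have hcard' : ((T.filter (fun t => G.dist o t = h)).card : ℝ) ≤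
        2 * ((d : ℝ) - 1) ^ h := by
      rw [← hd1]; exact_mod_cast hcard
    calc ((T.filter (fun t => G.dist o t = h)).card : ℝ) * x ^ h
        ≤ (2 * ((d : ℝ) - 1) ^ h) * x ^ h :=
          mul_le_mul_of_nonneg_right hcard' (pow_nonneg hx h)
      _ = 2 * y ^ h := by rw [hy, mul_pow]; ring
  refine (Finset.sum_le_sum hstep).trans ?_
  rw [← Finset.mul_sum, mul_div_assoc]
  refine mul_le_mul_of_nonneg_left ?_ (by norm_num)
  obtain ⟨N, hN, hNsub⟩ : ∃ N, r ≤ N ∧ T.image (fun t => G.dist o t) ⊆ Finset.Ico r N := by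
    refine ⟨r + (T.image (fun t => G.dist o t)).sup id + 1, by omega, fun h hh => ?_⟩
    rw [Finset.mem_Ico]
    have h2 : h ≤ (T.image (fun t => G.dist o t)).sup id := Finset.le_sup (f := id) hh
    obtain ⟨t, ht, rfl⟩ := Finset.mem_image.1 hh
    exact ⟨hT t ht, by omega⟩
  refine (Finset.sum_le_sum_of_subset_of_nonneg hNsub (fun h _ _ => pow_nonneg hy0 h)).trans ?_
  rw [geom_sum_Ico (ne_of_lt hxd) hN, le_div_iff₀ (by linarith)]
  rw [div_mul_eq_mul_div, div_le_iff_of_neg (by linarith)]
  have := pow_nonneg hy0 N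
  nlinarith

lemma sum_pow_dist_le (hG : G.IsTree) {d : ℕ} (hd : 3 ≤ d) (hreg : ∀ v, G.degree v = d)
    (o : V) {x : ℝ} (hx : 0 ≤ x) (hxd : ((d : ℝ) - 1) * x < 1) (T : Finset V) :
    ∑ t ∈ T, x ^ G.dist o t ≤ 2 / (1 - ((d : ℝ) - 1) * x) := by
  simpa using sum_pow_dist_tail hG hd hreg o 0 hx hxd T (fun t _ => Nat.zero_le _)

/-- Convolution of two exponentially decaying kernels on the tree. -/
lemma conv_bound (hG : G.IsTree) {d : ℕ} (hd : 3 ≤ d) (hreg : ∀ v, G.degree v = d)
    {θ ρ : ℝ} (hθ : 0 ≤ θ) (hθρ : θ < ρ) (hxd : ((d : ℝ) - 1) * (θ * ρ) < 1)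
    (i j : V) (T : Finset V) :
    ∑ t ∈ T, θ ^ G.dist i t * ρ ^ G.dist t j ≤
      2 / (1 - ((d : ℝ) - 1) * (θ * ρ)) / (1 - θ / ρ) * ρ ^ G.dist i j := by
  classical
  have hρ : 0 < ρ := lt_of_le_of_lt hθ hθρ
  set S0 := 2 / (1 - ((d : ℝ) - 1) * (θ * ρ)) with hS0
  have hS00 : 0 ≤ S0 := div_nonneg (by norm_num) (by linarith)
  set M := S0 / (1 - θ / ρ) with hM
  have hr1 : 0 < 1 - θ / ρ := by rw [sub_pos, div_lt_one hρ]; exact hθρ
  have hM0 : 0 ≤ M := div_nonneg hS00 hr1.le
  have hrec : S0 + M * (θ / ρ) = M := by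
    have : M * (1 - θ / ρ) = S0 := div_mul_cancel₀ S0 hr1.ne'
    linarith
  induction hn : G.dist i j using Nat.strong_induction_on generalizing i T with
  | _ n ih =>
    subst hn
    by_cases hij : i = j
    · subst hij
      simp only [SimpleGraph.dist_self, pow_zero, mul_one]
      refine le_trans ?_ (by nlinarith [mul_nonneg hM0 (div_nonneg hθ hρ.le)] : S0 ≤ M)
      refine le_trans (le_of_eq (Finset.sum_congr rfl fun t _ => ?_))
        (sum_pow_dist_le hG hd hreg i (mul_nonneg hθ hρ.le) hxd T)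
      rw [SimpleGraph.dist_comm (u := t) (v := i), mul_pow]
    obtain ⟨b, hib, hbd⟩ := exists_closer hG (Ne.symm hij)
    have cij : G.dist j i = G.dist i j := SimpleGraph.dist_comm
    have cbj : G.dist j b = G.dist b j := SimpleGraph.dist_comm
    rw [← Finset.sum_filter_add_sum_filter_not T (fun t => G.dist t b = G.dist t i + 1)]
    have hA : ∑ t ∈ T.filter (fun t => G.dist t b = G.dist t i + 1),
        θ ^ G.dist i t * ρ ^ G.dist t j ≤ S0 * ρ ^ G.dist i j := by
      refine le_trans (le_of_eq (Finset.sum_congr rfl fun t ht => ?_)) ?_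
        (b := ∑ t ∈ T.filter (fun t => G.dist t b = G.dist t i + 1),
          (θ * ρ) ^ G.dist i t * ρ ^ G.dist i j)
      · rw [Finset.mem_filter] at ht
        rw [dist_through_edge hG hib hbd _ t rfl ht.2, pow_add,
          SimpleGraph.dist_comm (u := t) (v := i), mul_pow]
        ring
      · rw [← Finset.sum_mul]
        exact mul_le_mul_of_nonneg_right
          (sum_pow_dist_le hG hd hreg i (mul_nonneg hθ hρ.le) hxd _) (pow_nonneg hρ.le _)
    have hB : ∑ t ∈ T.filter (fun t => ¬ G.dist t b = G.dist t i + 1),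
        θ ^ G.dist i t * ρ ^ G.dist t j ≤ M * (θ / ρ) * ρ ^ G.dist i j := by
      refine le_trans (le_of_eq (Finset.sum_congr rfl fun t ht => ?_)) ?_
        (b := ∑ t ∈ T.filter (fun t => ¬ G.dist t b = G.dist t i + 1),
          θ * (θ ^ G.dist b t * ρ ^ G.dist t j))
      · rw [Finset.mem_filter] at ht
        rcases hG.dist_eq_dist_add_one_of_adj t hib with h | h
        · rw [SimpleGraph.dist_comm (u := i) (v := t), h, pow_succ,
            SimpleGraph.dist_comm (u := t) (v := b)]
          ring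
        · exact absurd h ht.2
      · rw [← Finset.mul_sum]
        have := ih (G.dist b j) (by omega) b (T.filter (fun t => ¬ G.dist t b = G.dist t i + 1)) rfl
        refine le_trans (mul_le_mul_of_nonneg_left this hθ) (le_of_eq ?_)
        rw [show G.dist i j = G.dist b j + 1 by omega, pow_succ]
        field_simp
    refine le_trans (add_le_add hA hB) (le_of_eq ?_)
    rw [← add_mul, hrec]

end Vale.Agent.P161
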