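import Mathlib

/-!
The one-site observation kernel: the density `(1 + a z)/2` on `[-1,1]`, its quantile
function, and its Lipschitz dependence on the parameter.
-/

namespace Vale.Agent.P161

open MeasureTheory Set
open scoped unitInterval ENNReal

/-- Observation values. -/
abbrev Obs : Type := Icc (-1 : ℝ) 1

lemma Obs.bounds (z : Obs) : -1 ≤ (z : ℝ) ∧ (z : ℝ) ≤ 1 := z.2

lemma Obs.abs_le (z : Obs) : |(z : ℝ)| ≤ 1 := _root_.abs_le.2 z.2

/-- Distribution function of the density `(1 + a z)/2` on `[-1,1]`. -/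
noncomputable def cdfObs (a z : ℝ) : ℝ := (z + 1) / 2 + a * (z ^ 2 - 1) / 4

/-- Quantile function of the density `(1 + a z)/2`. -/
noncomputable def qfun (a g : ℝ) : ℝ :=
  (4 * g - 2 + a) / (1 + Real.sqrt (1 + a * (4 * g - 2 + a)))

lemma qfun_spec {a g : ℝ} (ha : |a| ≤ 1) (hg0 : 0 ≤ g) (hg1 : g ≤ 1) :
    cdfObs a (qfun a g) = g ∧ -1 ≤ qfun a g ∧ qfun a g ≤ 1 := by
  obtain ⟨ha0, ha1⟩ := abs_le.1 ha
  set c := 4 * g - 2 + a with hc
  have hdisc : 0 ≤ 1 + a * c := by
    rcases le_total 0 a with h | h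
    · have : a * (a - 2) ≤ a * c := mul_le_mul_of_nonneg_left (by linarith) h
      nlinarith [mul_self_nonneg (a - 1)]
    · have : a * (a + 2) ≤ a * c := mul_le_mul_of_nonpos_left (by linarith) h
      nlinarith [mul_self_nonneg (a + 1)]
  set r := Real.sqrt (1 + a * c) with hr
  have hr0 : 0 ≤ r := Real.sqrt_nonneg _
  have hrsq : r * r = 1 + a * c := Real.mul_self_sqrt hdisc
  have hq : qfun a g = c / (1 + r) := rfl
  have hpos : 0 < 1 + r := by linarith
  refine ⟨?_, ?_, ?_⟩
  · rw [hq, cdfObs]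
    field_simp
    nlinarith [hrsq, hc, congrArg (fun x => x * c) hrsq]
  · rw [hq, le_div_iff₀ hpos]
    by_contra h
    have h1 : r < -c - 1 := by linarith
    have h2 : r * r < (-c - 1) * (-c - 1) := mul_self_lt_mul_self hr0 h1
    have h3 : c < 0 := by linarith
    nlinarith [mul_nonpos_of_nonpos_of_nonneg h3.le (by linarith : 0 ≤ c + 2 - a)]
  · rw [hq, div_le_one hpos]
    by_contra h
    have h1 : r < c - 1 := by linarith
    have h2 : r * r < (c - 1) * (c - 1) := mul_self_lt_mul_self hr0 h1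
    nlinarith [mul_nonpos_of_nonneg_of_nonpos (by linarith : (0 : ℝ) ≤ c)
      (by linarith : c - 2 - a ≤ 0)]

lemma cdfObs_diff (a z w : ℝ) :
    cdfObs a z - cdfObs a w = (z - w) * (1 / 2 + a * (z + w) / 4) := by
  unfold cdfObs; ring

lemma cdfObs_le_iff {a z w : ℝ} (ha : |a| < 1) (hz : |z| ≤ 1) (hw : |w| ≤ 1) :
    cdfObs a z ≤ cdfObs a w ↔ z ≤ w := by
  obtain ⟨ha0, ha1⟩ := abs_lt.1 ha
  have hc : 0 < 1 / 2 + a * (z + w) / 4 := by
    have h : |a * (z + w)| < 2 := by
      rw [abs_mul]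
      calc |a| * |z + w| ≤ |a| * 2 :=
            mul_le_mul_of_nonneg_left ((abs_add_le z w).trans (by linarith)) (abs_nonneg a)
        _ < 2 := by linarith [abs_nonneg a]
    linarith [(abs_lt.1 h).1]
  rw [← sub_nonpos, cdfObs_diff, ← sub_nonpos (a := z)]
  constructor
  · intro h; by_contra h'; push Not at h'; nlinarith
  · intro h; exact mul_nonpos_of_nonpos_of_nonneg h hc.le

/-- The sampled observation. -/
noncomputable def qObs (a : ℝ) (g : I) : Obs :=
  projIcc (-1) 1 (by norm_num) (qfun a g)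

lemma qObs_coe {a : ℝ} (ha : |a| ≤ 1) (g : I) : (qObs a g : ℝ) = qfun a g := by
  obtain ⟨-, h1, h2⟩ := qfun_spec ha g.2.1 g.2.2
  rw [qObs, projIcc_of_mem _ ⟨h1, h2⟩]

lemma cdfObs_qObs {a : ℝ} (ha : |a| ≤ 1) (g : I) : cdfObs a (qObs a g) = g := by
  rw [qObs_coe ha]; exact (qfun_spec ha g.2.1 g.2.2).1

lemma qObs_le_iff {a : ℝ} (ha : |a| < 1) (g : I) (z : Obs) :
    qObs a g ≤ z ↔ (g : ℝ) ≤ cdfObs a z := by
  rw [← cdfObs_qObs ha.le g, cdfObs_le_iff ha (Obs.abs_le _) (Obs.abs_le _), Subtype.coe_le_coe]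

lemma qObs_lipschitz {a b : ℝ} (ha : |a| ≤ 1 / 4) (hb : |b| ≤ 1 / 4) (g h : I) :
    |(qObs a g : ℝ) - qObs b h| ≤ 3 * |(g : ℝ) - h| + |a - b| := by
  set z := (qObs a g : ℝ) with hzdef
  set w := (qObs b h : ℝ) with hwdef
  have hz : |z| ≤ 1 := Obs.abs_le _
  have hw : |w| ≤ 1 := Obs.abs_le _
  have e1 : cdfObs a z = g := cdfObs_qObs (by linarith) g
  have e2 : cdfObs b w = h := cdfObs_qObs (by linarith) h
  have e3 : (z - w) * (1 / 2 + a * (z + w) / 4) =
      ((g : ℝ) - h) - (a - b) * (w ^ 2 - 1) / 4 := by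
    rw [← e1, ← e2]; unfold cdfObs; ring
  have hc : 3 / 8 ≤ 1 / 2 + a * (z + w) / 4 := by
    have : |a * (z + w)| ≤ 1 / 4 * 2 := by
      rw [abs_mul]
      exact mul_le_mul ha ((abs_add_le z w).trans (by linarith)) (abs_nonneg _) (by norm_num)
    linarith [(abs_le.1 this).1]
  have hw2 : |w ^ 2 - 1| ≤ 1 := by
    have : w ^ 2 ≤ 1 := by nlinarith [abs_nonneg w, sq_abs w]
    rw [abs_le]; constructor <;> nlinarith [sq_nonneg w]
  have h4 : |z - w| * (3 / 8) ≤ |(g : ℝ) - h| + |a - b| / 4 := by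
    calc |z - w| * (3 / 8) ≤ |z - w| * |1 / 2 + a * (z + w) / 4| :=
          mul_le_mul_of_nonneg_left (hc.trans (le_abs_self _)) (abs_nonneg _)
      _ = |((g : ℝ) - h) - (a - b) * (w ^ 2 - 1) / 4| := by rw [← abs_mul, e3]
      _ ≤ |(g : ℝ) - h| + |(a - b) * (w ^ 2 - 1) / 4| := abs_sub _ _
      _ ≤ |(g : ℝ) - h| + |a - b| / 4 := by
          have h5 : |(a - b) * (w ^ 2 - 1) / 4| = |a - b| * |w ^ 2 - 1| / 4 := by
            rw [abs_div, abs_mul]; norm_num
          have h6 := mul_le_mul_of_nonneg_left hw2 (abs_nonneg (a - b))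
          linarith
  nlinarith [abs_nonneg ((g : ℝ) - h), abs_nonneg (a - b)]

lemma continuous_qfun : Continuous (fun p : ℝ × ℝ => qfun p.1 p.2) := by
  unfold qfun
  refine Continuous.div (by fun_prop) (by fun_prop) fun p => ?_
  have := Real.sqrt_nonneg (1 + p.1 * (4 * p.2 - 2 + p.1))
  linarith

lemma measurable_qObs : Measurable (fun p : ℝ × I => qObs p.1 p.2) := by
  have h1 : Measurable (fun p : ℝ × I => (p.1, (p.2 : ℝ))) :=
    measurable_fst.prodMk (measurable_subtype_coe.comp measurable_snd)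
  have h2 : Measurable (fun p : ℝ × I => qfun p.1 (p.2 : ℝ)) :=
    continuous_qfun.measurable.comp h1
  exact continuous_projIcc.measurable.comp h2

lemma measurable_qObs_right (a : ℝ) : Measurable (qObs a) :=
  measurable_qObs.comp (g := fun p : ℝ × I => qObs p.1 p.2) (f := fun g : I => (a, g))
    measurable_prodMk_left

/-- Reference law of one observation: uniform on `[-1,1]`. -/
noncomputable def nu : Measure Obs := (volume : Measure I).map (qObs 0)

instance : IsProbabilityMeasure nu :=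
  Measure.isProbabilityMeasure_map (measurable_qObs_right 0).aemeasurable

lemma nu_Iic (z : Obs) : nu (Iic z) = ENNReal.ofReal (((z : ℝ) + 1) / 2) := by
  rw [nu, Measure.map_apply (measurable_qObs_right 0) measurableSet_Iic]
  have hmem : cdfObs 0 z ∈ Icc (0 : ℝ) 1 := by
    unfold cdfObs
    obtain ⟨h1, h2⟩ := Obs.bounds z
    constructor <;> simp <;> linarith
  have : qObs 0 ⁻¹' Iic z = Iic (⟨cdfObs 0 z, hmem⟩ : I) := by
    ext g
    simp only [mem_preimage, mem_Iic, qObs_le_iff (a := 0) (by norm_num) g z]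
    exact Iff.rfl
  rw [this, unitInterval.volume_Iic]
  simp [cdfObs]

/-- The law of `qObs a` has density `1 + a z` with respect to `nu`. -/
lemma map_qObs {a : ℝ} (ha : |a| < 1) :
    (volume : Measure I).map (qObs a) =
      nu.withDensity (fun z => ENNReal.ofReal (1 + a * (z : ℝ))) := by
  haveI : IsProbabilityMeasure ((volume : Measure I).map (qObs a)) :=
    Measure.isProbabilityMeasure_map (measurable_qObs_right a).aemeasurable
  -- push `nu` to the line, where it is half of Lebesgue measure on `[-1,1]`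
  have hnu : nu.map (Subtype.val : Obs → ℝ) =
      (ENNReal.ofReal (1 / 2)) • (volume.restrict (Icc (-1 : ℝ) 1)) := by
    refine Measure.ext_of_Iic _ _ fun x => ?_
    rw [Measure.map_apply measurable_subtype_coe measurableSet_Iic, Measure.smul_apply,
      Measure.restrict_apply measurableSet_Iic]
    by_cases hx : x < -1
    · have h1 : (Subtype.val : Obs → ℝ) ⁻¹' Iic x = ∅ := by
        ext z; simp only [mem_preimage, mem_Iic, mem_empty_iff_false, iff_false, not_le]
        linarith [z.2.1]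
      have h2 : Iic x ∩ Icc (-1 : ℝ) 1 = ∅ := by
        ext z; simp only [mem_inter_iff, mem_Iic, mem_Icc, mem_empty_iff_false, iff_false]
        intro h; linarith [h.2.1]
      rw [h1, h2]; simp
    push Not at hx
    have hmem : min x 1 ∈ Icc (-1 : ℝ) 1 := ⟨le_min hx (by norm_num), min_le_right _ _⟩
    have h1 : (Subtype.val : Obs → ℝ) ⁻¹' Iic x = Iic (⟨min x 1, hmem⟩ : Obs) := by
      ext z
      simp only [mem_preimage, mem_Iic, ← Subtype.coe_le_coe, le_min_iff]
      exact ⟨fun h => ⟨h, z.2.2⟩, fun h => h.1⟩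
    have h2 : Iic x ∩ Icc (-1 : ℝ) 1 = Icc (-1) (min x 1) := by
      ext z; simp only [mem_inter_iff, mem_Iic, mem_Icc, le_min_iff]; tauto
    rw [h1, h2, nu_Iic, Real.volume_Icc, smul_eq_mul, ← ENNReal.ofReal_mul (by norm_num)]
    congr 1
    push_cast
    ring
  refine Measure.ext_of_Iic _ _ fun z => ?_
  rw [Measure.map_apply (measurable_qObs_right a) measurableSet_Iic,
    withDensity_apply _ measurableSet_Iic]
  have hF0 : 0 ≤ cdfObs a z ∧ cdfObs a z ≤ 1 := by
    have l := (cdfObs_le_iff ha (z := (-1 : ℝ)) (by norm_num) z.abs_le).2 z.2.1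
    have u := (cdfObs_le_iff ha (w := (1 : ℝ)) z.abs_le (by norm_num)).2 z.2.2
    simp only [cdfObs] at l u ⊢
    constructor <;> linarith
  have hpre : qObs a ⁻¹' Iic z = Iic (⟨cdfObs a z, hF0⟩ : I) := by
    ext g
    simp only [mem_preimage, mem_Iic, qObs_le_iff ha g z]
    exact Iff.rfl
  rw [hpre, unitInterval.volume_Iic]
  have hemb : MeasurableEmbedding (Subtype.val : Obs → ℝ) :=
    MeasurableEmbedding.subtype_coe measurableSet_Icc
  have himg : (Subtype.val : Obs → ℝ) '' Iic z = Icc (-1) (z : ℝ) :=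
    Set.image_subtype_val_Icc_Iic z
  have hnonneg : ∀ x ∈ Icc (-1 : ℝ) (z : ℝ), 0 ≤ 1 + a * x := by
    intro x hx
    have h : |a * x| ≤ 1 := by
      rw [abs_mul]
      exact mul_le_one₀ ha.le (abs_nonneg _) (abs_le.2 ⟨hx.1, hx.2.trans z.2.2⟩)
    linarith [(abs_le.1 h).1]
  calc ENNReal.ofReal (cdfObs a z)
      = ENNReal.ofReal (1 / 2) * ∫⁻ x in Icc (-1 : ℝ) z, ENNReal.ofReal (1 + a * x) := by
        have hint : IntegrableOn (fun x : ℝ => 1 + a * x) (Icc (-1 : ℝ) z) :=
          (by fun_prop : Continuous fun x : ℝ => 1 + a * x).continuousOn.integrableOn_Icc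
        rw [← ofReal_integral_eq_lintegral_ofReal hint, ← ENNReal.ofReal_mul (by norm_num),
          integral_Icc_eq_integral_Ioc, ← intervalIntegral.integral_of_le z.2.1]
        · congr 1
          rw [intervalIntegral.integral_add intervalIntegrable_const
            ((by fun_prop : Continuous fun x : ℝ => a * x).intervalIntegrable _ _),
            intervalIntegral.integral_const_mul]
          simp [cdfObs]
          ring
        · exact ae_restrict_of_forall_mem measurableSet_Icc hnonneg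
    _ = ∫⁻ x in Iic z, ENNReal.ofReal (1 + a * (x : ℝ)) ∂nu := by
        have hpre' : (Subtype.val : Obs → ℝ) ⁻¹' Icc (-1) (z : ℝ) = Iic z := by
          ext x
          simp only [mem_preimage, mem_Icc, mem_Iic, ← Subtype.coe_le_coe]
          exact ⟨fun h => h.2, fun h => ⟨x.2.1, h⟩⟩
        rw [← hpre', ← setLIntegral_map measurableSet_Icc
          (f := fun x : ℝ => ENNReal.ofReal (1 + a * x)) (by fun_prop) measurable_subtype_coe,
          hnu, Measure.restrict_smul, lintegral_smul_measure, Measure.restrict_restrict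
          measurableSet_Icc, smul_eq_mul]
        congr 2
        rw [Set.inter_eq_left.2 (Set.Icc_subset_Icc le_rfl z.2.2)]

lemma lintegral_qObs {a : ℝ} (ha : |a| < 1) (F : Obs → ℝ≥0∞) (hF : Measurable F) :
    ∫⁻ g, F (qObs a g) = ∫⁻ z, ENNReal.ofReal (1 + a * (z : ℝ)) * F z ∂nu := by
  rw [← lintegral_map hF (measurable_qObs_right a), map_qObs ha,
    lintegral_withDensity_eq_lintegral_mul _ (by fun_prop) hF]
  rfl

end Vale.Agent.P161
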