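import Vale.Agent.P161.Volume

/-!
Moments of the layer averages under the coupling of spins and finite-volume observations.
-/

namespace Vale.Agent.P161

open MeasureTheory SimpleGraph Finset Function
open scoped unitInterval

variable {V : Type*} [DecidableEq V] {G : SimpleGraph V} {θ ε : ℝ}

/-- Second moment of one observation. -/
noncomputable def c2 : ℝ := ∫ x, (x : ℝ) * (x : ℝ) ∂nu

lemma c2_pos : 0 < c2 := by
  have hm : MeasurableSet (Set.Iic (⟨-1/2, by norm_num, by norm_num⟩ : Obs)) := measurableSet_Iic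
  have hi : Integrable (fun x : Obs => (x : ℝ) * x) nu :=
    integrable_of_bounded (by fun_prop) (C := 1) fun x => by
      rw [abs_mul]; exact mul_le_one₀ x.abs_le (abs_nonneg _) x.abs_le
  have h := integral_mono ((integrable_const (1 / 4 : ℝ)).indicator hm) hi (fun x => by
    by_cases hx : x ∈ Set.Iic (⟨-1/2, by norm_num, by norm_num⟩ : Obs)
    · rw [Set.indicator_of_mem hx]
      have : (x : ℝ) ≤ -1/2 := hx
      nlinarith
    · rw [Set.indicator_of_notMem hx]; exact mul_self_nonneg _)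
  rw [integral_indicator hm, setIntegral_const, measureReal_def, nu_Iic] at h
  unfold c2
  norm_num at h
  linarith

/-- Joint expectation of spins and observations on `S`. -/
noncomputable def jexp (G : SimpleGraph V) (θ ε : ℝ) (S : Finset V) (P : Finset (ℕ × V))
    (H : Finset V → (ℕ × V → Obs) → ℝ) : ℝ :=
  ∑ A ∈ S.powerset, ∫ z, wt G θ S A * lik ε P z A * H A z ∂(P0 V)

lemma integrable_term (h0 : 0 ≤ θ) (h1 : θ < 1) (hε : 0 ≤ ε) (hε1 : ε < 1) (S A : Finset V)
    (P : Finset (ℕ × V)) {H : (ℕ × V → Obs) → ℝ} (hH : Measurable H) {C : ℝ}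
    (hC : ∀ z, |H z| ≤ C) :
    Integrable (fun z => wt G θ S A * lik ε P z A * H z) (P0 V) := by
  refine integrable_of_bounded (C := wt G θ S A * 2 ^ P.card * C) ?_ fun z => ?_
  · refine Measurable.mul (Measurable.const_mul (Finset.measurable_prod _ fun q _ => ?_) _) hH
    exact ((measurable_subtype_coe.comp (measurable_pi_apply q)).const_mul _).const_add _
  rw [abs_mul, abs_mul, abs_of_pos (wt_pos h0 h1 S A), abs_of_pos (lik_pos hε hε1 P z A)]
  refine mul_le_mul (mul_le_mul_of_nonneg_left ?_ (wt_pos h0 h1 S A).le) (hC z) (abs_nonneg _)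
    (mul_nonneg (wt_pos h0 h1 S A).le (by positivity))
  refine (Finset.prod_le_prod (fun q _ => ?_) (fun q _ => ?_)).trans_eq (Finset.prod_const 2)
  · linarith [(abs_le.1 (abs_eps_spin_le hε A q.2 (z q))).1]
  · linarith [(abs_le.1 (abs_eps_spin_le hε A q.2 (z q))).2]

lemma jexp_mono (h0 : 0 ≤ θ) (h1 : θ < 1) (hε : 0 ≤ ε) (hε1 : ε < 1) (S : Finset V)
    (P : Finset (ℕ × V)) {H H' : Finset V → (ℕ × V → Obs) → ℝ} (hH : ∀ A, Measurable (H A))
    (hH' : ∀ A, Measurable (H' A)) {C C' : ℝ} (hC : ∀ A z, |H A z| ≤ C)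
    (hC' : ∀ A z, |H' A z| ≤ C') (h : ∀ A z, H A z ≤ H' A z) :
    jexp G θ ε S P H ≤ jexp G θ ε S P H' :=
  Finset.sum_le_sum fun A _ => integral_mono
    (integrable_term h0 h1 hε hε1 S A P (hH A) (hC A))
    (integrable_term h0 h1 hε hε1 S A P (hH' A) (hC' A)) fun z =>
      mul_le_mul_of_nonneg_left (h A z)
        (mul_nonneg (wt_pos h0 h1 S A).le (lik_pos hε hε1 P z A).le)

lemma jexp_add (h0 : 0 ≤ θ) (h1 : θ < 1) (hε : 0 ≤ ε) (hε1 : ε < 1) (S : Finset V)
    (P : Finset (ℕ × V)) {H H' : Finset V → (ℕ × V → Obs) → ℝ} (hH : ∀ A, Measurable (H A))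
    (hH' : ∀ A, Measurable (H' A)) {C C' : ℝ} (hC : ∀ A z, |H A z| ≤ C)
    (hC' : ∀ A z, |H' A z| ≤ C') (a b : ℝ) :
    jexp G θ ε S P (fun A z => a * H A z + b * H' A z) =
      a * jexp G θ ε S P H + b * jexp G θ ε S P H' := by
  simp only [jexp, Finset.mul_sum, ← Finset.sum_add_distrib]
  refine Finset.sum_congr rfl fun A _ => ?_
  rw [← integral_const_mul, ← integral_const_mul, ← integral_add
    ((integrable_term h0 h1 hε hε1 S A P (hH A) (hC A)).const_mul a)
    ((integrable_term h0 h1 hε hε1 S A P (hH' A) (hC' A)).const_mul b)]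
  exact integral_congr_ae (ae_of_all _ fun z => by ring)

/-- Functions of the form `F z * φ A`. -/
lemma jexp_prod (h0 : 0 ≤ θ) (h1 : θ < 1) (hε : 0 ≤ ε) (hε1 : ε < 1) (S : Finset V)
    (P : Finset (ℕ × V)) {F : (ℕ × V → Obs) → ℝ} (hF : Measurable F) {C : ℝ}
    (hC : ∀ z, |F z| ≤ C) (φ : Finset V → ℝ) :
    jexp G θ ε S P (fun A z => F z * φ A) = ∫ z, F z * pexp G θ ε S P z φ ∂(P0 V) := by
  rw [jexp, ← integral_finsetSum _ fun A _ => integrable_term h0 h1 hε hε1 S A P
    (hF.mul_const (φ A)) (C := C * |φ A|) fun z => by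
      rw [abs_mul]; exact mul_le_mul_of_nonneg_right (hC z) (abs_nonneg _)]
  refine integral_congr_ae (ae_of_all _ fun z => ?_)
  simp only [pexp, Finset.mul_sum]
  exact Finset.sum_congr rfl fun A _ => by ring

/-- Expectations under the finite-volume map are joint expectations. -/
lemma expect_jexp (hG : G.IsTree) (h0 : 0 ≤ θ) (h1 : θ < 1) (hε : 0 ≤ ε) (hε1 : ε < 1) {U : V → I}
    {S : Finset V} (hS : Conn G S) {o : V} (ho : o ∈ S) (hU : Set.InjOn U S) (N : ℕ)
    {F : (ℕ × V → Obs) → ℝ} (hF : Measurable F) {C : ℝ} (hC : ∀ z, |F z| ≤ C)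
    (hdep : ∀ z z', (∀ q ∈ sitesUpTo S N, z q = z' q) → F z = F z') :
    ∫ g, F (sol G θ ε U S g) ∂(Pg V) = jexp G θ ε S (sitesUpTo S N) (fun _ z => F z) := by
  rw [expect_sol hG h0 h1 hε hε1 hS ho hU N hF hC hdep]
  have := jexp_prod (G := G) h0 h1 hε hε1 S (sitesUpTo S N) hF hC (fun _ => 1)
  simp only [mul_one] at this
  exact this.symm

lemma pexp_empty_eq (z z' : ℕ × V → Obs) (S : Finset V) (φ : Finset V → ℝ) :
    pexp G θ ε S ∅ z φ = pexp G θ ε S ∅ z' φ :=
  pexp_congr (fun _ h => absurd h (Finset.notMem_empty _)) φ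

/-- Multiplying by one observation and integrating it out. -/
lemma integral_obs_mul (h0 : 0 ≤ θ) (h1 : θ < 1) (hε : 0 ≤ ε) (hε1 : ε < 1) (S : Finset V)
    {P : Finset (ℕ × V)} {q : ℕ × V} (hq : q ∉ P) {F : (ℕ × V → Obs) → ℝ} (hF : Measurable F)
    {C : ℝ} (hC : ∀ z, |F z| ≤ C) (hdep : ∀ z x, F (update z q x) = F z)
    (φ : Finset V → ℝ) :
    ∫ z, F z * (z q : ℝ) * pexp G θ ε S (insert q P) z φ ∂(P0 V) =
      ε * c2 * ∫ z, F z * pexp G θ ε S P z (fun A => φ A * spin A q.2) ∂(P0 V) := by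
  obtain ⟨D, hD⟩ := abs_pexp_le_const (G := G) h0 h1 hε hε1 S (insert q P) φ
  have hqm : Measurable fun z : ℕ × V → Obs => (z q : ℝ) :=
    measurable_subtype_coe.fun_comp (measurable_pi_apply q)
  rw [P0, integral_update nu q (F := fun z => F z * (z q : ℝ) * pexp G θ ε S (insert q P) z φ)
    ((hF.mul hqm).mul (measurable_pexp S _ φ)) (C := C * 1 * D) fun z => by
      have hC0 : 0 ≤ C := (abs_nonneg _).trans (hC z)
      rw [abs_mul, abs_mul]
      exact mul_le_mul (mul_le_mul (hC z) (Obs.abs_le _) (abs_nonneg _) hC0) (hD z) (abs_nonneg _)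
        (mul_nonneg hC0 zero_le_one), ← integral_const_mul]
  refine integral_congr_ae (ae_of_all _ fun z => ?_)
  simp only
  have e : ∀ x : Obs, F (update z q x) * (update z q x q : ℝ) *
      pexp G θ ε S (insert q P) (update z q x) φ =
      (F z * pexp G θ ε S P z φ) * (x : ℝ) +
        (ε * (F z * pexp G θ ε S P z (fun A => φ A * spin A q.2))) * ((x : ℝ) * x) := by
    intro x
    rw [hdep, update_self]
    simp only [pexp, Finset.mul_sum, Finset.sum_mul, ← Finset.sum_add_distrib]
    refine Finset.sum_congr rfl fun A _ => ?_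
    rw [lik, Finset.prod_insert hq, update_self]
    have : ∏ r ∈ P, (1 + ε * spin A r.2 * (update z q x r : ℝ)) = lik ε P z A :=
      Finset.prod_congr rfl fun r hr => by rw [update_of_ne (fun h : r = q => hq (h ▸ hr))]
    rw [this]
    ring
  rw [integral_congr_ae (ae_of_all _ e),
    integral_add ((integrable_of_bounded measurable_subtype_coe Obs.abs_le).const_mul _)
      ((integrable_of_bounded (by fun_prop : Measurable fun x : Obs => (x : ℝ) * x) (C := 1)
        fun x => by rw [abs_mul]; exact mul_le_one₀ x.abs_le (abs_nonneg _) x.abs_le).const_mul _),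
    integral_const_mul, integral_const_mul, integral_nu_id]
  unfold c2
  ring

/-- The layer average at `v`, normalised to estimate the spin. -/
noncomputable def xav (ε : ℝ) (N : ℕ) (v : V) (z : ℕ × V → Obs) : ℝ :=
  (∑ k ∈ Finset.range N, (z (k, v) : ℝ)) / (N * (ε * c2))

lemma measurable_xav (N : ℕ) (v : V) : Measurable (xav ε N v) :=
  (Finset.measurable_sum _ fun k _ =>
    measurable_subtype_coe.fun_comp (measurable_pi_apply (k, v))).div_const _

lemma abs_xav_le (hε : 0 < ε) (N : ℕ) (v : V) (z : ℕ × V → Obs) :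
    |xav ε N v z| ≤ 1 / (ε * c2) := by
  have hc := mul_pos hε c2_pos
  rcases Nat.eq_zero_or_pos N with rfl | hN
  · have : 0 ≤ 1 / (ε * c2) := div_nonneg zero_le_one hc.le
    simpa [xav] using this
  have hN' : (0 : ℝ) < N := by exact_mod_cast hN
  rw [xav, abs_div, abs_of_pos (mul_pos hN' hc), div_le_div_iff₀ (mul_pos hN' hc) hc]
  have hs : |∑ k ∈ Finset.range N, (z (k, v) : ℝ)| ≤ N :=
    (Finset.abs_sum_le_sum_abs _ _).trans
      ((Finset.sum_le_sum fun k _ => Obs.abs_le _).trans_eq (by simp))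
  nlinarith [mul_le_mul_of_nonneg_right hs hc.le]

/-- First and second moment: mean squared error of the layer average. -/
lemma jexp_sq_le (hG : G.IsTree) (h0 : 0 ≤ θ) (h1 : θ < 1) (hε : 0 < ε) (hε1 : ε < 1)
    {S : Finset V} (hS : Conn G S) {v : V} (hv : v ∈ S) {N M : ℕ} (hN : 0 < N) (hNM : N ≤ M + 1) :
    jexp G θ ε S (sitesUpTo S M) (fun A z => (xav ε N v z - spin A v) ^ 2) ≤
      1 / (N * (ε * c2) ^ 2) := by
  set P := sitesUpTo S M with hP
  set z0 : ℕ × V → Obs := zInit
  have hcp := mul_pos hε c2_pos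
  have hmem : ∀ k ∈ Finset.range N, (k, v) ∈ P := fun k hk => by
    simp only [hP, sitesUpTo, Finset.mem_product, Finset.mem_range] at hk ⊢
    exact ⟨by omega, hv⟩
  have hm : ∀ k : ℕ, Measurable fun z : ℕ × V → Obs => (z (k, v) : ℝ) := fun k =>
    measurable_subtype_coe.fun_comp (measurable_pi_apply (k, v))
  have hone : pexp G θ ε S ∅ z0 (fun _ => 1) = 1 := den_empty hG hS hv z0
  -- cross moment with the spin
  have hA : ∀ k ∈ Finset.range N,
      ∫ z, (z (k, v) : ℝ) * pexp G θ ε S P z (fun A => spin A v) ∂(P0 V) = ε * c2 := by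
    intro k hk
    rw [integral_marg h0 h1 hε.le hε1 S (hm k) (C := 1) (fun z => Obs.abs_le _)
      (P := insert (k, v) ∅) (fun z z' h => by rw [h (k, v) (Finset.mem_insert_self _ _)]) _
      (by simpa using hmem k hk)]
    have := integral_obs_mul (G := G) h0 h1 hε.le hε1 S (Finset.notMem_empty (k, v))
      (F := fun _ => 1) measurable_const (C := 1) (fun _ => by simp) (fun _ _ => rfl)
      (fun A => spin A v)
    simp only [one_mul] at this
    rw [this]
    simp only [spin_mul_self, pexp_empty_eq (G := G) _ z0, hone, integral_const, probReal_univ,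
      smul_eq_mul, mul_one]
  -- second moments
  have hB : ∀ k ∈ Finset.range N, ∀ l ∈ Finset.range N, k ≠ l →
      ∫ z, (z (k, v) : ℝ) * (z (l, v) : ℝ) * den G θ ε S P z ∂(P0 V) = (ε * c2) * (ε * c2) := by
    intro k hk l hl hkl
    have hne : (k, v) ≠ (l, v) := fun h => hkl (congrArg Prod.fst h)
    have hsub : insert (l, v) (insert (k, v) ∅) ⊆ P := by
      simp only [Finset.insert_subset_iff, Finset.empty_subset, and_true]
      exact ⟨hmem l hl, hmem k hk⟩
    simp only [den]
    rw [integral_marg h0 h1 hε.le hε1 S (F := fun z => (z (k, v) : ℝ) * (z (l, v) : ℝ))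
      ((hm k).mul (hm l)) (C := 1)
      (fun z => by
        rw [abs_mul]; exact mul_le_one₀ (Obs.abs_le _) (abs_nonneg _) (Obs.abs_le _))
      (P := insert (l, v) (insert (k, v) ∅))
      (fun z z' h => by
        rw [h (k, v) (by simp), h (l, v) (by simp)]) _ hsub,
      integral_obs_mul (G := G) h0 h1 hε.le hε1 S (q := (l, v))
        (by simpa using hne.symm) (hm k) (C := 1) (fun z => Obs.abs_le _)
        (fun z x => by rw [update_of_ne hne]) (fun _ => 1)]
    have := integral_obs_mul (G := G) h0 h1 hε.le hε1 S (Finset.notMem_empty (k, v))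
      (F := fun _ => 1) measurable_const (C := 1) (fun _ => by simp) (fun _ _ => rfl)
      (fun A => (1 : ℝ) * spin A v)
    simp only [one_mul] at this
    simp only [one_mul]
    rw [this]
    simp only [spin_mul_self, pexp_empty_eq (G := G) _ z0, hone, integral_const, probReal_univ,
      smul_eq_mul, mul_one]
  have hden1 : ∫ z, den G θ ε S P z ∂(P0 V) = 1 := by
    have := integral_marg (G := G) h0 h1 hε.le hε1 S (F := fun _ => 1) measurable_const (C := 1)
      (fun _ => by simp) (P := ∅) (fun _ _ _ => rfl) (fun _ => 1) (Finset.empty_subset P)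
    simp only [one_mul] at this
    rw [show (fun z => den G θ ε S P z) = fun z => pexp G θ ε S P z (fun _ => 1) from rfl, this]
    simp only [pexp_empty_eq (G := G) _ z0, hone, integral_const, probReal_univ, smul_eq_mul,
      mul_one]
  obtain ⟨D, hD⟩ := abs_pexp_le_const (G := G) h0 h1 hε.le hε1 S P (fun _ => 1)
  obtain ⟨D', hD'⟩ := abs_pexp_le_const (G := G) h0 h1 hε.le hε1 S P (fun A => spin A v)
  have hint2 : ∀ k l : ℕ, Integrable
      (fun z => (z (k, v) : ℝ) * (z (l, v) : ℝ) * den G θ ε S P z) (P0 V) := fun k l =>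
    integrable_of_bounded (((hm k).mul (hm l)).mul (measurable_pexp S P _)) (C := 1 * D) fun z => by
      rw [abs_mul]
      refine mul_le_mul ?_ (hD z) (abs_nonneg _) zero_le_one
      rw [abs_mul]; exact mul_le_one₀ (Obs.abs_le _) (abs_nonneg _) (Obs.abs_le _)
  have hint1 : ∀ k : ℕ, Integrable
      (fun z => (z (k, v) : ℝ) * pexp G θ ε S P z (fun A => spin A v)) (P0 V) := fun k =>
    integrable_of_bounded ((hm k).mul (measurable_pexp S P _)) (C := 1 * D') fun z => by
      rw [abs_mul]; exact mul_le_mul (Obs.abs_le _) (hD' z) (abs_nonneg _) zero_le_one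
  have hN' : (0 : ℝ) < N := by exact_mod_cast hN
  set a := (1 : ℝ) / (N * (ε * c2)) with ha
  have hx : ∀ z, xav ε N v z = a * ∑ k ∈ Finset.range N, (z (k, v) : ℝ) := fun z => by
    rw [xav, ha]; ring
  set b := 1 / (ε * c2) with hb
  have hbnd : ∀ z, |xav ε N v z * xav ε N v z| ≤ b * b := fun z => by
    rw [abs_mul]
    exact mul_le_mul (abs_xav_le hε N v z) (abs_xav_le hε N v z) (abs_nonneg _) (by positivity)
  have hexp : jexp G θ ε S P (fun A z => (xav ε N v z - spin A v) ^ 2) =
      1 * (1 * jexp G θ ε S P (fun A z => xav ε N v z * xav ε N v z * (1 : ℝ)) +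
        (-2) * jexp G θ ε S P (fun A z => xav ε N v z * spin A v)) +
        1 * jexp G θ ε S P (fun A z => (fun _ => (1 : ℝ)) z * 1) := by
    have i1 := jexp_add (G := G) (θ := θ) h0 h1 hε.le hε1 S P
      (H := fun _ z => xav ε N v z * xav ε N v z * (1 : ℝ))
      (H' := fun A z => xav ε N v z * spin A v)
      (fun A => ((measurable_xav N v).mul (measurable_xav N v)).mul_const _)
      (fun A => (measurable_xav N v).mul_const _) (C := b * b) (C' := b)
      (fun A z => by rw [mul_one]; exact hbnd z)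
      (fun A z => by rw [abs_mul, abs_spin, mul_one]; exact abs_xav_le hε N v z) 1 (-2)
    have i2 := jexp_add (G := G) (θ := θ) h0 h1 hε.le hε1 S P
      (H := fun A z => 1 * (xav ε N v z * xav ε N v z * (1 : ℝ)) + (-2) * (xav ε N v z * spin A v))
      (H' := fun _ _ => (1 : ℝ) * 1)
      (fun A => ((((measurable_xav N v).mul (measurable_xav N v)).mul_const _).const_mul 1).add
        (((measurable_xav N v).mul_const _).const_mul (-2)))
      (fun A => measurable_const) (C := b * b + 2 * b) (C' := 1)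
      (fun A z => by
        refine (abs_add_le _ _).trans (add_le_add ?_ ?_)
        · rw [one_mul, mul_one]; exact hbnd z
        · rw [abs_mul, abs_mul, abs_spin, abs_neg, abs_two, mul_one]
          exact mul_le_mul_of_nonneg_left (abs_xav_le hε N v z) (by norm_num))
      (fun A z => by simp) 1 1
    rw [← i1, ← i2]
    congr 1
    funext A z
    rw [sub_sq, sq (spin A v), spin_mul_self]
    ring
  rw [hexp, jexp_prod h0 h1 hε.le hε1 S P (F := fun z => xav ε N v z * xav ε N v z)
      ((measurable_xav N v).mul (measurable_xav N v)) hbnd (fun _ => 1),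
    jexp_prod h0 h1 hε.le hε1 S P (measurable_xav N v) (abs_xav_le hε N v) (fun A => spin A v),
    jexp_prod h0 h1 hε.le hε1 S P (F := fun _ => 1) measurable_const (C := 1) (fun _ => by simp)
      (fun _ => 1)]
  have hc2 : c2 ≠ 0 := c2_pos.ne'
  have e1 : ∫ z, xav ε N v z * pexp G θ ε S P z (fun A => spin A v) ∂(P0 V) = 1 := by
    simp only [hx, mul_assoc, Finset.sum_mul]
    rw [integral_const_mul, integral_finsetSum _ (fun k _ => hint1 k), Finset.sum_congr rfl hA,
      Finset.sum_const, Finset.card_range, nsmul_eq_mul, ha]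
    field_simp
  have e2 : ∫ z, xav ε N v z * xav ε N v z * den G θ ε S P z ∂(P0 V) ≤
      1 + 1 / (N * (ε * c2) ^ 2) := by
    have e : ∀ z, xav ε N v z * xav ε N v z * den G θ ε S P z =
        a * a * ∑ k ∈ Finset.range N, ∑ l ∈ Finset.range N,
          (z (k, v) : ℝ) * (z (l, v) : ℝ) * den G θ ε S P z := by
      intro z
      rw [hx, mul_mul_mul_comm, Finset.sum_mul_sum]
      simp only [Finset.mul_sum, Finset.sum_mul, mul_assoc]
    simp only [e]
    rw [integral_const_mul, integral_finsetSum _ (fun k _ => integrable_finsetSum _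
      fun l _ => hint2 k l)]
    have hk : ∀ k ∈ Finset.range N,
        ∫ z, ∑ l ∈ Finset.range N, (z (k, v) : ℝ) * (z (l, v) : ℝ) * den G θ ε S P z ∂(P0 V) ≤
          1 + N * ((ε * c2) * (ε * c2)) := by
      intro k hk
      rw [integral_finsetSum _ (fun l _ => hint2 k l), ← Finset.add_sum_erase _ _ hk]
      refine add_le_add ?_ ?_
      · refine le_of_le_of_eq (integral_mono (hint2 k k)
          (integrable_of_bounded (measurable_pexp S P _) hD) fun z => ?_) hden1
        exact mul_le_of_le_one_left (den_pos h0 h1 hε.le hε1 S P z).le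
          ((le_abs_self _).trans (by
            rw [abs_mul]; exact mul_le_one₀ (Obs.abs_le _) (abs_nonneg _) (Obs.abs_le _)))
      · rw [Finset.sum_congr rfl fun l hl => hB k hk l (Finset.mem_erase.1 hl).2
          (Finset.mem_erase.1 hl).1.symm, Finset.sum_const, nsmul_eq_mul]
        refine mul_le_mul_of_nonneg_right ?_ (mul_self_nonneg _)
        exact_mod_cast (Finset.card_erase_le).trans_eq (Finset.card_range N)
    refine (mul_le_mul_of_nonneg_left (Finset.sum_le_sum hk) (mul_self_nonneg a)).trans_eq ?_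
    rw [Finset.sum_const, Finset.card_range, nsmul_eq_mul, ha]
    field_simp
    ring
  simp only [one_mul, den] at hden1 e1 e2 ⊢
  rw [hden1, e1]
  linarith

/-- Mean absolute error of the layer average over `4 ^ i` layers. -/
lemma jexp_abs_le (hG : G.IsTree) (h0 : 0 ≤ θ) (h1 : θ < 1) (hε : 0 < ε) (hε1 : ε < 1)
    {S : Finset V} (hS : Conn G S) {v : V} (hv : v ∈ S) {i M : ℕ} (hM : 4 ^ i ≤ M + 1) :
    jexp G θ ε S (sitesUpTo S M) (fun A z => |xav ε (4 ^ i) v z - spin A v|) ≤
      (1 + 1 / (ε * c2) ^ 2) * (1 / 2) ^ i := by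
  set t := ((1 : ℝ) / 2) ^ i with ht
  have ht0 : 0 < t := by positivity
  set b := 1 / (ε * c2) + 1 with hb
  have hbnd : ∀ A z, |xav ε (4 ^ i) v z - spin A v| ≤ b := fun A z =>
    (abs_sub _ _).trans (by rw [abs_spin, hb]; linarith [abs_xav_le hε (4 ^ i) v z])
  have hm : ∀ A, Measurable fun z => (xav ε (4 ^ i) v z - spin A v) ^ 2 := fun A =>
    ((measurable_xav _ v).sub_const _).pow_const 2
  have hsq : ∀ A z, |(xav ε (4 ^ i) v z - spin A v) ^ 2| ≤ b ^ 2 := fun A z => by
    rw [abs_pow]; exact pow_le_pow_left₀ (abs_nonneg _) (hbnd A z) 2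
  refine (jexp_mono h0 h1 hε.le hε1 S _ (fun A => ((measurable_xav _ v).sub_const _).abs)
    (H' := fun A z => (t / 2) * 1 + (1 / (2 * t)) * (xav ε (4 ^ i) v z - spin A v) ^ 2)
    (fun A => ((hm A).const_mul _).const_add _) (C := b)
    (C' := t / 2 + 1 / (2 * t) * b ^ 2) (fun A z => by rw [abs_abs]; exact hbnd A z)
    (fun A z => ?_) fun A z => ?_).trans ?_
  · refine (abs_add_le _ _).trans (add_le_add (le_of_eq ?_) ?_)
    · rw [mul_one, abs_of_pos (by positivity)]
    · rw [abs_mul, abs_of_pos (by positivity : (0 : ℝ) < 1 / (2 * t))]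
      exact mul_le_mul_of_nonneg_left (hsq A z) (by positivity)
  · have key : ∀ x : ℝ, t / 2 * 1 + 1 / (2 * t) * x ^ 2 - |x| = (|x| - t) ^ 2 / (2 * t) := by
      intro x; field_simp; rw [sub_sq, sq_abs]; ring
    have := key (xav ε (4 ^ i) v z - spin A v)
    have : 0 ≤ (|xav ε (4 ^ i) v z - spin A v| - t) ^ 2 / (2 * t) := by positivity
    linarith
  rw [jexp_add h0 h1 hε.le hε1 S _ (fun _ => measurable_const) hm (C := 1) (fun _ _ => by simp) hsq]
  have h1' : jexp G θ ε S (sitesUpTo S M) (fun _ _ => (1 : ℝ)) = 1 := by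
    have := jexp_prod (G := G) h0 h1 hε.le hε1 S (sitesUpTo S M) (F := fun _ => 1)
      measurable_const (C := 1) (fun _ => by simp) (fun _ => 1)
    simp only [mul_one] at this
    rw [this, integral_marg (G := G) h0 h1 hε.le hε1 S (F := fun _ => 1) measurable_const (C := 1)
      (fun _ => by simp) (P := ∅) (fun _ _ _ => rfl) (fun _ => 1) (Finset.empty_subset _)]
    simp only [one_mul]
    simp only [pexp_empty_eq (G := G) _ zInit]
    rw [show pexp G θ ε S ∅ zInit (fun _ => 1) = 1 from den_empty hG hS hv zInit]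
    simp
  rw [h1']
  refine (add_le_add le_rfl (mul_le_mul_of_nonneg_left
    (jexp_sq_le hG h0 h1 hε hε1 hS hv (Nat.pow_pos (by norm_num)) hM) (by positivity))).trans ?_
  have h4 : ((4 ^ i : ℕ) : ℝ) = 1 / (t * t) := by
    push_cast
    rw [ht, ← mul_pow, one_div (((1 : ℝ) / 2 * (1 / 2)) ^ i), ← inv_pow]
    norm_num
  rw [h4]
  have : 0 < ε * c2 := mul_pos hε c2_pos
  have e : 1 / (2 * t) * (1 / (1 / (t * t) * (ε * c2) ^ 2)) = t / 2 * (1 / (ε * c2) ^ 2) := by
    field_simp
  rw [e]
  have : 0 ≤ 1 / (ε * c2) ^ 2 := by positivity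
  nlinarith

end Vale.Agent.P161
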