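import Vale.Agent.P161.Joint
import Vale.Agent.P161.Moments

/-!
The limiting spin map: stabilisation of the sign of the layer averages, its exact
equivariance and its law.
-/

namespace Vale.Agent.P161

open MeasureTheory SimpleGraph Finset Function Filter
open scoped unitInterval Topology

variable {V : Type*} [DecidableEq V] {G : SimpleGraph V} [G.LocallyFinite] {θ ε : ℝ}

/-- The spin estimate at stage `i`. -/
noncomputable def est (G : SimpleGraph V) [G.LocallyFinite] (θ ε : ℝ) (n : ℕ → ℕ) (i : ℕ) (v : V)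
    (p : (V → I) × (ℕ × V → I)) : ℝ :=
  xav ε (4 ^ i) v (sol G θ ε p.1 (ballF G v (n i)) p.2)

/-- Positivity of the eventual sign. -/
def Pos (G : SimpleGraph V) [G.LocallyFinite] (θ ε : ℝ) (n : ℕ → ℕ) (v : V)
    (p : (V → I) × (ℕ × V → I)) : Prop :=
  ∀ᶠ i in atTop, 0 < est G θ ε n i v p

open scoped Classical in
/-- The spin map. -/
noncomputable def spinMap (G : SimpleGraph V) [G.LocallyFinite] (θ ε : ℝ) (n : ℕ → ℕ)
    (p : (V → I) × (ℕ × V → I)) (v : V) : Bool :=
  decide (Pos G θ ε n v p)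

lemma measurable_est (n : ℕ → ℕ) (i : ℕ) (v : V) : Measurable (est G θ ε n i v) :=
  (measurable_xav _ v).fun_comp (measurable_sol2 _)

lemma measurable_spinMap (n : ℕ → ℕ) : Measurable (spinMap G θ ε n) := by
  refine measurable_pi_lambda _ fun v => measurable_to_bool ?_
  have : (fun p => spinMap G θ ε n p v) ⁻¹' {true} = ⋃ N, ⋂ i, ⋂ (_ : N ≤ i),
      {p | 0 < est G θ ε n i v p} := by
    ext p
    simp only [Set.mem_preimage, Set.mem_singleton_iff, spinMap, Pos, Set.mem_iUnion,
      Set.mem_iInter, Set.mem_setOf_eq]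
    classical
    exact decide_eq_true_iff.trans eventually_atTop
  rw [this]
  exact MeasurableSet.iUnion fun N => MeasurableSet.iInter fun i => MeasurableSet.iInter fun _ =>
    measurableSet_lt measurable_const (measurable_est n i v)

lemma ballF_image (e : G ≃g G) (o : V) : ∀ n, (ballF G o n).image e = ballF G (e o) n
  | 0 => by simp [ballF]
  | n + 1 => by
    have hn : ∀ u, (G.neighborFinset u).image e = G.neighborFinset (e u) := fun u => by
      ext w
      obtain ⟨w, rfl⟩ := e.surjective w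
      simp [e.injective.eq_iff, e.map_rel_iff]
    simp only [ballF, Finset.image_union, ← ballF_image e o n, Finset.biUnion_image,
      Finset.image_biUnion, hn]

lemma est_image (e : G ≃g G) (n : ℕ → ℕ) (i : ℕ) (v : V) (U : V → I) (g : ℕ × V → I) :
    est G θ ε n i (e v) (fun w => U (e.symm w), fun q => g (q.1, e.symm q.2)) =
      est G θ ε n i v (U, g) := by
  simp only [est, xav, ← ballF_image e v, sol_image]

lemma spinMap_image (e : G ≃g G) (n : ℕ → ℕ) (U : V → I) (g : ℕ × V → I) (v : V) :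
    spinMap G θ ε n (fun w => U (e.symm w), fun q => g (q.1, e.symm q.2)) (e v) =
      spinMap G θ ε n (U, g) v := by
  classical
  simp only [spinMap, Pos]
  exact decide_eq_decide.2 (by simp only [est_image])

lemma exists_rad {ρ θ : ℝ} {d : ℕ} (hd : 3 ≤ d) (h0 : 0 ≤ θ) (hsub : ((d : ℝ) - 1) * θ ^ 2 < 1)
    (hρ : ρ = (θ + 1 / Real.sqrt ((d : ℝ) - 1)) / 2) :
    θ < ρ ∧ ((d : ℝ) - 1) * (θ * ρ) < 1 ∧ ((d : ℝ) - 1) * ρ ^ 2 < 1 := by
  have hd' : (3 : ℝ) ≤ d := by exact_mod_cast hd
  have hd1 : (0 : ℝ) < (d : ℝ) - 1 := by linarith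
  set r := 1 / Real.sqrt ((d : ℝ) - 1) with hr
  have hr0 : 0 < r := by positivity
  have hr2 : ((d : ℝ) - 1) * r ^ 2 = 1 := by
    rw [hr, div_pow, Real.sq_sqrt hd1.le]; field_simp
  have hlt : θ < r := by
    by_contra h
    push Not at h
    nlinarith [pow_le_pow_left₀ hr0.le h 2]
  refine ⟨by rw [hρ]; linarith, ?_, ?_⟩
  · calc ((d : ℝ) - 1) * (θ * ρ) < ((d : ℝ) - 1) * (r * r) :=
          mul_lt_mul_of_pos_left (by rw [hρ]; nlinarith) hd1
      _ = 1 := by rw [← sq, hr2]
  · calc ((d : ℝ) - 1) * ρ ^ 2 < ((d : ℝ) - 1) * r ^ 2 :=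
          mul_lt_mul_of_pos_left (by rw [hρ]; nlinarith) hd1
      _ = 1 := hr2

/-- A function summable in mean tends to zero almost everywhere. -/
lemma ae_tendsto_zero {β : Type*} [MeasurableSpace β] {P : Measure β} [IsFiniteMeasure P]
    {f : ℕ → β → ℝ} (hf : ∀ i, Measurable (f i)) (h0 : ∀ i x, 0 ≤ f i x) {B : ℝ}
    (hB : ∀ i x, f i x ≤ B) {C : ℝ} (hC : ∀ i, ∫ x, f i x ∂P ≤ C * (1 / 2) ^ i) :
    ∀ᵐ x ∂P, Summable fun i => f i x := by
  have hint : ∀ i, Integrable (f i) P := fun i =>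
    integrable_of_bounded (hf i) fun x => by rw [abs_of_nonneg (h0 i x)]; exact hB i x
  have hfin : ∫⁻ x, ∑' i, ENNReal.ofReal (f i x) ∂P ≠ ⊤ := by
    rw [lintegral_tsum fun i => (hf i).ennreal_ofReal.aemeasurable]
    refine ne_top_of_le_ne_top (ENNReal.ofReal_ne_top
      (r := ∑' i : ℕ, max C 0 * (1 / 2 : ℝ) ^ i)) ?_
    rw [ENNReal.ofReal_tsum_of_nonneg (fun i => by positivity)
      (summable_geometric_two.mul_left _)]
    refine ENNReal.tsum_le_tsum fun i => ?_
    rw [← ofReal_integral_eq_lintegral_ofReal (hint i) (ae_of_all _ (h0 i))]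
    exact ENNReal.ofReal_le_ofReal ((hC i).trans
      (mul_le_mul_of_nonneg_right (le_max_left _ _) (by positivity)))
  filter_upwards [ae_lt_top (Measurable.ennreal_tsum fun i => (hf i).ennreal_ofReal) hfin] with x hx
  have := ENNReal.summable_toReal hx.ne
  simpa only [ENNReal.toReal_ofReal (h0 _ x)] using this

/-- Test function detecting a spin value. -/
noncomputable def bump (b : Bool) (x : ℝ) : ℝ :=
  max 0 (min 1 ((1 + (if b then 1 else -1) * x) / 2))

lemma bump_lip (b : Bool) (x y : ℝ) : |bump b x - bump b y| ≤ |x - y| := by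
  have key : ∀ a c : ℝ, |max 0 (min 1 a) - max 0 (min 1 c)| ≤ |a - c| := by
    intro a c
    refine (abs_max_sub_max_le_max 0 (min 1 a) 0 (min 1 c)).trans ?_
    simp only [sub_self, abs_zero, max_le_iff, abs_nonneg, true_and]
    exact (abs_min_sub_min_le_max 1 a 1 c).trans (by simp)
  refine (key _ _).trans ?_
  have e : (1 + (if b then (1 : ℝ) else -1) * x) / 2 - (1 + (if b then (1 : ℝ) else -1) * y) / 2 =
      (if b then (1 : ℝ) else -1) * (x - y) / 2 := by ring
  rw [e, abs_div, abs_mul, abs_two]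
  have : |(if b then (1 : ℝ) else -1)| = 1 := by split_ifs <;> simp
  rw [this, one_mul]
  linarith [abs_nonneg (x - y)]

lemma bump_mem (b : Bool) (x : ℝ) : 0 ≤ bump b x ∧ bump b x ≤ 1 :=
  ⟨le_max_left _ _, max_le zero_le_one (min_le_left _ _)⟩

lemma bump_sign (b : Bool) (p : Prop) [Decidable p] :
    bump b (if p then 1 else -1) = if decide p = b then 1 else 0 := by
  by_cases hp : p <;> cases b <;> simp [bump, hp]

lemma prod_bump_lip {κ : Type*} [DecidableEq κ] (T : Finset κ) (b : κ → Bool) (x y : κ → ℝ) :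
    |∏ u ∈ T, bump (b u) (x u) - ∏ u ∈ T, bump (b u) (y u)| ≤ ∑ u ∈ T, |x u - y u| := by
  induction T using Finset.induction_on with
  | empty => simp
  | @insert a T ha ih =>
    rw [Finset.prod_insert ha, Finset.prod_insert ha, Finset.sum_insert ha]
    have e : bump (b a) (x a) * ∏ u ∈ T, bump (b u) (x u) -
        bump (b a) (y a) * ∏ u ∈ T, bump (b u) (y u) =
        (bump (b a) (x a) - bump (b a) (y a)) * ∏ u ∈ T, bump (b u) (x u) +
        bump (b a) (y a) * (∏ u ∈ T, bump (b u) (x u) - ∏ u ∈ T, bump (b u) (y u)) := by ring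
    rw [e]
    refine (abs_add_le _ _).trans (add_le_add ?_ ?_) <;> rw [abs_mul]
    · refine (mul_le_of_le_one_right (abs_nonneg _) ?_).trans (bump_lip _ _ _)
      rw [abs_of_nonneg (Finset.prod_nonneg fun u _ => (bump_mem _ _).1)]
      exact Finset.prod_le_one (fun u _ => (bump_mem _ _).1) fun u _ => (bump_mem _ _).2
    · refine le_trans (mul_le_of_le_one_left (abs_nonneg _) ?_) ih
      rw [abs_of_nonneg (bump_mem _ _).1]
      exact (bump_mem _ _).2

/-- The marginal weight of a pattern. -/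
lemma sum_pattern (hG : G.IsTree) {S D : Finset V} (hD : Conn G D) {o : V} (ho : o ∈ D)
    (hS : Conn G S) (hDS : D ⊆ S) (b : V → Bool) :
    ∑ A ∈ S.powerset, wt G θ S A * ∏ u ∈ D, bump (b u) (spin A u) =
      wt G θ D (D.filter fun u => b u = true) := by
  set A0 := D.filter fun u => b u = true
  have hφ : ∀ A : Finset V, ∏ u ∈ D, bump (b u) (spin A u) =
      if ∀ u ∈ D, decide (u ∈ A) = b u then 1 else 0 := by
    intro A
    simp only [spin, bump_sign]
    split_ifs with h
    · exact Finset.prod_eq_one fun u hu => if_pos (h u hu)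
    · push Not at h
      obtain ⟨u, hu, hne⟩ := h
      exact Finset.prod_eq_zero hu (if_neg hne)
  have := zsum_consistent (θ := θ) hG hD ho (fun A => ∏ u ∈ D, bump (b u) (spin A u))
    (fun A v hv => Finset.prod_congr rfl fun u hu => by
      rw [spin_insert_of_ne (fun h : u = v => hv (h ▸ hu))]) S hS hDS
  simp only [zsum, Finset.prod_const_one, mul_one] at this
  rw [this]
  simp only [hφ]
  rw [Finset.sum_eq_single A0]
  · rw [if_pos, mul_one]
    intro u hu
    simp [A0, hu]
  · intro A hA hne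
    rw [if_neg, mul_zero]
    intro h
    refine hne (Finset.ext fun u => ?_)
    simp only [A0, Finset.mem_filter]
    constructor
    · intro hu
      have huD := Finset.mem_powerset.1 hA hu
      exact ⟨huD, by simpa [hu] using (h u huD).symm⟩
    · rintro ⟨hu, hb⟩
      simpa [hb] using h u hu
  · intro h
    exact absurd (Finset.mem_powerset.2 (Finset.filter_subset _ _)) h

/-- The scale of one observation. -/
noncomputable def scl (ε : ℝ) : ℝ := ε * c2

lemma scl_pos (hε : 0 < ε) : 0 < scl ε := mul_pos hε c2_pos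

/-- The error constant. -/
noncomputable def errK (ε : ℝ) : ℝ := 1 + 1 / scl ε ^ 2

lemma xav_dep {S : Finset V} {L i : ℕ} {v : V} (hv : v ∈ S) (hL : 4 ^ i ≤ L + 1)
    {z z' : ℕ × V → Obs} (h : ∀ q ∈ sitesUpTo S L, z q = z' q) :
    xav ε (4 ^ i) v z = xav ε (4 ^ i) v z' := by
  unfold xav
  congr 1
  refine Finset.sum_congr rfl fun k hk => ?_
  rw [h (k, v) (Finset.mem_product.2 ⟨Finset.mem_range.2 (by
    have := Finset.mem_range.1 hk; omega), hv⟩)]

omit [G.LocallyFinite] in
lemma measurable_X (S : Finset V) (i : ℕ) (v : V) :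
    Measurable fun p : (V → I) × (ℕ × V → I) => xav ε (4 ^ i) v (sol G θ ε p.1 S p.2) :=
  (measurable_xav _ v).fun_comp (measurable_sol2 S)

lemma measurable_bump_prod (D : Finset V) (b : V → Bool) {β : Type*} [MeasurableSpace β]
    {f : V → β → ℝ} (hf : ∀ u, Measurable (f u)) :
    Measurable fun z => ∏ u ∈ D, bump (b u) (f u z) :=
  Finset.measurable_prod _ fun u _ => by
    unfold bump
    exact (measurable_const (a := (0 : ℝ))).max ((measurable_const (a := (1 : ℝ))).min
      (((hf u).const_mul _).const_add _ |>.div_const _))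

lemma abs_bump_prod_le (D : Finset V) (b : V → Bool) (x : V → ℝ) :
    |∏ u ∈ D, bump (b u) (x u)| ≤ 1 := by
  rw [abs_of_nonneg (Finset.prod_nonneg fun u _ => (bump_mem _ _).1)]
  exact Finset.prod_le_one (fun u _ => (bump_mem _ _).1) fun u _ => (bump_mem _ _).2

lemma abs_xav_sub_le (hε : 0 < ε) (i : ℕ) (v : V) {r : ℝ} (hr : |r| ≤ 1) (z : ℕ × V → Obs) :
    |(|xav ε (4 ^ i) v z - r|)| ≤ 1 / scl ε + 1 := by
  rw [abs_abs]; exact (abs_sub _ _).trans (add_le_add (abs_xav_le hε _ v z) hr)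

lemma abs_xav_sub_xav_le (hε : 0 < ε) (i i' : ℕ) (v : V) (z z' : ℕ × V → Obs) :
    |(|xav ε (4 ^ i) v z - xav ε (4 ^ i') v z'|)| ≤ 2 / scl ε := by
  rw [abs_abs]
  exact (abs_sub _ _).trans
    ((add_le_add (abs_xav_le hε _ v z) (abs_xav_le hε _ v z')).trans_eq (by rw [scl]; ring))

variable [Countable V]

omit [G.LocallyFinite] in
/-- Expectations under the joint law of rankings and innovations. -/
lemma expect_PQ (hG : G.IsTree) (h0 : 0 ≤ θ) (h1 : θ < 1) (hε : 0 ≤ ε) (hε1 : ε < 1)
    {S : Finset V} (hS : Conn G S) {o : V} (ho : o ∈ S) (L : ℕ) {F : (ℕ × V → Obs) → ℝ}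
    (hF : Measurable F) {C : ℝ} (hC : ∀ z, |F z| ≤ C)
    (hdep : ∀ z z', (∀ q ∈ sitesUpTo S L, z q = z' q) → F z = F z') :
    ∫ p, F (sol G θ ε p.1 S p.2) ∂(PQ V) = jexp G θ ε S (sitesUpTo S L) (fun _ z => F z) := by
  rw [PQ, integral_prod _ (integrable_of_bounded (hF.fun_comp (measurable_sol2 S)) fun p => hC _),
    integral_congr_ae (g := fun _ => jexp G θ ε S (sitesUpTo S L) (fun _ z => F z))]
  · simp
  · filter_upwards [ae_injective] with U hU
    exact expect_jexp hG h0 h1 hε hε1 hS ho hU.injOn L hF hC hdep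

/-- The balls of radii `n` approximate large volumes along the enumeration `e`. -/
def Good (G : SimpleGraph V) [G.LocallyFinite] (θ ε : ℝ) (n : ℕ → ℕ) (e : ℕ → V) : Prop :=
  ∀ j i, j ≤ i → ∀ S, Conn G S → ballF G (e j) (n i) ⊆ S →
    ∫ p, |xav ε (4 ^ i) (e j) (sol G θ ε p.1 S p.2) - est G θ ε n i (e j) p| ∂(PQ V) ≤
      1 / scl ε * (1 / 2) ^ i

/-- Consecutive stages are close. -/
lemma step_bound (hG : G.IsTree) (h0 : 0 ≤ θ) (h1 : θ < 1) (hε : 0 < ε) (hε1 : ε < 1)
    {n : ℕ → ℕ} {e : ℕ → V} (hgood : Good G θ ε n e) {j i : ℕ} (hji : j ≤ i) :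
    ∫ p, |est G θ ε n (i + 1) (e j) p - est G θ ε n i (e j) p| ∂(PQ V) ≤
      (2 * (1 / scl ε) + 2 * errK ε) * (1 / 2) ^ i := by
  have hc := scl_pos hε
  set v := e j
  set S := ballF G v (max (n i) (n (i + 1))) with hSdef
  have hS : Conn G S := conn_ballF hG _ _
  have hv : v ∈ S := self_mem_ballF _ _
  have hb : ∀ m, m ≤ max (n i) (n (i + 1)) → ballF G v m ⊆ S := fun m hm u hu =>
    (mem_ballF hG _ _ _).2 (((mem_ballF hG _ _ _).1 hu).trans hm)
  have a1 := hgood j i hji S hS (hb _ (le_max_left _ _))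
  have a2 := hgood j (i + 1) (by omega) S hS (hb _ (le_max_right _ _))
  set L := 4 ^ (i + 1) with hL
  have hiL : 4 ^ i ≤ L + 1 := by
    have : 4 ^ i ≤ 4 ^ (i + 1) := Nat.pow_le_pow_right (by norm_num) (by omega)
    omega
  have hm : ∀ m (r : ℝ), Measurable fun z => |xav ε (4 ^ m) v z - r| := fun m r =>
    ((measurable_xav _ v).sub_const r).abs
  have a3 : ∫ p, |xav ε (4 ^ (i + 1)) v (sol G θ ε p.1 S p.2) -
      xav ε (4 ^ i) v (sol G θ ε p.1 S p.2)| ∂(PQ V) ≤ 2 * errK ε * (1 / 2) ^ i := by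
    rw [expect_PQ hG h0 h1 hε.le hε1 hS hv L
      (F := fun z => |xav ε (4 ^ (i + 1)) v z - xav ε (4 ^ i) v z|)
      ((measurable_xav _ v).sub (measurable_xav _ v)).abs
      (fun z => abs_xav_sub_xav_le hε _ _ v z z)
      (fun z z' h => by
        rw [xav_dep hv (by omega : 4 ^ (i + 1) ≤ L + 1) h, xav_dep hv hiL h])]
    refine (jexp_mono (C := 2 / scl ε) (C' := 1 * (1 / scl ε + 1) + 1 * (1 / scl ε + 1))
      h0 h1 hε.le hε1 S _
      (fun _ => ((measurable_xav _ v).sub (measurable_xav _ v)).abs)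
      (H' := fun A z => 1 * |xav ε (4 ^ (i + 1)) v z - spin A v| +
        1 * |xav ε (4 ^ i) v z - spin A v|)
      (fun A => ((hm _ _).const_mul 1).add ((hm _ _).const_mul 1))
      (fun A z => abs_xav_sub_xav_le hε _ _ v z z)
      (fun A z => by
        simp only [one_mul]
        exact (abs_add_le _ _).trans (add_le_add (abs_xav_sub_le hε _ v (abs_spin A v).le z)
          (abs_xav_sub_le hε _ v (abs_spin A v).le z)))
      (fun A z => by
        simp only [one_mul]
        refine (abs_sub_le _ (spin A v) _).trans ?_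
        rw [abs_sub_comm (spin A v)])).trans ?_
    rw [jexp_add h0 h1 hε.le hε1 S _ (fun A => hm _ _) (fun A => hm _ _)
      (fun A => abs_xav_sub_le hε _ v (abs_spin A v).le)
      (fun A => abs_xav_sub_le hε _ v (abs_spin A v).le)]
    have b1 := jexp_abs_le (θ := θ) hG h0 h1 hε hε1 hS hv (i := i + 1) (M := L) (by omega)
    have b2 := jexp_abs_le (θ := θ) hG h0 h1 hε hε1 hS hv (i := i) (M := L) hiL
    have hb1 : errK ε * (1 / 2 : ℝ) ^ (i + 1) ≤ errK ε * (1 / 2) ^ i := by
      have : (0 : ℝ) ≤ errK ε * (1 / 2 : ℝ) ^ i := by unfold errK; positivity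
      rw [pow_succ]; linarith
    simp only [errK, scl] at hb1 ⊢
    simp only [one_mul]
    linarith
  have hi : ∀ m, Integrable (fun p => |xav ε (4 ^ m) v (sol G θ ε p.1 S p.2) -
      est G θ ε n m v p|) (PQ V) := fun m =>
    integrable_of_bounded ((measurable_X S m v).sub (measurable_est n _ _)).abs
      fun p => abs_xav_sub_xav_le hε _ _ v _ _
  have hi3 : Integrable (fun p => |xav ε (4 ^ (i + 1)) v (sol G θ ε p.1 S p.2) -
      xav ε (4 ^ i) v (sol G θ ε p.1 S p.2)|) (PQ V) :=
    integrable_of_bounded ((measurable_X S _ v).sub (measurable_X S _ v)).abs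
      fun p => abs_xav_sub_xav_le hε _ _ v _ _
  refine (integral_mono (integrable_of_bounded
      ((measurable_est n _ _).sub (measurable_est n _ _)).abs
      fun p => abs_xav_sub_xav_le hε _ _ v _ _)
    (((hi (i + 1)).fun_add hi3).fun_add (hi i)) fun p => ?_).trans ?_
  · have t1 := abs_sub_le (est G θ ε n (i + 1) v p)
      (xav ε (4 ^ (i + 1)) v (sol G θ ε p.1 S p.2)) (est G θ ε n i v p)
    have t2 := abs_sub_le (xav ε (4 ^ (i + 1)) v (sol G θ ε p.1 S p.2))
      (xav ε (4 ^ i) v (sol G θ ε p.1 S p.2)) (est G θ ε n i v p)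
    rw [abs_sub_comm (est G θ ε n (i + 1) v p)
      (xav ε (4 ^ (i + 1)) v (sol G θ ε p.1 S p.2))] at t1
    simp only [Pi.sub_apply] at *
    linarith
  · rw [integral_add ((hi (i + 1)).fun_add hi3) (hi i), integral_add (hi (i + 1)) hi3]
    have : 1 / scl ε * (1 / 2 : ℝ) ^ (i + 1) ≤ 1 / scl ε * (1 / 2) ^ i :=
      mul_le_mul_of_nonneg_left (pow_le_pow_of_le_one (by norm_num) (by norm_num) (by omega))
        (by positivity)
    linarith

/-- The estimates are nearly of absolute value one. -/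
lemma norm_bound (hG : G.IsTree) (h0 : 0 ≤ θ) (h1 : θ < 1) (hε : 0 < ε) (hε1 : ε < 1)
    (n : ℕ → ℕ) (i : ℕ) (v : V) :
    ∫ p, |(|est G θ ε n i v p| - 1)| ∂(PQ V) ≤ errK ε * (1 / 2) ^ i := by
  have hc := scl_pos hε
  set S := ballF G v (n i) with hSdef
  have hS : Conn G S := conn_ballF hG _ _
  have hv : v ∈ S := self_mem_ballF _ _
  have hm : Measurable fun z => |(|xav ε (4 ^ i) v z| - 1)| :=
    (((measurable_xav _ v).abs).sub_const 1).abs
  have hb : ∀ z, |(|(|xav ε (4 ^ i) v z| - 1)|)| ≤ 1 / scl ε + 1 := fun z => by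
    rw [abs_abs]
    refine (abs_sub _ _).trans ?_
    rw [abs_abs, abs_one]
    exact add_le_add (abs_xav_le hε (4 ^ i) v z) le_rfl
  have e1 : ∫ p, |(|est G θ ε n i v p| - 1)| ∂(PQ V) =
      jexp G θ ε S (sitesUpTo S (4 ^ i)) (fun _ z => |(|xav ε (4 ^ i) v z| - 1)|) :=
    expect_PQ hG h0 h1 hε.le hε1 hS hv (4 ^ i) hm hb
      (fun z z' h => by rw [xav_dep hv (by omega : 4 ^ i ≤ 4 ^ i + 1) h])
  rw [e1]
  refine (jexp_mono (C := 1 / scl ε + 1) (C' := 1 / scl ε + 1) h0 h1 hε.le hε1 S _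
    (fun _ => hm) (H' := fun A z => |xav ε (4 ^ i) v z - spin A v|)
    (fun A => ((measurable_xav _ v).sub_const _).abs)
    (fun _ => hb) (fun A => abs_xav_sub_le hε _ v (abs_spin A v).le) fun A z => ?_).trans
    (jexp_abs_le hG h0 h1 hε hε1 hS hv (by omega))
  have := abs_abs_sub_abs_le_abs_sub (xav ε (4 ^ i) v z) (spin A v)
  rwa [abs_spin] at this

/-- Almost sure stabilisation. -/
lemma ae_est (hG : G.IsTree) (h0 : 0 ≤ θ) (h1 : θ < 1) (hε : 0 < ε) (hε1 : ε < 1)
    {n : ℕ → ℕ} {e : ℕ → V} (hgood : Good G θ ε n e) (j : ℕ) :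
    ∀ᵐ p ∂(PQ V), Tendsto (fun i => est G θ ε n i (e j) p) atTop
      (𝓝 (if spinMap G θ ε n p (e j) = true then 1 else -1)) := by
  set w := e j
  set C1 := (2 * (1 / scl ε) + 2 * errK ε) * (1 / 2) ^ j
  have hb : ∀ i i' p, |est G θ ε n i w p - est G θ ε n i' w p| ≤ 2 / scl ε := fun i i' p =>
    (le_abs_self _).trans (abs_xav_sub_xav_le hε i i' w _ _)
  have s1 : ∀ᵐ p ∂(PQ V),
      Summable fun i => |est G θ ε n (i + j + 1) w p - est G θ ε n (i + j) w p| :=
    ae_tendsto_zero (fun i => ((measurable_est n _ _).sub (measurable_est n _ _)).abs)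
      (fun i p => abs_nonneg _) (B := 2 / scl ε) (C := C1) (fun i p => hb _ _ p)
      fun i => (step_bound hG h0 h1 hε hε1 hgood (by omega : j ≤ i + j)).trans_eq
        (by simp only [C1]; rw [pow_add]; ring)
  have s2 : ∀ᵐ p ∂(PQ V), Summable fun i => |(|est G θ ε n (i + j) w p| - 1)| :=
    ae_tendsto_zero (fun i => (((measurable_est n _ _).abs).sub_const 1).abs)
      (fun i p => abs_nonneg _) (B := 1 / scl ε + 1) (C := errK ε * (1 / 2) ^ j)
      (fun i p => (abs_sub _ _).trans (by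
        rw [abs_abs, abs_one]; exact add_le_add (abs_xav_le hε _ w _) le_rfl))
      fun i => (norm_bound hG h0 h1 hε hε1 n (i + j) w).trans_eq (by rw [pow_add]; ring)
  filter_upwards [s1, s2] with p hs1 hs2
  have hcau : CauchySeq fun i => est G θ ε n (i + j) w p := by
    refine cauchySeq_of_summable_dist ?_
    simpa only [Real.dist_eq, abs_sub_comm, Nat.succ_eq_add_one, Nat.add_right_comm] using hs1
  obtain ⟨x, hx⟩ := cauchySeq_tendsto_of_complete hcau
  have hlim : Tendsto (fun i => est G θ ε n i w p) atTop (𝓝 x) :=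
    (tendsto_add_atTop_iff_nat (f := fun i => est G θ ε n i w p) j).1 hx
  have habs : |x| = 1 := by
    have h3 : Tendsto (fun i => |(|est G θ ε n (i + j) w p| - 1)|) atTop (𝓝 |(|x| - 1)|) :=
      ((hx.abs).sub_const 1).abs
    have := tendsto_nhds_unique h3 hs2.tendsto_atTop_zero
    rwa [abs_eq_zero, sub_eq_zero] at this
  rcases (abs_eq zero_le_one).1 habs with rfl | rfl
  · rw [if_pos]
    · exact hlim
    · simp only [spinMap, decide_eq_true_eq]
      exact hlim.eventually (lt_mem_nhds one_pos)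
  · rw [if_neg]
    · exact hlim
    · simp only [spinMap, decide_eq_true_eq]
      intro h
      obtain ⟨i, hi, hi'⟩ := (Filter.Eventually.and h
        (hlim.eventually (gt_mem_nhds (by norm_num : (-1 : ℝ) < 0)))).exists
      linarith

/-- Test functions of the observations against test functions of the spins. -/
lemma jexp_pattern (hG : G.IsTree) (h0 : 0 ≤ θ) (h1 : θ < 1) (hε : 0 < ε) (hε1 : ε < 1)
    {S D : Finset V} (hS : Conn G S) (hD : Conn G D) {o : V} (ho : o ∈ D) (hDS : D ⊆ S)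
    (b : V → Bool) (i : ℕ) :
    |jexp G θ ε S (sitesUpTo S (4 ^ i)) (fun _ z => ∏ u ∈ D, bump (b u) (xav ε (4 ^ i) u z)) -
      wt G θ D (D.filter fun u => b u = true)| ≤ D.card * errK ε * (1 / 2) ^ i := by
  set P := sitesUpTo S (4 ^ i)
  set H := fun (_ : Finset V) (z : ℕ × V → Obs) => ∏ u ∈ D, bump (b u) (xav ε (4 ^ i) u z)
  set H' := fun (A : Finset V) (_ : ℕ × V → Obs) => ∏ u ∈ D, bump (b u) (spin A u)
  set E := fun (A : Finset V) (z : ℕ × V → Obs) => ∑ u ∈ D, |xav ε (4 ^ i) u z - spin A u|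
  have hHm : ∀ A, Measurable (H A) := fun _ =>
    measurable_bump_prod D b fun u => measurable_xav (ε := ε) (4 ^ i) u
  have hHb : ∀ A z, |H A z| ≤ 1 := fun _ _ => abs_bump_prod_le D b _
  have hH'm : ∀ A, Measurable (H' A) := fun _ => measurable_const
  have hH'b : ∀ A z, |H' A z| ≤ 1 := fun _ _ => abs_bump_prod_le D b _
  have hEm : ∀ A, Measurable (E A) := fun A =>
    Finset.measurable_sum _ fun u _ => ((measurable_xav _ u).sub_const _).abs
  have hEb : ∀ A z, |E A z| ≤ D.card * (1 / scl ε + 1) := fun A z =>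
    (Finset.abs_sum_le_sum_abs _ _).trans ((Finset.sum_le_sum fun u _ =>
      abs_xav_sub_le hε i u (abs_spin A u).le z).trans_eq (by rw [Finset.sum_const, nsmul_eq_mul]))
  have e2 : jexp G θ ε S P H' = wt G θ D (D.filter fun u => b u = true) := by
    have hj := jexp_prod (G := G) (θ := θ) h0 h1 hε.le hε1 S P (F := fun _ => 1)
      measurable_const (C := 1) (fun _ => by simp) (fun A => ∏ u ∈ D, bump (b u) (spin A u))
    simp only [one_mul] at hj
    have m := integral_marg (G := G) (θ := θ) h0 h1 hε.le hε1 S (F := fun _ => 1) measurable_const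
      (C := 1) (fun _ => by simp) (P := ∅) (fun _ _ _ => rfl)
      (fun A => ∏ u ∈ D, bump (b u) (spin A u)) (Finset.empty_subset P)
    simp only [one_mul] at m
    simp only [H']
    rw [hj, m]
    simp only [pexp, lik, Finset.prod_empty, mul_one, integral_const, probReal_univ, smul_eq_mul,
      one_mul]
    exact sum_pattern hG hD ho hS hDS b
  have e4 : jexp G θ ε S P E ≤ D.card * errK ε * (1 / 2) ^ i := by
    have : jexp G θ ε S P E =
        ∑ u ∈ D, jexp G θ ε S P (fun A z => |xav ε (4 ^ i) u z - spin A u|) := by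
      simp only [jexp, E]
      rw [Finset.sum_comm]
      refine Finset.sum_congr rfl fun A _ => ?_
      simp only [Finset.mul_sum]
      exact integral_finsetSum _ fun u _ => integrable_term h0 h1 hε.le hε1 S A _
        ((measurable_xav _ u).sub_const _).abs (abs_xav_sub_le hε _ u (abs_spin A u).le)
    rw [this]
    refine (Finset.sum_le_sum (g := fun _ => errK ε * (1 / 2 : ℝ) ^ i) fun u hu =>
      jexp_abs_le hG h0 h1 hε hε1 hS (hDS hu) (by omega)).trans_eq
      (by rw [Finset.sum_const, nsmul_eq_mul]; ring)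
  have hcomb : ∀ H H' : Finset V → (ℕ × V → Obs) → ℝ, (∀ A, Measurable (H A)) →
      (∀ A, Measurable (H' A)) → (∀ A z, |H A z| ≤ 1) → (∀ A z, |H' A z| ≤ 1) →
      (∀ A z, |H A z - H' A z| ≤ E A z) →
      jexp G θ ε S P H - jexp G θ ε S P H' ≤ jexp G θ ε S P E := by
    intro H H' hm hm' hb hb' hle
    have m := jexp_mono (G := G) (θ := θ) h0 h1 hε.le hε1 S P
      (H := fun A z => (1 : ℝ) * H A z + (-1) * H' A z)
      (fun A => ((hm A).const_mul _).add ((hm' A).const_mul _)) hEm (C := 1 + 1)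
      (fun A z => (abs_add_le _ _).trans (add_le_add (by simpa using hb A z)
        (by simpa using hb' A z)))
      hEb (fun A z => by linarith [(abs_le.1 (hle A z)).2])
    rw [jexp_add h0 h1 hε.le hε1 S P hm hm' hb hb'] at m
    linarith
  have hlip : ∀ A z, |H A z - H' A z| ≤ E A z := fun A z =>
    prod_bump_lip D b (fun u => xav ε (4 ^ i) u z) (fun u => spin A u)
  rw [← e2, abs_le]
  constructor
  · linarith [hcomb H' H hH'm hHm hH'b hHb fun A z => by rw [abs_sub_comm]; exact hlip A z]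
  · linarith [hcomb H H' hHm hH'm hHb hH'b hlip]

/-- Test functions converge to the prescribed marginal. -/
lemma pattern_bound (hG : G.IsTree) (h0 : 0 ≤ θ) (h1 : θ < 1) (hε : 0 < ε) (hε1 : ε < 1)
    {n : ℕ → ℕ} {e : ℕ → V} (hgood : Good G θ ε n e) {D : Finset V} (hD : Conn G D) {o : V}
    (ho : o ∈ D) (b : V → Bool) (idx : V → ℕ) (hidx : ∀ u, e (idx u) = u) {i : ℕ}
    (hi : D.sup idx ≤ i) :
    |∫ p, ∏ u ∈ D, bump (b u) (est G θ ε n i u p) ∂(PQ V) -
      wt G θ D (D.filter fun u => b u = true)| ≤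
      D.card * (1 / scl ε + errK ε) * (1 / 2) ^ i := by
  set R := D.sup (fun u => G.dist o u)
  set S := ballF G o (n i + R) with hSdef
  have hS : Conn G S := conn_ballF hG _ _
  have hball : ∀ u ∈ D, ballF G u (n i) ⊆ S := by
    intro u hu w hw
    rw [mem_ballF hG] at hw
    rw [hSdef, mem_ballF hG]
    have h1 : G.dist o u ≤ R := Finset.le_sup (f := fun u => G.dist o u) hu
    have h2 : G.dist o w ≤ G.dist o u + G.dist u w := hG.connected.dist_triangle
    omega
  have hDS : D ⊆ S := fun u hu => hball u hu (self_mem_ballF _ _)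
  set F := fun p : (V → I) × (ℕ × V → I) => ∏ u ∈ D, bump (b u) (est G θ ε n i u p)
  set F' := fun p : (V → I) × (ℕ × V → I) =>
    ∏ u ∈ D, bump (b u) (xav ε (4 ^ i) u (sol G θ ε p.1 S p.2))
  have hiF : Integrable F (PQ V) :=
    integrable_of_bounded (measurable_bump_prod D b fun u => measurable_est n i u)
      fun p => abs_bump_prod_le D b _
  have hiF' : Integrable F' (PQ V) :=
    integrable_of_bounded (measurable_bump_prod D b fun u => measurable_X S i u)
      fun p => abs_bump_prod_le D b _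
  have hu : ∀ u, Integrable (fun p => |xav ε (4 ^ i) u (sol G θ ε p.1 S p.2) -
      est G θ ε n i u p|) (PQ V) := fun u =>
    integrable_of_bounded ((measurable_X S i u).sub (measurable_est n _ _)).abs
      fun p => abs_xav_sub_xav_le hε _ _ u _ _
  have d1 : |∫ p, F p ∂(PQ V) - ∫ p, F' p ∂(PQ V)| ≤ D.card * (1 / scl ε) * (1 / 2) ^ i := by
    rw [← integral_sub hiF hiF']
    refine abs_integral_le_integral_abs.trans ((integral_mono (hiF.sub hiF').abs
      (integrable_finsetSum D fun u _ => hu u) fun p => ?_).trans ?_)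
    · exact (prod_bump_lip D b _ _).trans_eq (Finset.sum_congr rfl fun u _ => abs_sub_comm _ _)
    · rw [integral_finsetSum _ fun u _ => hu u]
      refine (Finset.sum_le_sum (g := fun _ => 1 / scl ε * (1 / 2 : ℝ) ^ i) fun u hu => ?_).trans_eq
        (by rw [Finset.sum_const, nsmul_eq_mul]; ring)
      have hb' := hball u hu
      rw [← hidx u] at hb' ⊢
      exact hgood (idx u) i ((Finset.le_sup (f := idx) hu).trans hi) S hS hb'
  have e1 : ∫ p, F' p ∂(PQ V) = jexp G θ ε S (sitesUpTo S (4 ^ i))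
      (fun _ z => ∏ u ∈ D, bump (b u) (xav ε (4 ^ i) u z)) :=
    expect_PQ hG h0 h1 hε.le hε1 hS (hDS ho) (4 ^ i)
      (F := fun z => ∏ u ∈ D, bump (b u) (xav ε (4 ^ i) u z))
      (measurable_bump_prod D b fun u => measurable_xav _ u) (fun z => abs_bump_prod_le D b _)
      (fun z z' h => Finset.prod_congr rfl fun u hu => by
        rw [xav_dep (hDS hu) (by omega : 4 ^ i ≤ 4 ^ i + 1) h])
  have d2 := jexp_pattern hG h0 h1 hε hε1 hS hD ho hDS b i
  rw [← e1] at d2
  calc _ ≤ _ := abs_sub_le _ (∫ p, F' p ∂(PQ V)) _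
    _ ≤ _ := add_le_add d1 d2
    _ = _ := by ring

/-- A good choice of radii exists throughout the subcritical range. -/
lemma exists_good (hG : G.IsTree) {d : ℕ} (hd : 3 ≤ d) (hreg : ∀ v, G.degree v = d)
    (h0 : 0 ≤ θ) (hsub : ((d : ℝ) - 1) * θ ^ 2 < 1) (e : ℕ → V) :
    ∃ (ε : ℝ) (n : ℕ → ℕ), 0 < ε ∧ ε < 1 ∧ Good G θ ε n e := by
  obtain ⟨hθρ, hxd, hρd⟩ := exists_rad hd h0 hsub rfl
  set ρ := (θ + 1 / Real.sqrt ((d : ℝ) - 1)) / 2
  have hρ0 : 0 < ρ := lt_of_le_of_lt h0 hθρ
  have hd' : (3 : ℝ) ≤ d := by exact_mod_cast hd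
  have h1 : θ < 1 := by nlinarith
  set M := 2 / (1 - ((d : ℝ) - 1) * (θ * ρ)) / (1 - θ / ρ) with hM
  have hM0 : 0 < M := div_pos (div_pos two_pos (by linarith))
    (by rw [sub_pos, div_lt_one hρ0]; exact hθρ)
  set ε := min (1 / 4) (1 / (6 * (M + 1))) with hεdef
  have hε : 0 < ε := lt_min (by norm_num) (by positivity)
  have hε4 : ε ≤ 1 / 4 := min_le_left _ _
  have hεM : 2 * ε ^ 2 * M ≤ 1 / 3 := by
    have h2 : ε * (M + 1) ≤ 1 / 6 := by
      have := mul_le_mul_of_nonneg_right (min_le_right (1 / 4 : ℝ) (1 / (6 * (M + 1))))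
        (by linarith : (0 : ℝ) ≤ M + 1)
      refine this.trans (le_of_eq ?_)
      field_simp
    nlinarith
  choose N hN using fun (s : ℕ × V) (i : ℕ) => approx (θ := θ) (ε := ε) hG hd hreg h0 h1 hε.le hε4
    hρ0.le hρd hM0.le (conv_bound hG hd hreg h0 hθρ hxd) hεM s
    (pow_pos (by norm_num : (0 : ℝ) < 1 / 2) i)
  refine ⟨ε, fun i => ∑ j ∈ Finset.range (i + 1), ∑ k ∈ Finset.range (4 ^ i), N (k, e j) i,
    hε, by linarith, fun j i hji S hS hsubS => ?_⟩
  set n := fun i : ℕ => ∑ j ∈ Finset.range (i + 1), ∑ k ∈ Finset.range (4 ^ i), N (k, e j) i with hn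
  have hc := scl_pos hε
  set B := ballF G (e j) (n i)
  set dd := fun (k : ℕ) p => |zval G θ ε S (k, e j) p - zval G θ ε B (k, e j) p|
  have hdi : ∀ k, Integrable (dd k) (PQ V) := fun k =>
    integrable_of_bounded ((measurable_zval S _).sub (measurable_zval B _)).abs (C := 2)
      fun p => by
        have ha := abs_zval_le (G := G) (θ := θ) (ε := ε) S (k, e j) p
        have hb := abs_zval_le (G := G) (θ := θ) (ε := ε) B (k, e j) p
        rw [abs_abs]
        exact (abs_sub _ _).trans (by linarith)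
  have hd_le : ∀ k ∈ Finset.range (4 ^ i), ∫ p, dd k p ∂(PQ V) ≤ (1 / 2) ^ i := by
    intro k hk
    refine hN (k, e j) i (n i) ?_ S hS hsubS
    exact (Finset.single_le_sum (f := fun k => N (k, e j) i) (fun _ _ => Nat.zero_le _) hk).trans
      (Finset.single_le_sum (f := fun j => ∑ k ∈ Finset.range (4 ^ i), N (k, e j) i)
        (fun _ _ => Nat.zero_le _) (Finset.mem_range.2 (Nat.lt_succ_of_le hji)))
  have h4 : (0 : ℝ) < ((4 ^ i : ℕ) : ℝ) := by positivity
  refine (integral_mono (integrable_of_bounded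
      ((measurable_X S i (e j)).sub (measurable_est n i (e j))).abs
      fun p => abs_xav_sub_xav_le hε _ _ _ _ _)
    ((integrable_finsetSum (Finset.range (4 ^ i)) fun k _ => hdi k).div_const
      (((4 ^ i : ℕ) : ℝ) * scl ε)) fun p => ?_).trans ?_
  · simp only [est, xav, dd, zval, B, Pi.sub_apply, hn]
    rw [show ε * c2 = scl ε from rfl, ← sub_div, ← Finset.sum_sub_distrib, abs_div,
      abs_of_pos (mul_pos h4 hc)]
    exact div_le_div_of_nonneg_right (Finset.abs_sum_le_sum_abs _ _) (mul_pos h4 hc).le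
  · rw [integral_div, integral_finsetSum _ fun k _ => hdi k, div_le_iff₀ (mul_pos h4 hc)]
    refine (Finset.sum_le_sum hd_le).trans_eq ?_
    rw [Finset.sum_const, Finset.card_range, nsmul_eq_mul]
    field_simp

/-- Joint existence statement on rankings and innovations. -/
theorem exists_spinMap (hG : G.IsTree) {d : ℕ} (hd : 3 ≤ d) (hreg : ∀ v, G.degree v = d)
    {θ : ℝ} (h0 : 0 ≤ θ) (hsub : ((d : ℝ) - 1) * θ ^ 2 < 1) :
    ∃ Φ : (V → I) × (ℕ × V → I) → V → Bool, Measurable Φ ∧
      (∀ (e : G ≃g G) U g v,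
        Φ (fun w => U (e.symm w), fun q => g (q.1, e.symm q.2)) (e v) = Φ (U, g) v) ∧
      ∀ D : Finset V, Conn G D → ∀ b : V → Bool,
        (PQ V).real {p | ∀ u ∈ D, Φ p u = b u} = wt G θ D (D.filter fun u => b u = true) := by
  have hd' : (3 : ℝ) ≤ d := by exact_mod_cast hd
  have h1 : θ < 1 := by nlinarith
  obtain ⟨e, he⟩ : ∃ e : ℕ → V, Function.Surjective e := by
    haveI : Nonempty V := hG.connected.nonempty
    exact exists_surjective_nat V
  obtain ⟨ε, n, hε, hε1, hgood⟩ := exists_good hG hd hreg h0 hsub e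
  refine ⟨spinMap G θ ε n, measurable_spinMap n, fun e U g v => spinMap_image e n U g v,
    fun D hD b => ?_⟩
  obtain ⟨⟨o, ho⟩⟩ := (SimpleGraph.Connected.nonempty hD)
  rw [Finset.mem_coe] at ho
  choose idx hidx using he
  have hE : MeasurableSet {p | ∀ u ∈ D, spinMap G θ ε n p u = b u} := by
    rw [Set.setOf_forall]
    refine MeasurableSet.iInter fun u => ?_
    rw [Set.setOf_forall]
    refine MeasurableSet.iInter fun _ => ?_
    exact ((measurable_pi_apply u).comp (measurable_spinMap n)) (measurableSet_singleton (b u))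
  have hae : ∀ u : V, ∀ᵐ p ∂(PQ V), Tendsto (fun i => est G θ ε n i u p) atTop
      (𝓝 (if spinMap G θ ε n p u = true then 1 else -1)) := fun u => by
    have := ae_est hG h0 h1 hε hε1 hgood (idx u)
    simpa only [hidx u] using this
  have hlim1 : Tendsto (fun i => ∫ p, ∏ u ∈ D, bump (b u) (est G θ ε n i u p) ∂(PQ V)) atTop
      (𝓝 ((PQ V).real {p | ∀ u ∈ D, spinMap G θ ε n p u = b u})) := by
    rw [← integral_indicator_one hE]
    refine tendsto_integral_of_dominated_convergence (fun _ => 1)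
      (fun i => (measurable_bump_prod D b fun u => measurable_est n i u).aestronglyMeasurable)
      (integrable_const _) (fun i => ae_of_all _ fun p => abs_bump_prod_le D b _) ?_
    filter_upwards [(ae_all_iff (ι := V)).2 hae] with p hp
    have hlimF : Tendsto (fun i => ∏ u ∈ D, bump (b u) (est G θ ε n i u p)) atTop
        (𝓝 (∏ u ∈ D, bump (b u) (if spinMap G θ ε n p u = true then 1 else -1))) := by
      refine tendsto_finsetProd _ fun u _ => ?_
      have hc : Continuous (bump (b u)) := by unfold bump; fun_prop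
      exact (hc.tendsto _).comp (hp u)
    convert! hlimF using 1
    congr 1
    simp only [bump_sign, Bool.decide_eq_true]
    by_cases h : ∀ u ∈ D, spinMap G θ ε n p u = b u
    · rw [Set.indicator_of_mem (Set.mem_setOf.2 h), Finset.prod_eq_one fun u hu => if_pos (h u hu)]
      rfl
    · rw [Set.indicator_of_notMem (by simpa using h)]
      push Not at h
      obtain ⟨u, hu, hne⟩ := h
      rw [Finset.prod_eq_zero hu (if_neg hne)]
  refine tendsto_nhds_unique hlim1 ?_
  rw [tendsto_iff_norm_sub_tendsto_zero]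
  refine squeeze_zero' (Eventually.of_forall fun i => norm_nonneg _)
    (eventually_atTop.2 ⟨D.sup idx, fun i hi =>
      pattern_bound hG h0 h1 hε hε1 hgood hD ho b idx hidx hi⟩) ?_
  simpa using (tendsto_pow_atTop_nhds_zero_of_lt_one (r := (1 / 2 : ℝ)) (by norm_num)
    (by norm_num)).const_mul ((D.card : ℝ) * (1 / scl ε + errK ε))

end Vale.Agent.P161
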