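import Vale.Agent.P161.Weights
import Vale.Agent.P161.Kernel

/-!
Posterior means given finitely many observations, their Lipschitz bound, consistency,
and invariance under automorphisms.
-/

namespace Vale.Agent.P161

open SimpleGraph Finset

variable {V : Type*} [DecidableEq V]

/-- Likelihood of the observations `z` on the sites `P`. -/
noncomputable def lik (ε : ℝ) (P : Finset (ℕ × V)) (z : ℕ × V → Obs) (A : Finset V) : ℝ :=
  ∏ q ∈ P, (1 + ε * spin A q.2 * (z q : ℝ))

/-- Unnormalised posterior expectation. -/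
noncomputable def pexp (G : SimpleGraph V) (θ ε : ℝ) (S : Finset V) (P : Finset (ℕ × V))
    (z : ℕ × V → Obs) (φ : Finset V → ℝ) : ℝ :=
  ∑ A ∈ S.powerset, wt G θ S A * lik ε P z A * φ A

/-- Normalising constant. -/
noncomputable def den (G : SimpleGraph V) (θ ε : ℝ) (S : Finset V) (P : Finset (ℕ × V))
    (z : ℕ × V → Obs) : ℝ :=
  pexp G θ ε S P z (fun _ => 1)

/-- Posterior mean of the spin at `v`. -/
noncomputable def mean (G : SimpleGraph V) (θ ε : ℝ) (S : Finset V) (P : Finset (ℕ × V))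
    (z : ℕ × V → Obs) (v : V) : ℝ :=
  pexp G θ ε S P z (fun A => spin A v) / den G θ ε S P z

lemma abs_eps_spin_le {ε : ℝ} (hε : 0 ≤ ε) (A : Finset V) (v : V) (x : Obs) :
    |ε * spin A v * (x : ℝ)| ≤ ε := by
  rw [abs_mul, abs_mul, abs_spin, abs_of_nonneg hε, mul_one]
  exact mul_le_of_le_one_right hε x.abs_le

lemma lik_pos {ε : ℝ} (hε : 0 ≤ ε) (hε1 : ε < 1) (P : Finset (ℕ × V)) (z : ℕ × V → Obs)
    (A : Finset V) : 0 < lik ε P z A :=
  Finset.prod_pos fun q _ => by
    linarith [(abs_le.1 (abs_eps_spin_le hε A q.2 (z q))).1]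

lemma lik_congr (ε : ℝ) {P : Finset (ℕ × V)} {z z' : ℕ × V → Obs} (h : ∀ q ∈ P, z q = z' q)
    (A : Finset V) : lik ε P z A = lik ε P z' A :=
  Finset.prod_congr rfl fun q hq => by rw [h q hq]

lemma lik_insert_of (ε : ℝ) {P : Finset (ℕ × V)} (z : ℕ × V → Obs) {v : V}
    (hv : ∀ q ∈ P, q.2 ≠ v) (A : Finset V) : lik ε P z (insert v A) = lik ε P z A :=
  Finset.prod_congr rfl fun q hq => by rw [spin_insert_of_ne (hv q hq)]

variable {G : SimpleGraph V} {θ ε : ℝ}

lemma den_pos (h0 : 0 ≤ θ) (h1 : θ < 1) (hε : 0 ≤ ε) (hε1 : ε < 1) (S : Finset V)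
    (P : Finset (ℕ × V)) (z : ℕ × V → Obs) : 0 < den G θ ε S P z :=
  Finset.sum_pos (fun A _ => mul_pos (mul_pos (wt_pos h0 h1 S A) (lik_pos hε hε1 P z A))
    one_pos) ⟨∅, Finset.empty_mem_powerset S⟩

lemma abs_pexp_le (h0 : 0 ≤ θ) (h1 : θ < 1) (hε : 0 ≤ ε) (hε1 : ε < 1) (S : Finset V)
    (P : Finset (ℕ × V)) (z : ℕ × V → Obs) {φ : Finset V → ℝ} (hφ : ∀ A, |φ A| ≤ 1) :
    |pexp G θ ε S P z φ| ≤ den G θ ε S P z := by
  refine (Finset.abs_sum_le_sum_abs _ _).trans (Finset.sum_le_sum fun A _ => ?_)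
  have := mul_pos (wt_pos h0 h1 (G := G) S A) (lik_pos hε hε1 P z A)
  rw [abs_mul, abs_of_pos this]
  exact mul_le_mul_of_nonneg_left (hφ A) this.le

lemma abs_mean_le (h0 : 0 ≤ θ) (h1 : θ < 1) (hε : 0 ≤ ε) (hε1 : ε < 1) (S : Finset V)
    (P : Finset (ℕ × V)) (z : ℕ × V → Obs) (v : V) : |mean G θ ε S P z v| ≤ 1 := by
  rw [mean, abs_div, abs_of_pos (den_pos h0 h1 hε hε1 S P z),
    div_le_one (den_pos h0 h1 hε hε1 S P z)]
  exact abs_pexp_le h0 h1 hε hε1 S P z fun A => (abs_spin A v).le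

lemma pexp_congr {S : Finset V} {P : Finset (ℕ × V)} {z z' : ℕ × V → Obs}
    (h : ∀ q ∈ P, z q = z' q) (φ : Finset V → ℝ) :
    pexp G θ ε S P z φ = pexp G θ ε S P z' φ :=
  Finset.sum_congr rfl fun A _ => by rw [lik_congr ε h A]

lemma mean_congr {S : Finset V} {P : Finset (ℕ × V)} {z z' : ℕ × V → Obs}
    (h : ∀ q ∈ P, z q = z' q) (v : V) : mean G θ ε S P z v = mean G θ ε S P z' v := by
  rw [mean, mean, den, den, pexp_congr h, pexp_congr h]

lemma measurable_pexp (S : Finset V) (P : Finset (ℕ × V)) (φ : Finset V → ℝ) :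
    Measurable (fun z : ℕ × V → Obs => pexp G θ ε S P z φ) := by
  unfold pexp lik
  refine Finset.measurable_sum _ fun A _ => ?_
  refine Measurable.mul_const (Measurable.const_mul ?_ _) _
  refine Finset.measurable_prod _ fun q _ => ?_
  exact ((measurable_subtype_coe.comp (measurable_pi_apply q)).const_mul _).const_add _

lemma measurable_mean (S : Finset V) (P : Finset (ℕ × V)) (v : V) :
    Measurable (fun z : ℕ × V → Obs => mean G θ ε S P z v) :=
  (measurable_pexp S P _).div (measurable_pexp S P _)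

/-- Site tilts induced by the likelihood. -/
noncomputable def fib (ε : ℝ) (P : Finset (ℕ × V)) (z : ℕ × V → Obs) (u : V) (s : ℝ) : ℝ :=
  ∏ q ∈ P.filter (fun q => q.2 = u), (1 + ε * s * (z q : ℝ))

lemma fib_pos (hε : 0 ≤ ε) (hε1 : ε < 1) (P : Finset (ℕ × V)) (z : ℕ × V → Obs) (u : V) :
    0 < fib ε P z u 1 ∧ 0 < fib ε P z u (-1) := by
  constructor <;> refine Finset.prod_pos fun q _ => ?_ <;> obtain ⟨h1, h2⟩ := Obs.bounds (z q) <;>
    nlinarith

lemma pexp_eq_zsum {S : Finset V} {P : Finset (ℕ × V)} (hP : ∀ q ∈ P, q.2 ∈ S)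
    (z : ℕ × V → Obs) (φ : Finset V → ℝ) :
    pexp G θ ε S P z φ = zsum G θ S (fib ε P z) φ := by
  refine Finset.sum_congr rfl fun A _ => ?_
  congr 2
  rw [lik, ← Finset.prod_fiberwise_of_maps_to (g := Prod.snd) hP]
  refine Finset.prod_congr rfl fun u _ => Finset.prod_congr rfl fun q hq => ?_
  rw [(Finset.mem_filter.1 hq).2]

/-- Lipschitz bound in one coordinate. -/
lemma mean_lipschitz_one (hG : G.IsTree) (h0 : 0 ≤ θ) (h1 : θ < 1) (hε : 0 ≤ ε) (hε1 : ε < 1)
    {S : Finset V} (hS : Conn G S) {P : Finset (ℕ × V)} (hP : ∀ q ∈ P, q.2 ∈ S) {v : V}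
    (hv : v ∈ S) (z : ℕ × V → Obs) {q : ℕ × V} (hq : q ∈ P) (x : Obs) :
    |mean G θ ε S P (Function.update z q x) v - mean G θ ε S P z v| ≤
      ε / (1 - ε) ^ 2 * (θ ^ G.dist v q.2 * |(x : ℝ) - z q|) := by
  classical
  set P0 := P.erase q with hP0
  have hP0S : ∀ r ∈ P0, r.2 ∈ S := fun r hr => hP r (Finset.mem_of_mem_erase hr)
  set D0 := pexp G θ ε S P0 z (fun _ => 1) with hD0
  set D1 := pexp G θ ε S P0 z (fun A => spin A q.2) with hD1
  set N0 := pexp G θ ε S P0 z (fun A => spin A v) with hN0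
  set N1 := pexp G θ ε S P0 z (fun A => spin A v * spin A q.2) with hN1
  have hsplit : ∀ (y : Obs) (φ : Finset V → ℝ), pexp G θ ε S P (Function.update z q y) φ =
      pexp G θ ε S P0 z φ + ε * (y : ℝ) * pexp G θ ε S P0 z (fun A => φ A * spin A q.2) := by
    intro y φ
    simp only [pexp, Finset.mul_sum, ← Finset.sum_add_distrib]
    refine Finset.sum_congr rfl fun A _ => ?_
    rw [lik, ← Finset.mul_prod_erase _ _ hq, Function.update_self]
    have : ∏ r ∈ P.erase q, (1 + ε * spin A r.2 * (Function.update z q y r : ℝ)) =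
        lik ε P0 z A :=
      Finset.prod_congr rfl fun r hr => by rw [Function.update_of_ne (Finset.mem_erase.1 hr).1]
    rw [this]
    ring
  have hmean : ∀ y : Obs, mean G θ ε S P (Function.update z q y) v =
      (N0 + ε * (y : ℝ) * N1) / (D0 + ε * (y : ℝ) * D1) := by
    intro y
    rw [mean, den, hsplit, hsplit]
    simp only [one_mul]
    rfl
  have hD0pos : 0 < D0 := den_pos h0 h1 hε hε1 S P0 z
  have hD1le : |D1| ≤ D0 := abs_pexp_le h0 h1 hε hε1 S P0 z fun A => (abs_spin A q.2).le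
  have hden : ∀ y : Obs, (1 - ε) * D0 ≤ D0 + ε * (y : ℝ) * D1 := by
    intro y
    have : |ε * (y : ℝ) * D1| ≤ ε * D0 := by
      rw [abs_mul, abs_mul, abs_of_nonneg hε]
      exact mul_le_mul (mul_le_of_le_one_right hε y.abs_le) hD1le (abs_nonneg _) hε
    linarith [(abs_le.1 this).1]
  have hcov : |N1 * D0 - N0 * D1| ≤ θ ^ G.dist v q.2 * D0 ^ 2 := by
    simp only [hD0, hD1, hN0, hN1, pexp_eq_zsum hP0S]
    exact cov_bound hG h0 h1 S hS (hP q hq) v hv _ (fib_pos hε hε1 P0 z)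
  rw [hmean, show mean G θ ε S P z v = mean G θ ε S P (Function.update z q (z q)) v by
    rw [Function.update_eq_self], hmean]
  have hpos : ∀ y : Obs, 0 < D0 + ε * (y : ℝ) * D1 := fun y =>
    lt_of_lt_of_le (mul_pos (by linarith) hD0pos) (hden y)
  rw [div_sub_div _ _ (hpos x).ne' (hpos (z q)).ne', abs_div,
    abs_of_pos (mul_pos (hpos x) (hpos (z q)))]
  have hnum : (N0 + ε * (x : ℝ) * N1) * (D0 + ε * (z q : ℝ) * D1) -
      (D0 + ε * (x : ℝ) * D1) * (N0 + ε * (z q : ℝ) * N1) =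
      ε * ((x : ℝ) - z q) * (N1 * D0 - N0 * D1) := by ring
  rw [hnum, div_le_iff₀ (mul_pos (hpos x) (hpos (z q))), abs_mul, abs_mul, abs_of_nonneg hε]
  calc ε * |(x : ℝ) - z q| * |N1 * D0 - N0 * D1|
      ≤ ε * |(x : ℝ) - z q| * (θ ^ G.dist v q.2 * D0 ^ 2) :=
        mul_le_mul_of_nonneg_left hcov (mul_nonneg hε (abs_nonneg _))
    _ = ε / (1 - ε) ^ 2 * (θ ^ G.dist v q.2 * |(x : ℝ) - z q|) *
          (((1 - ε) * D0) * ((1 - ε) * D0)) := by
        have : (1 - ε) ≠ 0 := by linarith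
        field_simp
    _ ≤ _ := by
        refine mul_le_mul_of_nonneg_left (mul_le_mul (hden x) (hden (z q))
          (mul_nonneg (by linarith) hD0pos.le) (hpos x).le) ?_
        exact mul_nonneg (div_nonneg hε (sq_nonneg _))
          (mul_nonneg (pow_nonneg h0 _) (abs_nonneg _))

/-- Lipschitz bound of the posterior mean in all observations. -/
lemma mean_lipschitz (hG : G.IsTree) (h0 : 0 ≤ θ) (h1 : θ < 1) (hε : 0 ≤ ε) (hε1 : ε < 1)
    {S : Finset V} (hS : Conn G S) {P : Finset (ℕ × V)} (hP : ∀ q ∈ P, q.2 ∈ S) {v : V}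
    (hv : v ∈ S) (z z' : ℕ × V → Obs) :
    |mean G θ ε S P z' v - mean G θ ε S P z v| ≤
      ε / (1 - ε) ^ 2 * ∑ q ∈ P, θ ^ G.dist v q.2 * |(z' q : ℝ) - z q| := by
  classical
  have key : ∀ Q ⊆ P, |mean G θ ε S P (Q.piecewise z' z) v - mean G θ ε S P z v| ≤
      ε / (1 - ε) ^ 2 * ∑ q ∈ Q, θ ^ G.dist v q.2 * |(z' q : ℝ) - z q| := by
    intro Q hQ
    induction Q using Finset.induction_on with
    | empty => simp
    | @insert a Q haQ ih =>
      rw [Finset.sum_insert haQ, mul_add]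
      refine le_trans ((abs_sub_le _ (mean G θ ε S P (Q.piecewise z' z) v) _).trans
        (add_le_add ?_ (ih ((Finset.subset_insert a Q).trans hQ)))) le_rfl
      rw [Finset.piecewise_insert]
      refine (mean_lipschitz_one hG h0 h1 hε hε1 hS hP hv _ (hQ (Finset.mem_insert_self a Q))
        (z' a)).trans (le_of_eq ?_)
      rw [Finset.piecewise_eq_of_notMem _ _ _ haQ]
  have h := key P subset_rfl
  rwa [mean_congr (z := P.piecewise z' z) (z' := z')
    (fun q hq => Finset.piecewise_eq_of_mem _ _ _ hq)] at h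

/-- Consistency in the volume. -/
lemma pexp_consistent (hG : G.IsTree) {D S : Finset V} (hD : Conn G D) {o : V} (ho : o ∈ D)
    (hS : Conn G S) (hDS : D ⊆ S) {P : Finset (ℕ × V)} (hP : ∀ q ∈ P, q.2 ∈ D)
    (z : ℕ × V → Obs) {φ : Finset V → ℝ} (hφ : ∀ A v, v ∉ D → φ (insert v A) = φ A) :
    pexp G θ ε S P z φ = pexp G θ ε D P z φ := by
  have e : ∀ T : Finset V, pexp G θ ε T P z φ =
      zsum G θ T (fun _ _ => 1) (fun A => lik ε P z A * φ A) := by
    intro T
    simp only [pexp, zsum, Finset.prod_const_one, mul_one, mul_assoc]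
  rw [e, e]
  refine zsum_consistent hG hD ho _ (fun A v hv => ?_) S hS hDS
  rw [hφ A v hv, lik_insert_of ε z (fun q hq h => hv (by rw [← h]; exact hP q hq)) A]

lemma den_empty (hG : G.IsTree) {S : Finset V} (hS : Conn G S) {o : V} (ho : o ∈ S)
    (z : ℕ × V → Obs) : den G θ ε S ∅ z = 1 := by
  have := zsum_one (θ := θ) hG hS ho
  simpa [den, pexp, lik, zsum] using this

lemma spin_image {W : Type*} [DecidableEq W] (e : V ≃ W) (A : Finset V) (v : V) :
    spin (A.image e) (e v) = spin A v := by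
  simp [spin]

lemma wt_image {W : Type*} [DecidableEq W] {H : SimpleGraph W} (e : G ≃g H) (S A : Finset V) :
    wt H θ (S.image e) (A.image e) = wt G θ S A := by
  classical
  unfold wt
  congr 1
  have hE : edgesIn H (S.image e) = (edgesIn G S).image (Sym2.map e) := by
    ext p
    induction p using Sym2.ind with
    | _ a b =>
      obtain ⟨a, rfl⟩ := e.surjective a
      obtain ⟨b, rfl⟩ := e.surjective b
      rw [show s(e a, e b) = Sym2.map e s(a, b) from rfl,
        (Sym2.map.injective e.injective).mem_finset_image, Sym2.map_mk, mk_mem_edgesIn,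
        mk_mem_edgesIn, e.injective.mem_finset_image, e.injective.mem_finset_image]
      exact and_congr_right fun _ => and_congr_right fun _ => e.map_rel_iff
  rw [hE, Finset.prod_image fun a _ b _ h => Sym2.map.injective e.injective h]
  refine Finset.prod_congr rfl fun p _ => ?_
  induction p using Sym2.ind with
  | _ a b =>
    rw [Sym2.map_mk, ew_mk, ew_mk]
    have : ∀ x, spin (A.image e) (e x) = spin A x := spin_image e.toEquiv A
    rw [this, this]

end Vale.Agent.P161
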