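import Vale.Agent.P161.Posterior
import Vale.Agent.P161.Sums

/-!
The finite-volume observation map: observations as a function of the innovations, its
fixed-point characterisation, deterministic influence bound, and equivariance.
-/

namespace Vale.Agent.P161

open SimpleGraph Finset
open scoped unitInterval

variable {V : Type*} [DecidableEq V]

/-- `q` is revealed strictly before `s`. -/
def past (U : V → I) (q s : ℕ × V) : Prop :=
  q.1 < s.1 ∨ (q.1 = s.1 ∧ U q.2 < U s.2)

noncomputable instance (U : V → I) (q s : ℕ × V) : Decidable (past U q s) :=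
  Classical.propDecidable _

/-- The sites in `S` up to layer `k`. -/
def sitesUpTo (S : Finset V) (k : ℕ) : Finset (ℕ × V) := Finset.range (k + 1) ×ˢ S

/-- The sites of `S` revealed before `s`. -/
noncomputable def before (U : V → I) (S : Finset V) (s : ℕ × V) : Finset (ℕ × V) :=
  (sitesUpTo S s.1).filter (fun q => past U q s)

lemma past_trans {U : V → I} {a b c : ℕ × V} (h : past U a b) (h' : past U b c) :
    past U a c := by
  rcases h with h | ⟨h, h2⟩ <;> rcases h' with h' | ⟨h', h'2⟩
  · exact Or.inl (h.trans h')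
  · exact Or.inl (h' ▸ h)
  · exact Or.inl (h ▸ h')
  · exact Or.inr ⟨h.trans h', h2.trans h'2⟩

lemma past_irrefl (U : V → I) (a : ℕ × V) : ¬ past U a a := by
  rintro (h | ⟨-, h⟩) <;> exact lt_irrefl _ h

lemma mem_before {U : V → I} {S : Finset V} {q s : ℕ × V} :
    q ∈ before U S s ↔ q.2 ∈ S ∧ past U q s := by
  simp only [before, sitesUpTo, Finset.mem_filter, Finset.mem_product, Finset.mem_range]
  constructor
  · exact fun h => ⟨h.1.2, h.2⟩
  · rintro ⟨h1, h2⟩
    refine ⟨⟨?_, h1⟩, h2⟩
    rcases h2 with h | ⟨h, -⟩ <;> omega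

lemma before_subset {U : V → I} {S : Finset V} {q s : ℕ × V} (h : q ∈ before U S s) :
    before U S q ⊆ before U S s := fun r hr =>
  mem_before.2 ⟨(mem_before.1 hr).1, past_trans (mem_before.1 hr).2 (mem_before.1 h).2⟩

lemma card_before_lt {U : V → I} {S : Finset V} {q s : ℕ × V} (h : q ∈ before U S s) :
    (before U S q).card < (before U S s).card :=
  Finset.card_lt_card <| Finset.ssubset_iff_subset_ne.2 ⟨before_subset h,
    fun he => past_irrefl U q (mem_before.1 (he ▸ h)).2⟩

/-- One step of the recursion. -/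
noncomputable def step (G : SimpleGraph V) (θ ε : ℝ) (U : V → I) (S : Finset V)
    (g : ℕ × V → I) (z : ℕ × V → Obs) (s : ℕ × V) : Obs :=
  qObs (ε * mean G θ ε S (before U S s) z s.2) (g s)

/-- The initial guess. -/
noncomputable def zInit : ℕ × V → Obs := fun _ => ⟨0, by constructor <;> norm_num⟩

/-- The observations in volume `S` as a function of the innovations `g`. -/
noncomputable def sol (G : SimpleGraph V) (θ ε : ℝ) (U : V → I) (S : Finset V)
    (g : ℕ × V → I) (s : ℕ × V) : Obs :=
  (step G θ ε U S g)^[(before U S s).card + 1] zInit s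

variable {G : SimpleGraph V} {θ ε : ℝ}

lemma step_congr {U : V → I} {S : Finset V} {g g' : ℕ × V → I} {z z' : ℕ × V → Obs}
    {s : ℕ × V} (hg : g s = g' s) (hz : ∀ q ∈ before U S s, z q = z' q) :
    step G θ ε U S g z s = step G θ ε U S g' z' s := by
  rw [step, step, mean_congr hz, hg]

lemma iterate_stable (U : V → I) (S : Finset V) (g : ℕ × V → I) :
    ∀ n, ∀ s, (before U S s).card = n → ∀ i, n < i →
      (step G θ ε U S g)^[i] zInit s = sol G θ ε U S g s := by
  intro n
  induction n using Nat.strong_induction_on with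
  | _ n ih =>
    intro s hs i hi
    obtain ⟨i, rfl⟩ : ∃ j, i = j + 1 := ⟨i - 1, by omega⟩
    rw [sol, Function.iterate_succ_apply', Function.iterate_succ_apply']
    refine step_congr rfl fun q hq => ?_
    have hlt := card_before_lt hq
    rw [ih _ (by omega) q rfl i (by omega), ih _ (by omega) q rfl _ (by omega)]

lemma sol_eq (U : V → I) (S : Finset V) (g : ℕ × V → I) (s : ℕ × V) :
    sol G θ ε U S g s = step G θ ε U S g (sol G θ ε U S g) s := by
  conv_lhs => rw [sol, Function.iterate_succ_apply']
  exact step_congr rfl fun q hq => iterate_stable U S g _ q rfl _ (card_before_lt hq)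

/-- The fixed point is unique on every set closed under predecessors. -/
lemma eq_sol_of_fixed {U : V → I} {S : Finset V} {g g' : ℕ × V → I} {z : ℕ × V → Obs}
    (Q : Set (ℕ × V)) (hQ : ∀ s ∈ Q, ∀ q ∈ before U S s, q ∈ Q)
    (hg : ∀ s ∈ Q, g' s = g s) (hz : ∀ s ∈ Q, z s = step G θ ε U S g' z s) :
    ∀ s ∈ Q, z s = sol G θ ε U S g s := by
  have key : ∀ n, ∀ s ∈ Q, (before U S s).card = n → z s = sol G θ ε U S g s := by
    intro n
    induction n using Nat.strong_induction_on with
    | _ n ih =>
      intro s hs hn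
      rw [hz s hs, sol_eq]
      exact step_congr (hg s hs) fun q hq =>
        ih _ (hn ▸ card_before_lt hq) q (hQ s hs q hq) rfl
  exact fun s hs => key _ s hs rfl

lemma sol_congr {U : V → I} {S : Finset V} {g g' : ℕ × V → I} {s : ℕ × V}
    (h : ∀ q ∈ insert s (before U S s), g q = g' q) :
    sol G θ ε U S g s = sol G θ ε U S g' s := by
  refine eq_sol_of_fixed (g' := g) (z := sol G θ ε U S g)
    ((insert s (before U S s) : Finset (ℕ × V)) : Set (ℕ × V)) ?_ (fun q hq => h q hq)
    (fun q _ => sol_eq U S g q) s (Finset.mem_insert_self _ _)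
  intro q hq r hr
  rw [Finset.mem_coe, Finset.mem_insert] at hq ⊢
  rcases hq with rfl | hq
  · exact Or.inr hr
  · exact Or.inr (before_subset hq hr)

/-- The influence constant in layer `k`. -/
noncomputable def infl (k : ℕ) : ℝ := 6 * 3 ^ k

lemma infl_nonneg (k : ℕ) : 0 ≤ infl k := by unfold infl; positivity

/-- The deterministic influence bound. -/
lemma sol_influence (hG : G.IsTree) (h0 : 0 ≤ θ) (h1 : θ < 1) (hε : 0 ≤ ε) (hε4 : ε ≤ 1 / 4)
    {ρ M : ℝ} (hρ : 0 ≤ ρ) (hM : 0 ≤ M)
    (hconv : ∀ (i j : V) (T : Finset V),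
      ∑ t ∈ T, θ ^ G.dist i t * ρ ^ G.dist t j ≤ M * ρ ^ G.dist i j)
    (hεM : 2 * ε ^ 2 * M ≤ 1 / 3) (U : V → I) {S : Finset V} (hS : Conn G S)
    (g g' : ℕ × V → I) {s : ℕ × V} (hs : s.2 ∈ S) :
    |(sol G θ ε U S g s : ℝ) - sol G θ ε U S g' s| ≤
      ∑ j ∈ sitesUpTo S s.1, infl s.1 * ρ ^ G.dist s.2 j.2 * |(g j : ℝ) - g' j| := by
  have key : ∀ i, ∀ s : ℕ × V, s.2 ∈ S →
      |((step G θ ε U S g)^[i] zInit s : ℝ) - (step G θ ε U S g')^[i] zInit s| ≤
      ∑ j ∈ sitesUpTo S s.1, infl s.1 * ρ ^ G.dist s.2 j.2 * |(g j : ℝ) - g' j| := by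
    intro i
    induction i with
    | zero =>
      intro s _
      simpa using Finset.sum_nonneg fun j _ =>
        mul_nonneg (mul_nonneg (infl_nonneg _) (pow_nonneg hρ _)) (abs_nonneg _)
    | succ i ih =>
      intro s hs
      set z := (step G θ ε U S g)^[i] zInit
      set z' := (step G θ ε U S g')^[i] zInit
      rw [Function.iterate_succ_apply', Function.iterate_succ_apply', step, step]
      have hPS : ∀ q ∈ before U S s, q.2 ∈ S := fun q hq => (mem_before.1 hq).1
      have hm : ∀ w : ℕ × V → Obs, |ε * mean G θ ε S (before U S s) w s.2| ≤ 1 / 4 := by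
        intro w
        rw [abs_mul, abs_of_nonneg hε]
        exact (mul_le_of_le_one_right hε (abs_mean_le h0 h1 hε (by linarith) _ _ _ _)).trans hε4
      refine (qObs_lipschitz (hm z) (hm z') _ _).trans ?_
      rw [← mul_sub, abs_mul, abs_of_nonneg hε]
      have hlip : |mean G θ ε S (before U S s) z s.2 - mean G θ ε S (before U S s) z' s.2| ≤
          2 * ε * ∑ q ∈ before U S s, θ ^ G.dist s.2 q.2 * |(z q : ℝ) - z' q| := by
        refine (mean_lipschitz hG h0 h1 hε (by linarith) hS hPS hs z' z).trans ?_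
        refine mul_le_mul_of_nonneg_right ?_
          (Finset.sum_nonneg fun q _ => mul_nonneg (pow_nonneg h0 _) (abs_nonneg _))
        rw [div_le_iff₀ (pow_pos (by linarith) 2)]
        nlinarith [mul_le_mul_of_nonneg_left hε4 hε]
      set D := fun j : ℕ × V => |(g j : ℝ) - g' j|
      have hD : ∀ j, 0 ≤ D j := fun j => abs_nonneg _
      have hq : ∀ q ∈ before U S s, θ ^ G.dist s.2 q.2 * |(z q : ℝ) - z' q| ≤
          θ ^ G.dist s.2 q.2 * ∑ j ∈ sitesUpTo S s.1,
            infl q.1 * ρ ^ G.dist q.2 j.2 * D j := by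
        intro q hq
        refine mul_le_mul_of_nonneg_left ((ih q (hPS q hq)).trans ?_) (pow_nonneg h0 _)
        refine Finset.sum_le_sum_of_subset_of_nonneg ?_
          (fun j _ _ => mul_nonneg (mul_nonneg (infl_nonneg _) (pow_nonneg hρ _)) (hD j))
        refine Finset.product_subset_product_left (Finset.range_mono ?_)
        rcases (mem_before.1 hq).2 with h | ⟨h, -⟩ <;> omega
      have hsum : ∑ q ∈ before U S s, θ ^ G.dist s.2 q.2 * |(z q : ℝ) - z' q| ≤
          ∑ j ∈ sitesUpTo S s.1, (3 / 2 * infl s.1 * M) * ρ ^ G.dist s.2 j.2 * D j := by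
        refine (Finset.sum_le_sum hq).trans ((Finset.sum_le_sum_of_subset_of_nonneg
          (Finset.filter_subset _ _) (fun q _ _ => mul_nonneg (pow_nonneg h0 _)
            (Finset.sum_nonneg fun j _ =>
              mul_nonneg (mul_nonneg (infl_nonneg _) (pow_nonneg hρ _)) (hD j)))).trans ?_)
        simp only [Finset.mul_sum]
        rw [Finset.sum_comm]
        refine Finset.sum_le_sum fun j _ => ?_
        rw [sitesUpTo, Finset.sum_product]
        calc ∑ k ∈ Finset.range (s.1 + 1), ∑ u ∈ S,
              θ ^ G.dist s.2 u * (infl k * ρ ^ G.dist u j.2 * D j)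
            = (∑ k ∈ Finset.range (s.1 + 1), infl k) *
                (∑ u ∈ S, θ ^ G.dist s.2 u * ρ ^ G.dist u j.2) * D j := by
              rw [Finset.sum_mul_sum, Finset.sum_mul]
              refine Finset.sum_congr rfl fun k _ => ?_
              rw [Finset.sum_mul]
              exact Finset.sum_congr rfl fun u _ => by ring
          _ ≤ (3 / 2 * infl s.1) * (M * ρ ^ G.dist s.2 j.2) * D j := by
              refine mul_le_mul_of_nonneg_right (mul_le_mul ?_ (hconv _ _ _)
                (Finset.sum_nonneg fun u _ => mul_nonneg (pow_nonneg h0 _) (pow_nonneg hρ _))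
                (mul_nonneg (by norm_num) (infl_nonneg _))) (hD j)
              simp only [infl, ← Finset.mul_sum]
              rw [geom_sum_eq (by norm_num : (3 : ℝ) ≠ 1), pow_succ]
              have : (0 : ℝ) < 3 ^ s.1 := by positivity
              linarith
          _ = _ := by ring
      have hself : 3 * D s ≤ ∑ j ∈ sitesUpTo S s.1,
          infl s.1 / 2 * ρ ^ G.dist s.2 j.2 * D j := by
        refine le_trans ?_ (Finset.single_le_sum (fun j _ => mul_nonneg (mul_nonneg
          (by linarith [infl_nonneg s.1]) (pow_nonneg hρ _)) (hD j))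
          (Finset.mem_product.2 ⟨Finset.self_mem_range_succ s.1, hs⟩ : s ∈ sitesUpTo S s.1))
        rw [SimpleGraph.dist_self, pow_zero, mul_one]
        refine mul_le_mul_of_nonneg_right ?_ (hD s)
        have : (1 : ℝ) ≤ 3 ^ s.1 := one_le_pow₀ (by norm_num)
        simp only [infl]; linarith
      have hsum0 : 0 ≤ ∑ j ∈ sitesUpTo S s.1, infl s.1 * ρ ^ G.dist s.2 j.2 * D j :=
        Finset.sum_nonneg fun j _ => mul_nonneg (mul_nonneg (infl_nonneg _) (pow_nonneg hρ _)) (hD j)
      calc 3 * D s + ε * |mean G θ ε S (before U S s) z s.2 - mean G θ ε S (before U S s) z' s.2|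
          ≤ (∑ j ∈ sitesUpTo S s.1, infl s.1 / 2 * ρ ^ G.dist s.2 j.2 * D j) +
              ε * (2 * ε * ∑ j ∈ sitesUpTo S s.1,
                (3 / 2 * infl s.1 * M) * ρ ^ G.dist s.2 j.2 * D j) :=
            add_le_add hself (mul_le_mul_of_nonneg_left
              (hlip.trans (mul_le_mul_of_nonneg_left hsum (by linarith))) hε)
        _ = (1 / 2 + 2 * ε ^ 2 * M * (3 / 2)) *
              ∑ j ∈ sitesUpTo S s.1, infl s.1 * ρ ^ G.dist s.2 j.2 * D j := by
            simp only [Finset.mul_sum, ← Finset.sum_add_distrib]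
            exact Finset.sum_congr rfl fun j _ => by ring
        _ ≤ _ := mul_le_of_le_one_left hsum0 (by linarith)
  have e1 : sol G θ ε U S g s = (step G θ ε U S g)^[(before U S s).card + 1] zInit s := rfl
  have e2 : sol G θ ε U S g' s = (step G θ ε U S g')^[(before U S s).card + 1] zInit s := rfl
  rw [e1, e2]
  exact key _ s hs

lemma mean_image (e : G ≃g G) (S : Finset V) (P : Finset (ℕ × V)) (z : ℕ × V → Obs) (v : V) :
    mean G θ ε (S.image e) (P.image (fun q => (q.1, e q.2)))
      (fun q => z (q.1, e.symm q.2)) (e v) = mean G θ ε S P z v := by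
  have hsp : ∀ A u, spin (Finset.image e A) (e u) = spin A u := fun A u => spin_image e.toEquiv A u
  have hinj : Function.Injective (fun A : Finset V => A.image e) :=
    Finset.image_injective e.injective
  have hp : ∀ φ φ' : Finset V → ℝ, (∀ A, φ' (A.image e) = φ A) →
      pexp G θ ε (S.image e) (P.image (fun q => (q.1, e q.2)))
        (fun q => z (q.1, e.symm q.2)) φ' = pexp G θ ε S P z φ := by
    intro φ φ' hφ
    simp only [pexp]
    rw [Finset.powerset_image, Finset.sum_image fun a _ b _ h => hinj h]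
    refine Finset.sum_congr rfl fun A _ => ?_
    rw [wt_image, hφ, lik, lik, Finset.prod_image]
    · congr 2
      refine Finset.prod_congr rfl fun q _ => ?_
      simp [hsp]
    · intro a _ b _ h
      simp only [Prod.mk.injEq, e.injective.eq_iff] at h
      exact Prod.ext h.1 h.2
  rw [mean, mean, den, den, hp (fun _ => 1) (fun _ => 1) (fun _ => rfl),
    hp (fun A => spin A v) (fun A => spin A (e v)) (fun A => hsp A v)]

/-- Exact equivariance of the finite-volume map. -/
lemma sol_image (e : G ≃g G) (U : V → I) (S : Finset V) (g : ℕ × V → I) (k : ℕ) (v : V) :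
    sol G θ ε (fun w => U (e.symm w)) (S.image e) (fun q => g (q.1, e.symm q.2)) (k, e v) =
      sol G θ ε U S g (k, v) := by
  have h : ∀ s : ℕ × V, sol G θ ε U S g (s.1, e.symm s.2) =
      sol G θ ε (fun w => U (e.symm w)) (S.image e) (fun q => g (q.1, e.symm q.2)) s := by
    intro s
    refine eq_sol_of_fixed (g' := fun q => g (q.1, e.symm q.2))
      (z := fun s => sol G θ ε U S g (s.1, e.symm s.2)) Set.univ
      (fun _ _ _ _ => Set.mem_univ _) (fun _ _ => rfl) (fun s _ => ?_) s (Set.mem_univ _)
    obtain ⟨k, w⟩ := s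
    obtain ⟨u, rfl⟩ := e.surjective w
    simp only [RelIso.symm_apply_apply]
    rw [sol_eq, step, step]
    have hb : before (fun w => U (e.symm w)) (S.image e) (k, e u) =
        (before U S (k, u)).image (fun q => (q.1, e q.2)) := by
      ext ⟨i, w⟩
      obtain ⟨w, rfl⟩ := e.surjective w
      simp [mem_before, past, e.injective.eq_iff]
    rw [hb, mean_image]
    simp
  have := h (k, e v)
  simpa using this.symm

end Vale.Agent.P161
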