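import Mathlib

/-!
Elementary facts about trees, finite connected vertex sets, balls and exponentially
weighted sums, used for the factor-of-IID construction of the free Ising state.
-/

namespace Vale.Agent.P161

open SimpleGraph Finset

variable {V : Type*} {G : SimpleGraph V}

/-- A finite vertex set inducing a connected subgraph. -/
def Conn (G : SimpleGraph V) (S : Finset V) : Prop := (G.induce (S : Set V)).Connected

lemma exists_closer (hG : G.IsTree) {u v : V} (h : u ≠ v) :
    ∃ p, G.Adj v p ∧ G.dist u p + 1 = G.dist u v := by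
  obtain ⟨w, hw⟩ := hG.connected.exists_walk_length_eq_dist v u
  have hn : ¬ w.Nil := fun hnil => h hnil.eq.symm
  refine ⟨w.snd, w.adj_snd hn, ?_⟩
  have h1 : G.dist w.snd u ≤ w.tail.length := dist_le _
  have h2 : w.tail.length + 1 = w.length := Walk.length_tail_add_one hn
  have h3 : G.dist v u ≤ G.dist v w.snd + G.dist w.snd u := hG.connected.dist_triangle
  have h4 : G.dist v w.snd = 1 := dist_eq_one_iff_adj.2 (w.adj_snd hn)
  rw [dist_comm (u := u) (v := w.snd), dist_comm (u := u) (v := v)]
  omega

lemma closer_unique (hG : G.IsTree) {u v a b : V} (ha : G.Adj v a) (hb : G.Adj v b)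
    (hda : G.dist u a + 1 = G.dist u v) (hdb : G.dist u b + 1 = G.dist u v) : a = b := by
  obtain ⟨pa, hpa, hla⟩ := hG.connected.exists_path_of_dist u a
  obtain ⟨pb, hpb, hlb⟩ := hG.connected.exists_path_of_dist u b
  have h1 : (pa.concat ha.symm).IsPath :=
    (pa.concat ha.symm).isPath_of_length_eq_dist (by rw [Walk.length_concat]; omega)
  have h2 : (pb.concat hb.symm).IsPath :=
    (pb.concat hb.symm).isPath_of_length_eq_dist (by rw [Walk.length_concat]; omega)
  have h3 := hG.isAcyclic.path_unique ⟨_, h1⟩ ⟨_, h2⟩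
  have h4 : (pa.concat ha.symm) = (pb.concat hb.symm) := congrArg Subtype.val h3
  obtain ⟨hab, -⟩ := Walk.concat_inj h4
  exact hab

lemma Conn.closer (hG : G.IsTree) {S : Finset V} (hS : Conn G S) {u v : V} (hu : u ∈ S)
    (hv : v ∈ S) (h : u ≠ v) :
    ∃ p ∈ S, G.Adj v p ∧ G.dist u p + 1 = G.dist u v := by
  classical
  obtain ⟨w, hw⟩ := (SimpleGraph.Connected.preconnected hS ⟨v, hv⟩ ⟨u, hu⟩).exists_isPath
  let e : G.induce (S : Set V) →g G := (SimpleGraph.Embedding.induce (S : Set V)).toHom
  have hinj : Function.Injective e := Subtype.val_injective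
  let w' : G.Walk v u := w.map e
  have hw' : w'.IsPath := hw.map hinj
  obtain ⟨g, hg, hlg⟩ := hG.connected.exists_path_of_dist v u
  have heq : w' = g := congrArg Subtype.val (hG.isAcyclic.path_unique ⟨w', hw'⟩ ⟨g, hg⟩)
  have hn : ¬ w'.Nil := fun hnil => h hnil.eq.symm
  refine ⟨w'.snd, ?_, w'.adj_snd hn, ?_⟩
  · have hm : w'.snd ∈ (w.map e).support := w'.getVert_mem_support 1
    rw [Walk.support_map, List.mem_map] at hm
    obtain ⟨x, -, hx⟩ := hm
    have h2 : (x : V) ∈ S := x.2
    exact hx ▸ h2
  · have h1 : G.dist w'.snd u ≤ w'.tail.length := dist_le _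
    have h2 : w'.tail.length + 1 = w'.length := Walk.length_tail_add_one hn
    have h3 : w'.length = G.dist v u := by rw [heq]; exact hlg
    have h4 : G.dist v u ≤ G.dist v w'.snd + G.dist w'.snd u := hG.connected.dist_triangle
    have h5 : G.dist v w'.snd = 1 := dist_eq_one_iff_adj.2 (w'.adj_snd hn)
    rw [dist_comm (u := u) (v := w'.snd), dist_comm (u := u) (v := v)]
    omega

lemma conn_of_rooted {S : Finset V} {o : V} (ho : o ∈ S)
    (h : ∀ v ∈ S, v ≠ o → ∃ p ∈ S, G.Adj v p ∧ G.dist o p + 1 = G.dist o v) :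
    Conn G S := by
  have key : ∀ n, ∀ v : V, ∀ hv : v ∈ S, G.dist o v = n →
      (G.induce (S : Set V)).Reachable ⟨o, ho⟩ ⟨v, hv⟩ := by
    intro n
    induction n using Nat.strong_induction_on with
    | _ n ih =>
      intro v hv hn
      by_cases hvo : v = o
      · subst hvo; exact Reachable.refl _
      · obtain ⟨p, hp, hadj, hd⟩ := h v hv hvo
        have h1 := ih (G.dist o p) (by omega) p hp rfl
        have h2 : (G.induce (S : Set V)).Adj ⟨p, hp⟩ ⟨v, hv⟩ := hadj.symm
        exact h1.trans h2.reachable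
  haveI : Nonempty (S : Set V) := ⟨⟨o, ho⟩⟩
  exact ⟨fun a b => (key _ a.1 a.2 rfl).symm.trans (key _ b.1 b.2 rfl)⟩

variable [DecidableEq V]

lemma exists_leaf (hG : G.IsTree) {S D : Finset V} (hS : Conn G S) (hD : Conn G D)
    (hDS : D ⊆ S) {o : V} (ho : o ∈ D) (hne : D ≠ S) :
    ∃ v ∈ S, v ∉ D ∧ ∃ p ∈ S.erase v, G.Adj v p ∧ G.dist o p + 1 = G.dist o v ∧
      (∀ u ∈ S, G.Adj v u → u = p) ∧ Conn G (S.erase v) := by
  have hne' : (S \ D).Nonempty := by
    rw [Finset.sdiff_nonempty]
    exact fun h => hne (Finset.Subset.antisymm hDS h)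
  obtain ⟨v, hv, hmax⟩ := Finset.exists_max_image (S \ D) (fun x => G.dist o x) hne'
  rw [Finset.mem_sdiff] at hv
  have hov : o ≠ v := fun h => hv.2 (h ▸ ho)
  obtain ⟨p, hp, hadj, hd⟩ := hS.closer hG (hDS ho) hv.1 hov
  have huniq : ∀ u ∈ S, G.Adj v u → u = p := by
    intro u hu huv
    rcases hG.dist_eq_dist_add_one_of_adj o huv with h | h
    · exact closer_unique hG huv hadj h.symm hd
    · exfalso
      by_cases huD : u ∈ D
      · have hou : o ≠ u := by
          intro h'; rw [← h'] at h; simp at h
        obtain ⟨q, hq, hqa, hqd⟩ := hD.closer hG ho huD hou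
        exact hv.2 (closer_unique hG hqa huv.symm hqd h.symm ▸ hq)
      · have := hmax u (Finset.mem_sdiff.2 ⟨hu, huD⟩)
        omega
  refine ⟨v, hv.1, hv.2, p, Finset.mem_erase.2 ⟨hadj.ne', hp⟩, hadj, hd, huniq, ?_⟩
  refine conn_of_rooted (o := o) (Finset.mem_erase.2 ⟨hov, hDS ho⟩) ?_
  intro x hx hxo
  rw [Finset.mem_erase] at hx
  obtain ⟨q, hq, hqa, hqd⟩ := hS.closer hG (hDS ho) hx.2 (Ne.symm hxo)
  refine ⟨q, Finset.mem_erase.2 ⟨?_, hq⟩, hqa, hqd⟩
  rintro rfl
  have := huniq x hx.2 hqa.symm
  subst this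
  omega

lemma conn_singleton (o : V) : Conn G {o} :=
  conn_of_rooted (o := o) (Finset.mem_singleton_self o)
    (fun v hv h => absurd (Finset.mem_singleton.1 hv) h)

/-- The ball of radius `n` around `o`, as a finset. -/
def ballF (G : SimpleGraph V) [G.LocallyFinite] (o : V) : ℕ → Finset V
  | 0 => {o}
  | n + 1 => ballF G o n ∪ (ballF G o n).biUnion (fun v => G.neighborFinset v)

variable [G.LocallyFinite]

lemma mem_ballF (hG : G.IsTree) (o : V) : ∀ n v, v ∈ ballF G o n ↔ G.dist o v ≤ n := by
  intro n
  induction n with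
  | zero =>
    intro v
    simp only [ballF, Finset.mem_singleton, Nat.le_zero, hG.connected.dist_eq_zero_iff]
    exact eq_comm
  | succ n ih =>
    intro v
    simp only [ballF, Finset.mem_union, Finset.mem_biUnion, mem_neighborFinset, ih]
    constructor
    · rintro (h | ⟨u, hu, huv⟩)
      · omega
      · have := hG.connected.dist_triangle (u := o) (v := u) (w := v)
        have := dist_eq_one_iff_adj.2 huv
        omega
    · intro h
      by_cases h' : G.dist o v ≤ n
      · exact Or.inl h'
      · have hov : o ≠ v := by rintro rfl; simp only [SimpleGraph.dist_self] at h'; omega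
        obtain ⟨p, hp, hd⟩ := exists_closer hG hov
        exact Or.inr ⟨p, by omega, hp.symm⟩

lemma self_mem_ballF (o : V) : ∀ n, o ∈ ballF G o n
  | 0 => Finset.mem_singleton_self o
  | n + 1 => Finset.mem_union_left _ (self_mem_ballF o n)

lemma conn_ballF (hG : G.IsTree) (o : V) (n : ℕ) : Conn G (ballF G o n) := by
  refine conn_of_rooted (o := o) (self_mem_ballF o n) ?_
  intro v hv hvo
  obtain ⟨p, hp, hd⟩ := exists_closer hG (Ne.symm hvo)
  refine ⟨p, ?_, hp, hd⟩
  rw [mem_ballF hG] at hv ⊢
  omega

omit [DecidableEq V] [G.LocallyFinite] in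
/-- If the edge `a b` separates `t` from `j`, distances add up. -/
lemma dist_through_edge (hG : G.IsTree) {a b j : V} (hab : G.Adj a b)
    (hj : G.dist j b + 1 = G.dist j a) :
    ∀ n t, G.dist a t = n → G.dist t b = G.dist t a + 1 →
      G.dist t j = G.dist t a + G.dist a j := by
  intro n
  induction n using Nat.strong_induction_on with
  | _ n ih =>
    intro t hn ht
    by_cases hta : a = t
    · subst hta; simp
    obtain ⟨t', ht', hd'⟩ := exists_closer hG hta
    have hc := hG.connected
    have h1 : G.dist t b ≤ G.dist t t' + G.dist t' b := hc.dist_triangle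
    have h2 : G.dist t' b ≤ G.dist t' a + G.dist a b := hc.dist_triangle
    have e1 : G.dist t t' = 1 := dist_eq_one_iff_adj.2 ht'
    have e2 : G.dist a b = 1 := dist_eq_one_iff_adj.2 hab
    have c1 : G.dist t a = G.dist a t := dist_comm
    have c2 : G.dist t' a = G.dist a t' := dist_comm
    have hside : G.dist t' b = G.dist t' a + 1 := by omega
    have hIH := ih (G.dist a t') (by omega) t' rfl hside
    have c3 : G.dist j t = G.dist t j := dist_comm
    have c4 : G.dist j t' = G.dist t' j := dist_comm
    rcases hG.dist_eq_dist_add_one_of_adj j ht' with h | h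
    · omega
    · exfalso
      have hjt : G.dist j t + 1 = G.dist j t' := h.symm
      by_cases hat : a = t'
      · subst hat
        have htb := closer_unique hG ht'.symm hab hjt hj
        subst htb
        rw [SimpleGraph.dist_self] at ht
        omega
      · obtain ⟨t'', ht'', hd''⟩ := exists_closer hG hat
        have h3 : G.dist j t'' ≤ G.dist j a + G.dist a t'' := hc.dist_triangle
        have c5 : G.dist j a = G.dist a j := dist_comm
        have h4 : G.dist j t'' + 1 = G.dist j t' := by
          rcases hG.dist_eq_dist_add_one_of_adj j ht'' with h' | h' <;> omega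
        have := closer_unique hG ht'.symm ht'' hjt h4
        subst this
        omega

end Vale.Agent.P161
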