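import Vale.Agent.P161.Law

/-!
Comparison of the observation maps of two nested volumes on the same innovations.
-/

namespace Vale.Agent.P161

open MeasureTheory SimpleGraph Finset Function
open scoped unitInterval

variable {V : Type*} [DecidableEq V] {G : SimpleGraph V} {θ ε : ℝ}

/-- Second moment of the posterior mean. -/
noncomputable def msq (G : SimpleGraph V) (θ ε : ℝ) (U : V → I) (S : Finset V) (s : ℕ × V) : ℝ :=
  ∫ g, (mean G θ ε S (before U S s) (sol G θ ε U S g) s.2) ^ 2 ∂(Pg V)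

/-- Innovations computed in volume `S`. -/
noncomputable def innov (G : SimpleGraph V) (θ ε : ℝ) (U : V → I) (S : Finset V)
    (z : ℕ × V → Obs) (q : ℕ × V) : I :=
  Set.projIcc 0 1 zero_le_one (cdfObs (ε * mean G θ ε S (before U S q) z q.2) (z q))

lemma cdfObs_mem {a : ℝ} (ha : |a| < 1) (z : Obs) : cdfObs a z ∈ Set.Icc (0 : ℝ) 1 := by
  have l := (cdfObs_le_iff ha (z := (-1 : ℝ)) (by norm_num) z.abs_le).2 (Obs.bounds z).1
  have u := (cdfObs_le_iff ha (w := (1 : ℝ)) z.abs_le (by norm_num)).2 (Obs.bounds z).2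
  simp only [cdfObs] at l u ⊢
  constructor <;> linarith

lemma abs_eps_mean_lt (h0 : 0 ≤ θ) (h1 : θ < 1) (hε : 0 ≤ ε) (hε1 : ε < 1) (S : Finset V)
    (P : Finset (ℕ × V)) (z : ℕ × V → Obs) (v : V) : |ε * mean G θ ε S P z v| < 1 := by
  rw [abs_mul, abs_of_nonneg hε]
  exact lt_of_le_of_lt (mul_le_of_le_one_right hε (abs_mean_le h0 h1 hε hε1 _ _ _ _)) hε1

lemma innov_coe (h0 : 0 ≤ θ) (h1 : θ < 1) (hε : 0 ≤ ε) (hε1 : ε < 1) (U : V → I) (S : Finset V)
    (z : ℕ × V → Obs) (q : ℕ × V) :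
    (innov G θ ε U S z q : ℝ) = cdfObs (ε * mean G θ ε S (before U S q) z q.2) (z q) := by
  rw [innov, Set.projIcc_of_mem _ (cdfObs_mem (abs_eps_mean_lt h0 h1 hε hε1 _ _ _ _) _)]

lemma innov_sol (h0 : 0 ≤ θ) (h1 : θ < 1) (hε : 0 ≤ ε) (hε1 : ε < 1) (U : V → I) (S : Finset V)
    (g : ℕ × V → I) (q : ℕ × V) : innov G θ ε U S (sol G θ ε U S g) q = g q := by
  refine Subtype.ext ?_
  have h := cdfObs_qObs
    (abs_eps_mean_lt (G := G) h0 h1 hε hε1 S (before U S q) (sol G θ ε U S g) q.2).le (g q)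
  rw [innov_coe h0 h1 hε hε1, sol_eq U S g q]
  exact h

lemma sol_innov (h0 : 0 ≤ θ) (h1 : θ < 1) (hε : 0 ≤ ε) (hε1 : ε < 1) (U : V → I) (S : Finset V)
    (z : ℕ × V → Obs) (q : ℕ × V) : sol G θ ε U S (innov G θ ε U S z) q = z q := by
  refine (eq_sol_of_fixed (g' := innov G θ ε U S z) (z := z) Set.univ
    (fun _ _ _ _ => Set.mem_univ _) (fun _ _ => rfl) (fun s _ => ?_) q (Set.mem_univ _)).symm
  have ha := abs_eps_mean_lt (G := G) h0 h1 hε hε1 S (before U S s) z s.2
  have e : cdfObs (ε * mean G θ ε S (before U S s) z s.2) (z s) =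
      cdfObs (ε * mean G θ ε S (before U S s) z s.2) (step G θ ε U S (innov G θ ε U S z) z s) := by
    rw [step, cdfObs_qObs ha.le, innov_coe h0 h1 hε hε1]
  exact le_antisymm ((cdfObs_le_iff ha (Obs.abs_le _) (Obs.abs_le _)).1 e.le)
    ((cdfObs_le_iff ha (Obs.abs_le _) (Obs.abs_le _)).1 e.ge)

lemma measurable_innov (U : V → I) (S : Finset V) :
    Measurable (fun z : ℕ × V → Obs => innov G θ ε U S z) := by
  refine measurable_pi_lambda _ fun q => ?_
  refine continuous_projIcc.measurable.fun_comp ?_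
  have h1 : Measurable fun z : ℕ × V → Obs => ε * mean G θ ε S (before U S q) z q.2 :=
    (measurable_mean S _ _).const_mul _
  have h2 : Measurable fun z : ℕ × V → Obs => (z q : ℝ) :=
    measurable_subtype_coe.fun_comp (measurable_pi_apply q)
  unfold cdfObs
  exact ((h2.add_const 1).div_const 2).add ((h1.mul ((h2.pow_const 2).sub_const 1)).div_const 4)

lemma sitesUpTo_subset {S S' : Finset V} (h : S ⊆ S') {i j : ℕ} (hij : i ≤ j) :
    sitesUpTo S i ⊆ sitesUpTo S' j :=
  Finset.product_subset_product (Finset.range_mono (by omega)) h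

lemma before_subset_sites {U : V → I} {S : Finset V} {q : ℕ × V} :
    before U S q ⊆ sitesUpTo S q.1 := Finset.filter_subset _ _

lemma before_mono {U : V → I} {S S' : Finset V} (h : S ⊆ S') (q : ℕ × V) :
    before U S q ⊆ before U S' q := fun r hr =>
  mem_before.2 ⟨h (mem_before.1 hr).1, (mem_before.1 hr).2⟩

lemma mean_dep_sites {U : V → I} {S S' : Finset V} (hSS' : S ⊆ S') {k : ℕ} {q : ℕ × V}
    (hq : q.1 ≤ k) {z z' : ℕ × V → Obs} (h : ∀ r ∈ sitesUpTo S' k, z r = z' r) :
    mean G θ ε S (before U S q) z q.2 = mean G θ ε S (before U S q) z' q.2 :=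
  mean_congr (fun r hr => h r (sitesUpTo_subset hSS' hq (before_subset_sites hr))) _

/-- The observations of the larger volume, restricted, have the law of the smaller one. -/
lemma expect_restrict (hG : G.IsTree) (h0 : 0 ≤ θ) (h1 : θ < 1) (hε : 0 ≤ ε) (hε1 : ε < 1)
    {U : V → I} {S S' : Finset V} (hS : Conn G S) (hS' : Conn G S') (hSS' : S ⊆ S') {o : V}
    (ho : o ∈ S) (hU : Set.InjOn U S') (N : ℕ) {F : (ℕ × V → Obs) → ℝ} (hF : Measurable F)
    {C : ℝ} (hC : ∀ z, |F z| ≤ C)
    (hdep : ∀ z z', (∀ q ∈ sitesUpTo S N, z q = z' q) → F z = F z') :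
    ∫ g, F (sol G θ ε U S' g) ∂(Pg V) = ∫ g, F (sol G θ ε U S g) ∂(Pg V) := by
  rw [expect_sol hG h0 h1 hε hε1 hS' (hSS' ho) hU N hF hC
      (fun z z' h => hdep z z' fun q hq => h q (sitesUpTo_subset hSS' le_rfl hq)),
    expect_sol hG h0 h1 hε hε1 hS ho (hU.mono (Finset.coe_subset.2 hSS')) N hF hC hdep]
  simp only [den]
  rw [integral_marg h0 h1 hε hε1 S' hF hC hdep _ (sitesUpTo_subset hSS' le_rfl)]
  refine integral_congr_ae (ae_of_all _ fun z => ?_)
  simp only
  rw [pexp_consistent hG hS ho hS' hSS' (P := sitesUpTo S N)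
    (fun q hq => (Finset.mem_product.1 hq).2) z (fun _ _ _ => rfl)]

/-- The tower property: the squared distance of posterior means is the gap of second moments. -/
lemma tower (hG : G.IsTree) (h0 : 0 ≤ θ) (h1 : θ < 1) (hε : 0 ≤ ε) (hε1 : ε < 1)
    {U : V → I} {S S' : Finset V} (hS : Conn G S) (hS' : Conn G S') (hSS' : S ⊆ S')
    (hU : Set.InjOn U S') {s : ℕ × V} (hs : s.2 ∈ S) :
    ∫ g, (mean G θ ε S' (before U S' s) (sol G θ ε U S' g) s.2 -
        mean G θ ε S (before U S s) (sol G θ ε U S' g) s.2) ^ 2 ∂(Pg V) =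
      msq G θ ε U S' s - msq G θ ε U S s := by
  set m' := fun z : ℕ × V → Obs => mean G θ ε S' (before U S' s) z s.2 with hm'
  set m := fun z : ℕ × V → Obs => mean G θ ε S (before U S s) z s.2 with hm
  have hmm' : Measurable m' := measurable_mean _ _ _
  have hmm : Measurable m := measurable_mean _ _ _
  have b' : ∀ z, |m' z| ≤ 1 := fun z => abs_mean_le h0 h1 hε hε1 _ _ _ _
  have b : ∀ z, |m z| ≤ 1 := fun z => abs_mean_le h0 h1 hε hε1 _ _ _ _
  have hS'dep : ∀ z z', (∀ q ∈ sitesUpTo S' s.1, z q = z' q) → m' z = m' z' ∧ m z = m z' :=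
    fun z z' h => ⟨mean_dep_sites (Finset.Subset.refl S') le_rfl h, mean_dep_sites hSS' le_rfl h⟩
  have bb : ∀ x y : ℝ, |x| ≤ 1 → |y| ≤ 1 → |x * y| ≤ 1 := fun x y hx hy => by
    rw [abs_mul]; exact mul_le_one₀ hx (abs_nonneg _) hy
  have key : ∫ g, m' (sol G θ ε U S' g) * m (sol G θ ε U S' g) ∂(Pg V) =
      ∫ g, m (sol G θ ε U S' g) * m (sol G θ ε U S' g) ∂(Pg V) := by
    rw [expect_sol hG h0 h1 hε hε1 hS' (hSS' hs) hU s.1 (F := fun z => m' z * m z) (C := 1)
        (hmm'.mul hmm) (fun z => bb _ _ (b' z) (b z))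
        (fun z z' h => by rw [(hS'dep z z' h).1, (hS'dep z z' h).2]),
      expect_sol hG h0 h1 hε hε1 hS' (hSS' hs) hU s.1 (F := fun z => m z * m z) (C := 1)
        (hmm.mul hmm) (fun z => bb _ _ (b z) (b z))
        (fun z z' h => by rw [(hS'dep z z' h).2])]
    simp only [den]
    have hdep_b : ∀ z z', (∀ q ∈ before U S s, z q = z' q) → m z = m z' :=
      fun z z' h => mean_congr h _
    rw [integral_marg h0 h1 hε hε1 S' (F := fun z => m' z * m z) (hmm'.mul hmm)
        (fun z => bb _ _ (b' z) (b z)) (P := before U S' s)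
        (fun z z' h => congrArg₂ (· * ·) (mean_congr h _)
          (hdep_b z z' fun q hq => h q (before_mono hSS' s hq))) _ before_subset_sites,
      integral_marg h0 h1 hε hε1 S' (F := fun z => m z * m z) (hmm.mul hmm)
        (fun z => bb _ _ (b z) (b z)) (P := before U S s)
        (fun z z' h => by rw [hdep_b z z' h]) _
        (before_subset_sites.trans (sitesUpTo_subset hSS' le_rfl))]
    have e1 : ∀ z, m' z * m z * pexp G θ ε S' (before U S' s) z (fun _ => 1) =
        m z * pexp G θ ε S' (before U S' s) z (fun A => spin A s.2) := by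
      intro z
      have := (den_pos (G := G) h0 h1 hε hε1 S' (before U S' s) z).ne'
      simp only [hm', mean, den] at this ⊢
      field_simp
    simp only [e1]
    rw [integral_marg h0 h1 hε hε1 S' hmm (fun z => b z) hdep_b _ (before_mono hSS' s)]
    refine integral_congr_ae (ae_of_all _ fun z => ?_)
    have hP : ∀ q ∈ before U S s, q.2 ∈ S := fun q hq => (mem_before.1 hq).1
    simp only
    rw [pexp_consistent hG hS hs hS' hSS' hP z (φ := fun _ => 1) (fun _ _ _ => rfl),
      pexp_consistent hG hS hs hS' hSS' hP z (φ := fun A => spin A s.2)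
        (fun A v hv => spin_insert_of_ne (fun h : s.2 = v => hv (h ▸ hs)))]
    have := (den_pos (G := G) h0 h1 hε hε1 S (before U S s) z).ne'
    simp only [hm, mean, den] at this ⊢
    field_simp
  have hres : ∫ g, m (sol G θ ε U S' g) * m (sol G θ ε U S' g) ∂(Pg V) = msq G θ ε U S s := by
    rw [expect_restrict hG h0 h1 hε hε1 hS hS' hSS' hs hU s.1 (F := fun z => m z * m z)
      (hmm.mul hmm) (fun z => bb _ _ (b z) (b z))
      (fun z z' h => by rw [show m z = m z' from mean_dep_sites (Finset.Subset.refl S) le_rfl h])]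
    simp only [msq, hm, sq]
  have hint : ∀ F : (ℕ × V → Obs) → ℝ, Measurable F → (∀ z, |F z| ≤ 1) →
      Integrable (fun g => F (sol G θ ε U S' g)) (Pg V) := fun F hF hb =>
    integrable_of_bounded (hF.fun_comp (measurable_sol U S')) fun g => hb _
  have i1 := hint (fun z => m' z * m' z) (hmm'.mul hmm') fun z => bb _ _ (b' z) (b' z)
  have i2 := hint (fun z => m z * m z) (hmm.mul hmm) fun z => bb _ _ (b z) (b z)
  have i3 := hint (fun z => m' z * m z) (hmm'.mul hmm) fun z => bb _ _ (b' z) (b z)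
  have e : (fun g => (m' (sol G θ ε U S' g) - m (sol G θ ε U S' g)) ^ 2) = fun g =>
      m' (sol G θ ε U S' g) * m' (sol G θ ε U S' g) + m (sol G θ ε U S' g) * m (sol G θ ε U S' g) -
        2 * (m' (sol G θ ε U S' g) * m (sol G θ ε U S' g)) := by
    funext g; ring
  calc ∫ g, (m' (sol G θ ε U S' g) - m (sol G θ ε U S' g)) ^ 2 ∂(Pg V)
      = ∫ g, m' (sol G θ ε U S' g) * m' (sol G θ ε U S' g) ∂(Pg V) +
          ∫ g, m (sol G θ ε U S' g) * m (sol G θ ε U S' g) ∂(Pg V) -
          2 * ∫ g, m' (sol G θ ε U S' g) * m (sol G θ ε U S' g) ∂(Pg V) := by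
        rw [e, integral_sub (i1.fun_add i2) (i3.const_mul 2), integral_add i1 i2,
          integral_const_mul]
    _ = _ := by
        rw [key, hres]
        simp only [msq, hm', sq]
        ring

lemma msq_mono (hG : G.IsTree) (h0 : 0 ≤ θ) (h1 : θ < 1) (hε : 0 ≤ ε) (hε1 : ε < 1)
    {U : V → I} {S S' : Finset V} (hS : Conn G S) (hS' : Conn G S') (hSS' : S ⊆ S')
    (hU : Set.InjOn U S') {s : ℕ × V} (hs : s.2 ∈ S) :
    msq G θ ε U S s ≤ msq G θ ε U S' s := by
  have : (0 : ℝ) ≤ ∫ g, (mean G θ ε S' (before U S' s) (sol G θ ε U S' g) s.2 -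
      mean G θ ε S (before U S s) (sol G θ ε U S' g) s.2) ^ 2 ∂(Pg V) :=
    integral_nonneg fun g => sq_nonneg _
  rw [tower hG h0 h1 hε hε1 hS hS' hSS' hU hs] at this
  linarith

/-- The sites of `S` up to layer `s.1` within distance `r` of `s`. -/
noncomputable def nearSites (G : SimpleGraph V) (S : Finset V) (s : ℕ × V) (r : ℕ) :
    Finset (ℕ × V) :=
  (sitesUpTo S s.1).filter (fun j => G.dist s.2 j.2 < r)

/-- The sites of `S` up to layer `s.1` at distance at least `r` from `s`. -/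
noncomputable def farSites (G : SimpleGraph V) (S : Finset V) (s : ℕ × V) (r : ℕ) :
    Finset (ℕ × V) :=
  (sitesUpTo S s.1).filter (fun j => r ≤ G.dist s.2 j.2)

/-- The volume comparison. -/
lemma compare (hG : G.IsTree) (h0 : 0 ≤ θ) (h1 : θ < 1) (hε : 0 ≤ ε) (hε4 : ε ≤ 1 / 4)
    {ρ M : ℝ} (hρ : 0 ≤ ρ) (hM : 0 ≤ M)
    (hconv : ∀ (i j : V) (T : Finset V),
      ∑ t ∈ T, θ ^ G.dist i t * ρ ^ G.dist t j ≤ M * ρ ^ G.dist i j)
    (hεM : 2 * ε ^ 2 * M ≤ 1 / 3)
    {U : V → I} {S S' : Finset V} (hS : Conn G S) (hS' : Conn G S') (hSS' : S ⊆ S')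
    (hU : Set.InjOn U S') {s : ℕ × V} (hs : s.2 ∈ S) (r : ℕ) {δ δ' : ℝ} (hδ : 0 < δ)
    (hδ' : 0 < δ') :
    ∫ g, |(sol G θ ε U S' g s : ℝ) - sol G θ ε U S g s| ∂(Pg V) ≤
      δ + (∑ j ∈ farSites G S s r, (infl s.1 * ρ ^ G.dist s.2 j.2) ^ 2) / δ +
      ∑ j ∈ nearSites G S s r, infl s.1 * ρ ^ G.dist s.2 j.2 *
          (δ' + (msq G θ ε U S' j - msq G θ ε U S j) / δ') := by
  have hε1 : ε < 1 := by linarith
  set c := fun j : ℕ × V => infl s.1 * ρ ^ G.dist s.2 j.2 with hc
  have hc0 : ∀ j, 0 ≤ c j := fun j => mul_nonneg (infl_nonneg _) (pow_nonneg hρ _)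
  set T := farSites G S s r with hT
  set f := fun g : ℕ × V → I => (sol G θ ε U S g s : ℝ) with hf
  set K := avg (volume : Measure I) T f with hK
  set h := fun g : ℕ × V → I => innov G θ ε U S (sol G θ ε U S' g) with hh
  have hfm : Measurable f :=
    measurable_subtype_coe.fun_comp ((measurable_pi_apply s).fun_comp (measurable_sol U S))
  have hfC : ∀ g, |f g| ≤ 1 := fun g => Obs.abs_le _
  have hKm : Measurable K := measurable_avg _ T hfm
  have hKC : ∀ g, |K g| ≤ 1 := abs_avg_le _ T hfC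
  have hhm : Measurable h := (measurable_innov U S).fun_comp (measurable_sol U S')
  have hinfl : ∀ a b : ℕ × V → I,
      |f a - f b| ≤ ∑ j ∈ sitesUpTo S s.1, c j * |(a j : ℝ) - b j| := fun a b =>
    sol_influence hG h0 h1 hε hε4 hρ hM hconv hεM U hS a b hs
  have hfdep : ∀ a b : ℕ × V → I, (∀ q ∈ sitesUpTo S s.1, a q = b q) → f a = f b := by
    intro a b hab
    simp only [hf]
    rw [sol_congr fun q hq => ?_]
    rw [Finset.mem_insert] at hq
    rcases hq with rfl | hq
    · exact hab _ (Finset.mem_product.2 ⟨Finset.self_mem_range_succ _, hs⟩)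
    · exact hab q (before_subset_sites hq)
  have hdiff : ∀ j ∈ T, ∀ (y : ℕ × V → I) (x : I), |f (update y j x) - f y| ≤ c j := by
    intro j hj y x
    refine (hinfl _ _).trans ((Finset.sum_eq_single_of_mem j (Finset.mem_filter.1 hj).1
      (fun q _ hq => by rw [update_of_ne hq]; simp)).le.trans ?_)
    refine mul_le_of_le_one_right (hc0 j) ?_
    rw [update_self, abs_le]
    exact ⟨by linarith [x.2.1, (y j).2.2], by linarith [x.2.2, (y j).2.1]⟩
  have hES : ∫ g, (f g - K g) ^ 2 ∂(Pg V) ≤ ∑ j ∈ T, c j ^ 2 :=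
    integral_sub_avg_sq_le (volume : Measure I) c T f 1 hfm hfC hdiff
  have hb : ∀ g, |(f g - K g) ^ 2| ≤ 4 := fun g => by
    rw [abs_pow]
    calc |f g - K g| ^ 2 ≤ 2 ^ 2 := pow_le_pow_left₀ (abs_nonneg _)
          ((abs_sub _ _).trans (by linarith [hfC g, hKC g])) 2
      _ = 4 := by norm_num
  have hfKdep : ∀ a b : ℕ × V → I, (∀ q ∈ sitesUpTo S s.1, a q = b q) →
      (f a - K a) ^ 2 = (f b - K b) ^ 2 := by
    intro a b hab
    rw [hfdep a b hab, show K a = K b from ?_]
    refine integral_congr_ae (ae_of_all _ fun x => hfdep _ _ fun q hq => ?_)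
    by_cases hqT : q ∈ T
    · simp [Finset.piecewise_eq_of_mem _ _ _ hqT]
    · simp [Finset.piecewise_eq_of_notMem _ _ _ hqT, hab q hq]
  have hlawh : ∫ g, (f (h g) - K (h g)) ^ 2 ∂(Pg V) = ∫ g, (f g - K g) ^ 2 ∂(Pg V) := by
    rw [hh, expect_restrict hG h0 h1 hε hε1 hS hS' hSS' hs hU s.1
      (F := fun z => (f (innov G θ ε U S z) - K (innov G θ ε U S z)) ^ 2)
      (((hfm.sub hKm).pow_const 2).fun_comp (measurable_innov U S)) (C := 4) (fun z => hb _)
      (fun z z' hzz => hfKdep _ _ fun q hq => by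
        have hq1 : q.1 ≤ s.1 := by
          simpa [Nat.lt_succ_iff] using (Finset.mem_product.1 hq).1
        rw [innov, innov, mean_dep_sites (Finset.Subset.refl S) hq1 hzz, hzz q hq])]
    refine integral_congr_ae (ae_of_all _ fun g => ?_)
    simp only
    rw [funext (innov_sol h0 h1 hε hε1 U S g)]
  have htarget : ∀ g, (sol G θ ε U S' g s : ℝ) = f (h g) := fun g => by
    simp only [hf, hh]; rw [sol_innov h0 h1 hε hε1]
  have hmid : ∀ g, |K (h g) - K g| ≤ ∑ j ∈ nearSites G S s r, c j *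
      |mean G θ ε S' (before U S' j) (sol G θ ε U S' g) j.2 -
        mean G θ ε S (before U S j) (sol G θ ε U S' g) j.2| := by
    intro g
    refine abs_avg_sub_le _ T hfm hfC _ _ fun x => (hinfl _ _).trans ?_
    rw [← Finset.sum_filter_add_sum_filter_not (sitesUpTo S s.1) (fun j => G.dist s.2 j.2 < r)]
    have hz : ∑ j ∈ (sitesUpTo S s.1).filter (fun j => ¬ G.dist s.2 j.2 < r),
        c j * |(T.piecewise x (h g) j : ℝ) - T.piecewise x g j| = 0 := by
      refine Finset.sum_eq_zero fun j hj => ?_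
      have : j ∈ T := Finset.mem_filter.2
        ⟨(Finset.mem_filter.1 hj).1, not_lt.1 (Finset.mem_filter.1 hj).2⟩
      simp [Finset.piecewise_eq_of_mem _ _ _ this]
    rw [hz, add_zero]
    refine Finset.sum_le_sum fun j hj => mul_le_mul_of_nonneg_left ?_ (hc0 j)
    have hjT : j ∉ T := fun hjT => by
      have h1 := (Finset.mem_filter.1 hjT).2
      have h2 := (Finset.mem_filter.1 hj).2
      omega
    rw [Finset.piecewise_eq_of_notMem _ _ _ hjT, Finset.piecewise_eq_of_notMem _ _ _ hjT]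
    have eg : (g j : ℝ) = cdfObs (ε * mean G θ ε S' (before U S' j) (sol G θ ε U S' g) j.2)
        (sol G θ ε U S' g j) := by
      rw [← innov_coe h0 h1 hε hε1, innov_sol h0 h1 hε hε1]
    simp only [hh]
    rw [innov_coe h0 h1 hε hε1, eg]
    set z := (sol G θ ε U S' g j : ℝ)
    set a := mean G θ ε S (before U S j) (sol G θ ε U S' g) j.2
    set b := mean G θ ε S' (before U S' j) (sol G θ ε U S' g) j.2
    have : cdfObs (ε * a) z - cdfObs (ε * b) z = (b - a) * (ε * (1 - z ^ 2) / 4) := by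
      unfold cdfObs; ring
    rw [this, abs_mul]
    refine mul_le_of_le_one_right (abs_nonneg _) ?_
    have hz1 : |z| ≤ 1 := Obs.abs_le _
    have hz2 : 0 ≤ 1 - z ^ 2 := by nlinarith [abs_nonneg z, sq_abs z]
    rw [abs_of_nonneg (div_nonneg (mul_nonneg hε hz2) (by norm_num))]
    nlinarith [sq_nonneg z]
  have habs : ∀ {t : ℝ}, 0 < t → ∀ x : ℝ, |x| ≤ t / 2 + x ^ 2 / (2 * t) := by
    intro t ht x
    have e : t / 2 + x ^ 2 / (2 * t) - |x| = (|x| - t) ^ 2 / (2 * t) := by
      field_simp; rw [sub_sq, sq_abs]; ring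
    have : 0 ≤ (|x| - t) ^ 2 / (2 * t) := div_nonneg (sq_nonneg _) (by linarith)
    linarith
  set d := fun (j : ℕ × V) (g : ℕ × V → I) =>
    mean G θ ε S' (before U S' j) (sol G θ ε U S' g) j.2 -
      mean G θ ε S (before U S j) (sol G θ ε U S' g) j.2
  have hpt : ∀ g, |(sol G θ ε U S' g s : ℝ) - sol G θ ε U S g s| ≤
      δ + ((f (h g) - K (h g)) ^ 2 + (f g - K g) ^ 2) / (2 * δ) +
      ∑ j ∈ nearSites G S s r, c j * (δ' + d j g ^ 2 / δ') := by
    intro g
    rw [htarget g]
    have e1 : f (h g) - f g = (f (h g) - K (h g)) + (K (h g) - K g) + (K g - f g) := by ring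
    rw [e1]
    refine (abs_add_three _ _ _).trans ?_
    have h3 : |K g - f g| ≤ δ / 2 + (f g - K g) ^ 2 / (2 * δ) := by
      rw [abs_sub_comm]; exact habs hδ _
    have h2 : |K (h g) - K g| ≤ ∑ j ∈ nearSites G S s r, c j * (δ' + d j g ^ 2 / δ') := by
      refine (hmid g).trans (Finset.sum_le_sum fun j _ => mul_le_mul_of_nonneg_left ?_ (hc0 j))
      refine (habs hδ' _).trans (add_le_add (by linarith) ?_)
      exact div_le_div_of_nonneg_left (sq_nonneg _) hδ' (by linarith)
    have h1 := habs hδ (f (h g) - K (h g))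
    rw [add_div]
    linarith
  have hdm : ∀ j, Measurable (d j) := fun j =>
    ((measurable_mean _ _ _).fun_comp (measurable_sol U S')).sub
      ((measurable_mean _ _ _).fun_comp (measurable_sol U S'))
  have hd2 : ∀ j g, |d j g ^ 2| ≤ 4 := fun j g => by
    rw [abs_pow]
    calc |d j g| ^ 2 ≤ 2 ^ 2 := pow_le_pow_left₀ (abs_nonneg _) ((abs_sub _ _).trans (by
          linarith [abs_mean_le (G := G) h0 h1 hε hε1 S' (before U S' j) (sol G θ ε U S' g) j.2,
            abs_mean_le (G := G) h0 h1 hε hε1 S (before U S j) (sol G θ ε U S' g) j.2])) 2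
      _ = 4 := by norm_num
  have iA : Integrable (fun g => (f (h g) - K (h g)) ^ 2) (Pg V) :=
    integrable_of_bounded (((hfm.sub hKm).pow_const 2).fun_comp hhm) fun g => hb _
  have iB : Integrable (fun g => (f g - K g) ^ 2) (Pg V) :=
    integrable_of_bounded ((hfm.sub hKm).pow_const 2) hb
  have iD : ∀ j, Integrable (fun g => c j * (δ' + d j g ^ 2 / δ')) (Pg V) := fun j =>
    ((integrable_const δ').fun_add
      ((integrable_of_bounded ((hdm j).pow_const 2) (hd2 j)).div_const δ')).const_mul _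
  have iS : Integrable (fun g => ∑ j ∈ nearSites G S s r, c j * (δ' + d j g ^ 2 / δ')) (Pg V) :=
    integrable_finsetSum _ fun j _ => iD j
  have iL : Integrable (fun g => |(sol G θ ε U S' g s : ℝ) - sol G θ ε U S g s|) (Pg V) :=
    integrable_of_bounded (((measurable_subtype_coe.fun_comp
      ((measurable_pi_apply s).fun_comp (measurable_sol U S'))).sub hfm).abs) (C := 2) fun g => by
      rw [abs_abs]
      exact (abs_sub _ _).trans (by
        linarith [Obs.abs_le (sol G θ ε U S' g s), Obs.abs_le (sol G θ ε U S g s)])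
  have i12 : Integrable (fun g => δ + ((f (h g) - K (h g)) ^ 2 + (f g - K g) ^ 2) / (2 * δ))
      (Pg V) := (integrable_const δ).fun_add ((iA.fun_add iB).div_const _)
  refine (integral_mono iL (i12.fun_add iS) hpt).trans ?_
  rw [integral_add i12 iS, integral_add (integrable_const δ) ((iA.fun_add iB).div_const _),
    integral_div, integral_add iA iB, hlawh, integral_finsetSum _ (fun j _ => iD j)]
  refine add_le_add (add_le_add (by simp) ?_) (Finset.sum_le_sum fun j hj => ?_)
  · rw [show (∫ g, (f g - K g) ^ 2 ∂Pg V) + ∫ g, (f g - K g) ^ 2 ∂Pg V =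
      2 * ∫ g, (f g - K g) ^ 2 ∂Pg V by ring, mul_div_mul_left _ _ (by norm_num : (2:ℝ) ≠ 0)]
    exact div_le_div_of_nonneg_right hES hδ.le
  · have hjS : j.2 ∈ S := (Finset.mem_product.1 (Finset.mem_filter.1 hj).1).2
    rw [integral_const_mul, integral_add (integrable_const δ')
      ((integrable_of_bounded ((hdm j).pow_const 2) (hd2 j)).div_const δ'), integral_div,
      tower hG h0 h1 hε hε1 hS hS' hSS' hU hjS]
    simp [hc]

end Vale.Agent.P161
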