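import Vale.Agent.P161.Tree

/-!
Finite volume free Ising weights on a tree: consistency, and the covariance bound
`|Cov(σ_i, σ_j)| ≤ θ ^ dist(i,j)` under arbitrary positive single-site tilts.
-/

namespace Vale.Agent.P161

open SimpleGraph Finset

variable {V : Type*} [DecidableEq V]

/-- A configuration on a finite set is encoded by its set of plus spins. -/
noncomputable def spin (A : Finset V) (v : V) : ℝ := if v ∈ A then 1 else -1

lemma spin_mul_self (A : Finset V) (v : V) : spin A v * spin A v = 1 := by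
  unfold spin; split_ifs <;> norm_num

lemma spin_cases (A : Finset V) (v : V) : spin A v = 1 ∨ spin A v = -1 := by
  unfold spin; split_ifs <;> simp

lemma abs_spin (A : Finset V) (v : V) : |spin A v| = 1 := by
  rcases spin_cases A v with h | h <;> simp [h]

lemma spin_insert_of_ne {A : Finset V} {u v : V} (h : u ≠ v) :
    spin (insert v A) u = spin A u := by
  simp [spin, Finset.mem_insert, h]

lemma spin_insert_self (A : Finset V) (v : V) : spin (insert v A) v = 1 := by simp [spin]

lemma spin_of_notMem {A : Finset V} {v : V} (h : v ∉ A) : spin A v = -1 := by simp [spin, h]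

/-- Edge factor `(1 + θ σ_u σ_v)/2`. -/
noncomputable def ew (θ : ℝ) (A : Finset V) : Sym2 V → ℝ :=
  Sym2.lift ⟨fun u v => (1 + θ * spin A u * spin A v) / 2, fun u v => by ring⟩

lemma ew_mk (θ : ℝ) (A : Finset V) (u v : V) :
    ew θ A s(u, v) = (1 + θ * spin A u * spin A v) / 2 := rfl

lemma ew_pos {θ : ℝ} (h0 : 0 ≤ θ) (h1 : θ < 1) (A : Finset V) (e : Sym2 V) : 0 < ew θ A e := by
  induction e using Sym2.ind with
  | _ u v =>
    rw [ew_mk]
    rcases spin_cases A u with h | h <;> rcases spin_cases A v with h' | h' <;>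
      simp only [h, h'] <;> linarith

open scoped Classical in
/-- The edges of `G` with both endpoints in `S`. -/
noncomputable def edgesIn (G : SimpleGraph V) (S : Finset V) : Finset (Sym2 V) :=
  S.sym2.filter (fun e => e ∈ G.edgeSet)

lemma mk_mem_edgesIn {G : SimpleGraph V} {S : Finset V} {u v : V} :
    s(u, v) ∈ edgesIn G S ↔ u ∈ S ∧ v ∈ S ∧ G.Adj u v := by
  simp only [edgesIn, Finset.mem_filter, Finset.mk_mem_sym2_iff, SimpleGraph.mem_edgeSet]
  tauto

/-- Free Ising weight on `S`. -/
noncomputable def wt (G : SimpleGraph V) (θ : ℝ) (S A : Finset V) : ℝ :=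
  1 / 2 * ∏ e ∈ edgesIn G S, ew θ A e

lemma wt_pos {G : SimpleGraph V} {θ : ℝ} (h0 : 0 ≤ θ) (h1 : θ < 1) (S A : Finset V) :
    0 < wt G θ S A :=
  mul_pos (by norm_num) (Finset.prod_pos fun e _ => ew_pos h0 h1 A e)

/-- Tilted, unnormalised expectation. -/
noncomputable def zsum (G : SimpleGraph V) (θ : ℝ) (S : Finset V) (f : V → ℝ → ℝ)
    (φ : Finset V → ℝ) : ℝ :=
  ∑ A ∈ S.powerset, wt G θ S A * (∏ u ∈ S, f u (spin A u)) * φ A

lemma zsum_leaf {G : SimpleGraph V} {θ : ℝ} {S : Finset V} {v p : V} (hv : v ∈ S)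
    (hp : p ∈ S.erase v) (hadj : G.Adj v p) (huniq : ∀ u ∈ S, G.Adj v u → u = p)
    (f : V → ℝ → ℝ) (φ : Finset V → ℝ) :
    zsum G θ S f φ = zsum G θ (S.erase v) f (fun A =>
      φ A * f v (-1) * ((1 - θ * spin A p) / 2) +
      φ (insert v A) * f v 1 * ((1 + θ * spin A p) / 2)) := by
  classical
  obtain ⟨hpv, hpS⟩ := Finset.mem_erase.1 hp
  have hedge : edgesIn G S = insert s(v, p) (edgesIn G (S.erase v)) := by
    ext e
    induction e using Sym2.ind with
    | _ a b =>
      simp only [mk_mem_edgesIn, Finset.mem_insert, Finset.mem_erase, Sym2.eq_iff]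
      constructor
      · rintro ⟨ha, hb, hab⟩
        by_cases hav : a = v
        · subst hav
          exact Or.inl (Or.inl ⟨rfl, huniq b hb hab⟩)
        by_cases hbv : b = v
        · subst hbv
          exact Or.inl (Or.inr ⟨huniq a ha hab.symm, rfl⟩)
        exact Or.inr ⟨⟨hav, ha⟩, ⟨hbv, hb⟩, hab⟩
      · rintro ((⟨rfl, rfl⟩ | ⟨rfl, rfl⟩) | ⟨ha, hb, hab⟩)
        · exact ⟨hv, hpS, hadj⟩
        · exact ⟨hpS, hv, hadj.symm⟩
        · exact ⟨ha.2, hb.2, hab⟩
  have hnot : s(v, p) ∉ edgesIn G (S.erase v) := by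
    rw [mk_mem_edgesIn]
    simp
  have hS : S = insert v (S.erase v) := (Finset.insert_erase hv).symm
  have hw : ∀ A, wt G θ S A = (1 + θ * spin A v * spin A p) / 2 * wt G θ (S.erase v) A := by
    intro A
    rw [wt, hedge, Finset.prod_insert hnot, ew_mk, wt]
    ring
  have hins : ∀ A, wt G θ (S.erase v) (insert v A) = wt G θ (S.erase v) A := by
    intro A
    unfold wt
    congr 1
    refine Finset.prod_congr rfl fun e he => ?_
    induction e using Sym2.ind with
    | _ a b =>
      rw [mk_mem_edgesIn] at he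
      rw [ew_mk, ew_mk, spin_insert_of_ne (Finset.mem_erase.1 he.1).1,
        spin_insert_of_ne (Finset.mem_erase.1 he.2.1).1]
  have hprodins : ∀ A, ∏ u ∈ S.erase v, f u (spin (insert v A) u) =
      ∏ u ∈ S.erase v, f u (spin A u) := fun A =>
    Finset.prod_congr rfl fun u hu => by rw [spin_insert_of_ne (Finset.mem_erase.1 hu).1]
  unfold zsum
  have hsplit : ∀ ψ : Finset V → ℝ, ∑ A ∈ S.powerset, ψ A =
      ∑ A ∈ (S.erase v).powerset, (ψ A + ψ (insert v A)) := by
    intro ψ
    conv_lhs => rw [hS]
    rw [Finset.sum_powerset_insert (Finset.notMem_erase v S), Finset.sum_add_distrib]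
  rw [hsplit]
  refine Finset.sum_congr rfl fun A hA => ?_
  rw [Finset.mem_powerset] at hA
  have hvA : v ∉ A := fun h => Finset.notMem_erase v S (hA h)
  rw [hw, hw, hins, ← Finset.mul_prod_erase S _ hv, ← Finset.mul_prod_erase S _ hv, hprodins,
    spin_of_notMem hvA, spin_insert_self, spin_insert_of_ne hpv]
  ring

/-- Leaf tilt. -/
noncomputable def leafTilt (θ : ℝ) (g : ℝ → ℝ) (s : ℝ) : ℝ :=
  g (-1) * ((1 - θ * s) / 2) + g 1 * ((1 + θ * s) / 2)

lemma zsum_leaf_update {G : SimpleGraph V} {θ : ℝ} {S : Finset V} {v p : V} (hv : v ∈ S)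
    (hp : p ∈ S.erase v) (hadj : G.Adj v p) (huniq : ∀ u ∈ S, G.Adj v u → u = p)
    (f : V → ℝ → ℝ) (φ : Finset V → ℝ) (hφ : ∀ A, v ∉ A → φ (insert v A) = φ A) :
    zsum G θ S f φ = zsum G θ (S.erase v)
      (Function.update f p (fun s => f p s * leafTilt θ (f v) s)) φ := by
  rw [zsum_leaf hv hp hadj huniq]
  unfold zsum
  refine Finset.sum_congr rfl fun A hA => ?_
  rw [Finset.mem_powerset] at hA
  have hvA : v ∉ A := fun h => Finset.notMem_erase v S (hA h)
  rw [← Finset.mul_prod_erase _ _ hp, ← Finset.mul_prod_erase _ _ hp, Function.update_self]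
  have : ∏ u ∈ (S.erase v).erase p,
      Function.update f p (fun s => f p s * leafTilt θ (f v) s) u (spin A u) =
      ∏ u ∈ (S.erase v).erase p, f u (spin A u) :=
    Finset.prod_congr rfl fun u hu => by
      rw [Function.update_of_ne (Finset.mem_erase.1 hu).1]
  rw [this]
  simp only [hφ A hvA, leafTilt]
  ring

lemma zsum_singleton (G : SimpleGraph V) (θ : ℝ) (o : V) (f : V → ℝ → ℝ) (φ : Finset V → ℝ) :
    zsum G θ {o} f φ = 1 / 2 * f o (-1) * φ ∅ + 1 / 2 * f o 1 * φ {o} := by
  have he : edgesIn G {o} = ∅ := by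
    ext e
    induction e using Sym2.ind with
    | _ a b =>
      simp only [mk_mem_edgesIn, Finset.mem_singleton, Finset.notMem_empty, iff_false]
      rintro ⟨rfl, rfl, h⟩
      exact h.ne rfl
  rw [zsum, show ({o} : Finset V) = insert o ∅ from rfl,
    Finset.sum_powerset_insert (Finset.notMem_empty o)]
  simp [wt, he, spin]

lemma zsum_add (G : SimpleGraph V) (θ : ℝ) (S : Finset V) (f : V → ℝ → ℝ)
    (φ ψ : Finset V → ℝ) (a b : ℝ) :
    zsum G θ S f (fun A => a * φ A + b * ψ A) = a * zsum G θ S f φ + b * zsum G θ S f ψ := by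
  simp only [zsum, Finset.mul_sum, ← Finset.sum_add_distrib]
  exact Finset.sum_congr rfl fun A _ => by ring

lemma zsum_congr {G : SimpleGraph V} {θ : ℝ} {S : Finset V} {f : V → ℝ → ℝ}
    {φ ψ : Finset V → ℝ} (h : ∀ A ⊆ S, φ A = ψ A) : zsum G θ S f φ = zsum G θ S f ψ :=
  Finset.sum_congr rfl fun A hA => by rw [h A (Finset.mem_powerset.1 hA)]

lemma abs_zsum_le {G : SimpleGraph V} {θ : ℝ} (h0 : 0 ≤ θ) (h1 : θ < 1) {S : Finset V}
    {f : V → ℝ → ℝ} (hf : ∀ u, 0 < f u 1 ∧ 0 < f u (-1)) {φ : Finset V → ℝ}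
    (hφ : ∀ A, |φ A| ≤ 1) : |zsum G θ S f φ| ≤ zsum G θ S f (fun _ => 1) := by
  unfold zsum
  refine (Finset.abs_sum_le_sum_abs _ _).trans (Finset.sum_le_sum fun A _ => ?_)
  have : 0 < wt G θ S A * ∏ u ∈ S, f u (spin A u) :=
    mul_pos (wt_pos h0 h1 S A) (Finset.prod_pos fun u _ => by
      rcases spin_cases A u with h | h <;> rw [h]
      · exact (hf u).1
      · exact (hf u).2)
  rw [abs_mul, abs_of_pos this]
  exact mul_le_mul_of_nonneg_left (hφ A) this.le

lemma zsum_one_pos {G : SimpleGraph V} {θ : ℝ} (h0 : 0 ≤ θ) (h1 : θ < 1) {S : Finset V}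
    {f : V → ℝ → ℝ} (hf : ∀ u, 0 < f u 1 ∧ 0 < f u (-1)) :
    0 < zsum G θ S f (fun _ => 1) := by
  refine Finset.sum_pos (fun A _ => ?_) ⟨∅, Finset.empty_mem_powerset S⟩
  rw [mul_one]
  refine mul_pos (wt_pos h0 h1 S A) (Finset.prod_pos fun u _ => ?_)
  rcases spin_cases A u with h | h <;> rw [h]
  · exact (hf u).1
  · exact (hf u).2

variable {G : SimpleGraph V}

/-- Consistency of the finite-volume free Ising weights. -/
lemma zsum_consistent (hG : G.IsTree) {θ : ℝ} {D : Finset V} (hD : Conn G D) {o : V}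
    (ho : o ∈ D) (φ : Finset V → ℝ) (hφ : ∀ A v, v ∉ D → φ (insert v A) = φ A) :
    ∀ S, Conn G S → D ⊆ S →
      zsum G θ S (fun _ _ => 1) φ = zsum G θ D (fun _ _ => 1) φ := by
  intro S
  induction hn : S.card using Nat.strong_induction_on generalizing S with
  | _ n ih =>
    subst hn
    intro hS hDS
    by_cases hne : D = S
    · subst hne; rfl
    obtain ⟨v, hv, hvD, p, hp, hadj, -, huniq, hconn⟩ := exists_leaf hG hS hD hDS ho hne
    rw [zsum_leaf_update hv hp hadj huniq _ _ (fun A _ => hφ A v hvD)]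
    have hcard : (S.erase v).card < S.card := Finset.card_erase_lt_of_mem hv
    have hsub : D ⊆ S.erase v := fun x hx =>
      Finset.mem_erase.2 ⟨fun h => hvD (h ▸ hx), hDS hx⟩
    rw [← ih _ hcard (S.erase v) rfl hconn hsub]
    congr 1
    funext u s
    by_cases hu : u = p
    · subst hu
      rw [Function.update_self, leafTilt]
      ring
    · rw [Function.update_of_ne hu]

/-- Total mass one. -/
lemma zsum_one (hG : G.IsTree) {θ : ℝ} {S : Finset V} (hS : Conn G S) {o : V} (ho : o ∈ S) :
    zsum G θ S (fun _ _ => 1) (fun _ => 1) = 1 := by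
  rw [zsum_consistent hG (conn_singleton o) (Finset.mem_singleton_self o) _
    (fun _ _ _ => rfl) S hS (by simpa using ho), zsum_singleton]
  norm_num

/-- Covariance bound for the free Ising model on a finite subtree with arbitrary fields. -/
lemma cov_bound (hG : G.IsTree) {θ : ℝ} (h0 : 0 ≤ θ) (h1 : θ < 1) {j : V} :
    ∀ S, Conn G S → j ∈ S → ∀ i ∈ S, ∀ f : V → ℝ → ℝ, (∀ u, 0 < f u 1 ∧ 0 < f u (-1)) →
      |zsum G θ S f (fun A => spin A i * spin A j) * zsum G θ S f (fun _ => 1) -
        zsum G θ S f (fun A => spin A i) * zsum G θ S f (fun A => spin A j)| ≤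
      θ ^ G.dist i j * zsum G θ S f (fun _ => 1) ^ 2 := by
  intro S
  induction hn : S.card using Nat.strong_induction_on generalizing S with
  | _ n ih =>
    subst hn
    intro hS hj i hi f hf
    by_cases hij : i = j
    · subst hij
      simp only [spin_mul_self, SimpleGraph.dist_self, pow_zero, one_mul]
      have h2 := abs_zsum_le (G := G) h0 h1 (S := S) hf (φ := fun A => spin A i)
        (fun A => (abs_spin A i).le)
      rw [abs_le] at h2 ⊢
      constructor <;> nlinarith
    have hne : ({j} : Finset V) ≠ S := by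
      intro h; rw [← h] at hi; exact hij (Finset.mem_singleton.1 hi)
    obtain ⟨v, hv, hvj, p, hp, hadj, hd, huniq, hconn⟩ :=
      exists_leaf hG hS (conn_singleton j) (by simpa using hj) (Finset.mem_singleton_self j) hne
    rw [Finset.mem_singleton] at hvj
    have hjS : j ∈ S.erase v := Finset.mem_erase.2 ⟨Ne.symm hvj, hj⟩
    have hcard : (S.erase v).card < S.card := Finset.card_erase_lt_of_mem hv
    set f' := Function.update f p (fun s => f p s * leafTilt θ (f v) s) with hf'
    have hf'pos : ∀ u, 0 < f' u 1 ∧ 0 < f' u (-1) := by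
      intro u
      by_cases hu : u = p
      · subst hu
        simp only [hf', Function.update_self, leafTilt]
        constructor
        · refine mul_pos (hf u).1 (add_pos (mul_pos (hf v).2 ?_) (mul_pos (hf v).1 ?_)) <;>
            linarith
        · refine mul_pos (hf u).2 (add_pos (mul_pos (hf v).2 ?_) (mul_pos (hf v).1 ?_)) <;>
            linarith
      · simpa only [hf', Function.update_of_ne hu] using hf u
    by_cases hiv : i = v
    · subst hiv
      set a := (f i 1 + f i (-1)) / 2 with ha
      set b := (f i 1 - f i (-1)) / 2 with hb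
      have IH := ih _ hcard (S.erase i) rfl hconn hjS p hp f' hf'pos
      have e1 : ∀ ψ : Finset V → ℝ, (∀ A, i ∉ A → ψ (insert i A) = ψ A) →
          zsum G θ S f ψ = a * zsum G θ (S.erase i) f ψ +
            b * θ * zsum G θ (S.erase i) f (fun A => spin A p * ψ A) := by
        intro ψ hψ
        rw [zsum_leaf hv hp hadj huniq, ← zsum_add]
        refine zsum_congr fun A hA => ?_
        rw [hψ A fun h => Finset.notMem_erase i S (hA h), ha, hb]
        ring
      have e2 : ∀ ψ : Finset V → ℝ, (∀ A, i ∉ A → ψ (insert i A) = ψ A) →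
          zsum G θ S f (fun A => spin A i * ψ A) = b * zsum G θ (S.erase i) f ψ +
            a * θ * zsum G θ (S.erase i) f (fun A => spin A p * ψ A) := by
        intro ψ hψ
        rw [zsum_leaf hv hp hadj huniq, ← zsum_add]
        refine zsum_congr fun A hA => ?_
        have hiA : i ∉ A := fun h => Finset.notMem_erase i S (hA h)
        rw [hψ A hiA, ha, hb, spin_of_notMem hiA, spin_insert_self]
        ring
      have e3 : ∀ ψ : Finset V → ℝ, zsum G θ (S.erase i) f' ψ =
          a * zsum G θ (S.erase i) f ψ +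
            b * θ * zsum G θ (S.erase i) f (fun A => spin A p * ψ A) := by
        intro ψ
        rw [← zsum_add]
        unfold zsum
        refine Finset.sum_congr rfl fun A _ => ?_
        rw [← Finset.mul_prod_erase _ (fun u => f' u (spin A u)) hp,
          ← Finset.mul_prod_erase _ (fun u => f u (spin A u)) hp]
        have : ∏ u ∈ (S.erase i).erase p, f' u (spin A u) =
            ∏ u ∈ (S.erase i).erase p, f u (spin A u) :=
          Finset.prod_congr rfl fun u hu => by
            rw [hf', Function.update_of_ne (Finset.mem_erase.1 hu).1]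
        rw [this, hf', Function.update_self, leafTilt, ha, hb]
        ring
      have hjindep : ∀ A, i ∉ A → spin (insert i A) j = spin A j := fun A _ =>
        spin_insert_of_ne (Ne.symm hij)
      rw [e2 (fun A => spin A j) hjindep, e1 (fun _ => 1) (fun _ _ => rfl),
        e1 (fun A => spin A j) hjindep,
        show (fun A => spin A i) = (fun A => spin A i * (fun _ => (1 : ℝ)) A) by simp,
        e2 (fun _ => 1) (fun _ _ => rfl)]
      rw [e3, e3, e3, e3] at IH
      simp only [mul_one, spin_mul_self, ← mul_assoc, one_mul] at IH ⊢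
      set X := zsum G θ (S.erase i) f (fun _ => 1)
      set P := zsum G θ (S.erase i) f (fun A => spin A p)
      set Q := zsum G θ (S.erase i) f (fun A => spin A j)
      set W := zsum G θ (S.erase i) f (fun A => spin A p * spin A j)
      have hab : |b| ≤ a := by
        rw [abs_le, ha, hb]
        constructor <;> linarith [(hf i).1, (hf i).2]
      have hd' : G.dist i j = G.dist p j + 1 := by
        rw [SimpleGraph.dist_comm (u := i) (v := j), SimpleGraph.dist_comm (u := p) (v := j),
          ← hd]
      have hb2 : b * b ≤ a * a := by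
        have := abs_le.1 hab; nlinarith
      have hcoef : 0 ≤ a * a - b * b := by linarith
      have hcoef' : a * a - b * b ≤ a * a - b * b * θ * θ := by
        nlinarith [mul_self_nonneg b, mul_le_one₀ h1.le h0 h1.le]
      have key : |(a * a - b * b) * (W * X - P * Q)| ≤
          |(a * a - b * b * θ * θ) * (W * X - P * Q)| := by
        rw [abs_mul, abs_mul, abs_of_nonneg hcoef, abs_of_nonneg (hcoef.trans hcoef')]
        exact mul_le_mul_of_nonneg_right hcoef' (abs_nonneg _)
      rw [hd', pow_succ]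
      have lhs_eq : (b * Q + a * θ * W) * (a * X + b * θ * P) -
          (b * X + a * θ * P) * (a * Q + b * θ * W) =
          θ * ((a * a - b * b) * (W * X - P * Q)) := by ring
      have ih_eq : (a * W + b * θ * Q) * (a * X + b * θ * P) -
          (a * P + b * θ * X) * (a * Q + b * θ * W) =
          (a * a - b * b * θ * θ) * (W * X - P * Q) := by ring
      rw [lhs_eq, abs_mul, abs_of_nonneg h0]
      rw [ih_eq] at IH
      calc θ * |(a * a - b * b) * (W * X - P * Q)|
          ≤ θ * (θ ^ G.dist p j * (a * X + b * θ * P) ^ 2) :=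
            mul_le_mul_of_nonneg_left (key.trans IH) h0
        _ = θ ^ G.dist p j * θ * (a * X + b * θ * P) ^ 2 := by ring
    · have hiS : i ∈ S.erase v := Finset.mem_erase.2 ⟨hiv, hi⟩
      have hindep : ∀ u, u ≠ v → ∀ A, v ∉ A → spin (insert v A) u = spin A u :=
        fun u hu A _ => spin_insert_of_ne hu
      rw [zsum_leaf_update hv hp hadj huniq f (fun A => spin A i * spin A j)
          (fun A hA => by rw [hindep i hiv A hA, hindep j (Ne.symm hvj) A hA]),
        zsum_leaf_update hv hp hadj huniq f (fun _ => 1) (fun _ _ => rfl),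
        zsum_leaf_update hv hp hadj huniq f (fun A => spin A i) (hindep i hiv),
        zsum_leaf_update hv hp hadj huniq f (fun A => spin A j) (hindep j (Ne.symm hvj))]
      exact ih _ hcard (S.erase v) rfl hconn hjS i hiS f' hf'pos

end Vale.Agent.P161
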